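import Vale.Agent.P095.NU.Specs
import Vale.Agent.P095.Compare.Absorb
import Vale.Agent.P095.Relative.Finite
import Vale.Agent.P095.Outer.Final

/-!
# P095, all amenable groups, non-unital: absorbing a bounded ratio of copies

Sequences which respect the elements annihilating the ideal from both sides, modulo those elements,
form a C*-algebra containing the ideal as constants and the relative central sequences.  There the
absorption of `P095/Compare/Absorb` applies, with sums of conjugates of `b * b` acting as the unit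
on the fixed element of the ideal.
-/

noncomputable section

namespace Vale.Agent.P095.NU

open Filter Topology BoundedContinuousFunction Finset
open Vale.Agent.P101 Vale.Agent.P101.Cuntz Vale.Agent.P095 Vale.Agent.P095.Relative
open Vale.Agent.P095.Full
open Vale.Agent.P095.Compare (exists_frame exists_approx_factor card_slices)

universe u

variable {B : Type u} [CStarAlgebra B] (K : TestIdeal B)

/-- The constant classes. -/
def constHom : B →⋆ₐ[ℂ] SeqQuot B (atTop : Filter ℕ) :=
  (seqMk B atTop).comp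
    { toFun := BoundedContinuousFunction.const ℕ
      map_one' := rfl
      map_mul' := fun _ _ => rfl
      map_zero' := rfl
      map_add' := fun _ _ => rfl
      commutes' := fun _ => rfl
      map_star' := fun _ => rfl }

theorem constHom_apply (a : B) : constHom a = cst (atTop : Filter ℕ) a := rfl

/-- Classes annihilating the ideal from both sides. -/
def twoAnn : Set (SeqQuot B (atTop : Filter ℕ)) :=
  {x | ∀ a ∈ K.carrier, x * cst atTop a = 0 ∧ cst atTop a * x = 0}

theorem star_twoAnn {x : SeqQuot B (atTop : Filter ℕ)} (hx : x ∈ twoAnn K) :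
    star x ∈ twoAnn K := by
  intro a ha
  obtain ⟨h1, h2⟩ := hx _ (K.star_mem a ha)
  refine ⟨?_, ?_⟩
  · have := congrArg star h2
    rwa [star_mul, star_zero, cst_star, star_star] at this
  · have := congrArg star h1
    rwa [star_mul, star_zero, cst_star, star_star] at this

theorem isClosed_twoAnn : IsClosed (twoAnn K) := by
  have : twoAnn K = ⋂ a ∈ K.carrier,
      {x : SeqQuot B (atTop : Filter ℕ) | x * cst atTop a = 0} ∩ {x | cst atTop a * x = 0} := by
    ext x; simp only [twoAnn, Set.mem_iInter, Set.mem_inter_iff, Set.mem_ofPred_eq]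
  rw [this]
  exact isClosed_biInter fun a _ => (isClosed_eq (by fun_prop) continuous_const).inter
    (isClosed_eq (by fun_prop) continuous_const)

/-- Classes respecting the two-sided annihilator of the ideal. -/
def idealiser : StarSubalgebra ℂ (SeqQuot B (atTop : Filter ℕ)) where
  carrier := {d | ∀ x ∈ twoAnn K, d * x ∈ twoAnn K ∧ x * d ∈ twoAnn K}
  mul_mem' {c d} hc hd x hx := ⟨by rw [mul_assoc]; exact (hc _ (hd x hx).1).1,
    by rw [← mul_assoc]; exact (hd _ (hc x hx).2).2⟩
  one_mem' x hx := by simpa using hx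
  add_mem' {c d} hc hd x hx := by
    have hadd : ∀ y z, y ∈ twoAnn K → z ∈ twoAnn K → y + z ∈ twoAnn K := fun y z hy hz a ha => by
      simp [add_mul, mul_add, hy a ha, hz a ha]
    exact ⟨by rw [add_mul]; exact hadd _ _ (hc x hx).1 (hd x hx).1,
      by rw [mul_add]; exact hadd _ _ (hc x hx).2 (hd x hx).2⟩
  zero_mem' x _ := by
    have h0 : (0 : SeqQuot B (atTop : Filter ℕ)) ∈ twoAnn K := fun a _ => by simp
    simpa using h0
  algebraMap_mem' c x hx := by
    have hs : c • x ∈ twoAnn K := fun a ha => by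
      simp [hx a ha]
    rw [Algebra.algebraMap_eq_smul_one, smul_mul_assoc, one_mul, mul_smul_comm, mul_one]
    exact ⟨hs, hs⟩
  star_mem' {d} hd x hx := by
    obtain ⟨h1, h2⟩ := hd _ (star_twoAnn K hx)
    exact ⟨by simpa using star_twoAnn K h2, by simpa using star_twoAnn K h1⟩

instance idealiser.isClosed : IsClosed (idealiser K : Set (SeqQuot B (atTop : Filter ℕ))) := by
  have : (idealiser K : Set (SeqQuot B (atTop : Filter ℕ))) =
      ⋂ x ∈ twoAnn K, {d | d * x ∈ twoAnn K} ∩ {d | x * d ∈ twoAnn K} := by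
    ext d
    simp only [Set.mem_iInter, Set.mem_inter_iff, Set.mem_ofPred_eq]
    rfl
  rw [this]
  exact isClosed_biInter fun x _ => ((isClosed_twoAnn K).preimage (by fun_prop)).inter
    ((isClosed_twoAnn K).preimage (by fun_prop))

instance idealiser.instCStarAlgebra : CStarAlgebra (idealiser K) :=
  StarSubalgebra.cstarAlgebra _

/-- The annihilator inside its idealiser. -/
def annIdeal : Ideal (idealiser K) where
  carrier := {x | (x : SeqQuot B (atTop : Filter ℕ)) ∈ twoAnn K}
  zero_mem' := fun a _ => by simp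
  add_mem' {x y} hx hy := fun a ha => by simp [add_mul, mul_add, hx a ha, hy a ha]
  smul_mem' c _ hx := (c.2 _ hx).1

instance annIdeal.isTwoSided : (annIdeal K).IsTwoSided where
  mul_mem_of_left {_} c hx := (c.2 _ hx).2

instance annIdeal.isClosed : IsClosed (annIdeal K : Set (idealiser K)) :=
  (isClosed_twoAnn K).preimage continuous_subtype_val

/-- The algebra in which the absorption is computed. -/
def Amb : Type u := idealiser K ⧸ annIdeal K

instance Amb.instCStarAlgebra : CStarAlgebra (Amb K) :=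
  inferInstanceAs (CStarAlgebra (idealiser K ⧸ annIdeal K))

/-- The quotient map. -/
def ambMk : idealiser K →⋆ₐ[ℂ] Amb K := quotStar (annIdeal K)

theorem cst_mem_idealiser {a : B} (ha : a ∈ K.carrier) : cst atTop a ∈ idealiser K := by
  intro x hx
  rw [(hx a ha).1, (hx a ha).2]
  refine ⟨?_, ?_⟩ <;> exact fun k _ => by simp

theorem relCent_le_idealiser : relCent K atTop ≤ idealiser K := by
  intro z hz x hx
  refine ⟨fun a ha => ⟨?_, ?_⟩, fun a ha => ⟨?_, ?_⟩⟩
  · rw [mul_assoc, (hx a ha).1, mul_zero]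
  · rw [← mul_assoc, commute_cst hz ha, mul_assoc, (hx a ha).2, mul_zero]
  · rw [mul_assoc, ← commute_cst hz ha, ← mul_assoc, (hx a ha).1, zero_mul]
  · rw [← mul_assoc, (hx a ha).2, zero_mul]

/-- The elements whose constant sequences lie in the idealiser. -/
def constDom : StarSubalgebra ℂ B := (idealiser K).comap constHom

/-- Constants in the ambient algebra. -/
def ambConst : constDom K →⋆ₐ[ℂ] Amb K :=
  (ambMk K).comp (StarAlgHom.codRestrict (constHom.comp (constDom K).subtype) (idealiser K)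
    fun x => x.2)

theorem norm_ambConst_le (z : constDom K) : ‖ambConst K z‖ ≤ ‖(z : B)‖ :=
  (NonUnitalStarAlgHom.norm_apply_le (ambMk K) _).trans
    (NonUnitalStarAlgHom.norm_apply_le (constHom (B := B)) _)

theorem mem_constDom {a : B} (ha : a ∈ K.carrier) : a ∈ constDom K := cst_mem_idealiser K ha

/-- Relative central classes in the ambient algebra. -/
def ambRel : RelQuot K atTop →⋆ₐ[ℂ] Amb K where
  toAlgHom := Ideal.Quotient.liftₐ (relNull K atTop)
    ((ambMk K).toAlgHom.comp (StarSubalgebra.inclusion (relCent_le_idealiser K)).toAlgHom)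
    fun x hx => (quotStar_eq_zero (annIdeal K)).2 fun a ha =>
      ⟨hx a ha, by
        show cst atTop a * (x : SeqQuot B atTop) = 0
        rw [commute_cst x.2 ha]; exact hx a ha⟩
  map_star' c := by
    obtain ⟨x, rfl⟩ := relMk_surjective K atTop c
    show ambMk K (StarSubalgebra.inclusion (relCent_le_idealiser K) (star x)) =
      star (ambMk K (StarSubalgebra.inclusion (relCent_le_idealiser K) x))
    rw [map_star, map_star]

theorem commute_ambConst_ambRel {a : B} (ha : a ∈ K.carrier) (c : RelQuot K atTop) :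
    Commute (ambConst K ⟨a, mem_constDom K ha⟩) (ambRel K c) := by
  obtain ⟨x, rfl⟩ := relMk_surjective K atTop c
  show ambMk K _ * ambMk K _ = ambMk K _ * ambMk K _
  rw [← map_mul, ← map_mul]
  exact congrArg (ambMk K) (Subtype.ext (commute_cst x.2 ha))

/-- A norm bound in the ambient algebra bounds two-sided compressions by the ideal. -/
theorem norm_compress_le (x : idealiser K) {k : B} (hk : k ∈ K.carrier) (hk1 : ‖k‖ ≤ 1) {r : ℝ}
    (h : ‖ambMk K x‖ < r) :
    ‖cst atTop k * (x : SeqQuot B atTop) * cst atTop k‖ ≤ r := by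
  obtain ⟨z, hz, hzn⟩ := Submodule.Quotient.norm_mk_lt (S := annIdeal K) (ambMk K x)
    (sub_pos.2 h)
  have hd : ((z : SeqQuot B atTop) - x) ∈ twoAnn K :=
    (Ideal.Quotient.eq (I := annIdeal K)).1 hz
  have e : cst atTop k * (x : SeqQuot B atTop) * cst atTop k =
      cst atTop k * (z : SeqQuot B atTop) * cst atTop k := by
    rw [eq_comm, ← sub_eq_zero, ← sub_mul, ← mul_sub, (hd k hk).2, zero_mul]
  rw [e]
  have hk' : ‖cst (atTop : Filter ℕ) k‖ ≤ 1 := (norm_seqMk_le _).trans
    ((BoundedContinuousFunction.norm_le zero_le_one).2 fun _ => hk1)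
  calc _ ≤ ‖cst (atTop : Filter ℕ) k‖ * ‖(z : SeqQuot B atTop)‖ * ‖cst (atTop : Filter ℕ) k‖ :=
        (norm_mul_le _ _).trans (mul_le_mul_of_nonneg_right (norm_mul_le _ _) (norm_nonneg _))
    _ ≤ 1 * ‖(z : SeqQuot B atTop)‖ * 1 := by gcongr
    _ ≤ r := by
        rw [one_mul, mul_one]
        exact (le_of_lt (lt_of_lt_of_eq hzn (add_sub_cancel _ _)) : ‖z‖ ≤ r)

section Order

variable [PartialOrder B] [StarOrderedRing B]

/-- The functional calculus of `a` acts as a scalar on what `a` fixes. -/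
theorem cfc_mul_of_fix {a k : B} (ha : IsSelfAdjoint a) (h : a * k = k) {f : ℝ → ℝ}
    (hf : Continuous f) : cfc f a * k = f 1 • k := by
  have h' : (1 - a) * k = 0 := by rw [sub_mul, one_mul, h, sub_self]
  have hsa : IsSelfAdjoint (1 - a) := (IsSelfAdjoint.one B).sub ha
  have hg : Continuous fun t => f (1 - t) := hf.comp (continuous_const.sub continuous_id)
  have e : cfc (fun t => f (1 - t)) (1 - a) = cfc f a := by
    rw [cfc_comp' f (fun t => 1 - t) (1 - a) hf.continuousOn (by fun_prop) hsa]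
    congr 1
    rw [cfc_sub (fun _ => (1 : ℝ)) (fun t => t) (1 - a) continuousOn_const continuousOn_id,
      cfc_const_one ℝ (1 - a) hsa, cfc_id' ℝ (1 - a) hsa, sub_sub_cancel]
  rw [← e, cfc_mul_eq_smul_zero hsa h' hg, sub_zero]

/-- A bounded number of conjugates of `b * b` acts almost as the unit on what `k₁` fixes. -/
theorem exists_conjugates (hcl : IsClosedIdeal K) (hsimp : IsSimpleRel K) {b k₁ : B}
    (hb : IsSelfAdjoint b) (hbK : b ∈ K.carrier) (hb0 : b ≠ 0) (hk₁ : InPosBall K k₁) :
    ∃ n : ℕ, ∀ g : ℝ, 0 < g → ∃ m : Fin n → B, (∀ i, m i ∈ K.carrier) ∧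
      ∀ z : B, k₁ * z = z → ‖(∑ i, star (m i) * (b * b) * m i) * z - z‖ ≤ g * ‖z‖ := by
  have hk0 : 0 ≤ k₁ := by obtain ⟨⟨w, rfl⟩, -⟩ := hk₁.1; exact star_mul_self_nonneg w
  have hks : IsSelfAdjoint k₁ := IsSelfAdjoint.of_nonneg hk0
  set s := b * b with hs
  have hs0 : 0 ≤ s := by simpa [hs, hb.star_eq] using star_mul_self_nonneg b
  have hsK : s ∈ K.carrier := K.mul_left b b hbK
  have hsne : s ≠ 0 := fun h => hb0 (CStarRing.star_mul_self_eq_zero_iff b |>.1
    (by rwa [hb.star_eq]))
  obtain ⟨n, c, d, hcd⟩ := hsimp s hsK hsne k₁ hk₁.2 (1 / 8) (by norm_num)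
  set y := ∑ i, c i * s * d i with hy
  set a₂ := k₁ * k₁ with ha₂
  have ha₂0 : 0 ≤ a₂ := by simpa [ha₂, hks.star_eq] using star_mul_self_nonneg k₁
  have hnear : ‖a₂ - star y * y‖ < 1 / 2 := by
    have hk1 : ‖k₁‖ ≤ 1 := hk₁.1.2
    have hyn : ‖y‖ ≤ 2 := by
      have := norm_le_norm_add_norm_sub' y k₁
      rw [norm_sub_rev] at this
      linarith
    have e : a₂ - star y * y = star (k₁ - y) * k₁ + star y * (k₁ - y) := by
      rw [star_sub, hks.star_eq, ha₂]; noncomm_ring
    rw [e]
    refine (norm_add_le _ _).trans_lt ((add_le_add (norm_mul_le _ _) (norm_mul_le _ _)).trans_lt ?_)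
    rw [norm_star, norm_star]
    nlinarith [norm_nonneg (k₁ - y), norm_nonneg k₁, norm_nonneg y]
  obtain ⟨e₀, he₀⟩ := exists_cut_eq ha₂0 (star_mul_self_nonneg y) hnear
  set C : ℝ := ∑ i, ‖c i‖ ^ 2 * ‖s‖ with hC
  set S := ∑ i, star (d i) * s * d i with hS
  have hS0 : 0 ≤ S := sum_nonneg fun i _ => star_left_conjugate_nonneg hs0 _
  have hterm : ∀ i, star (c i * s * d i) * (c i * s * d i) ≤
      (‖c i‖ ^ 2 * ‖s‖) • (star (d i) * s * d i) := by
    intro i
    have h1 : star (c i) * c i ≤ algebraMap ℝ B (‖c i‖ ^ 2) := by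
      refine (IsSelfAdjoint.star_mul_self (c i)).le_algebraMap_norm_self.trans_eq ?_
      rw [CStarRing.norm_star_mul_self, sq]
    have h2 : s * s ≤ ‖s‖ • s := by
      have h := CStarAlgebra.star_left_conjugate_le_norm_smul
        (a := CFC.sqrt s) (b := s) (hb := IsSelfAdjoint.of_nonneg hs0)
      rw [(IsSelfAdjoint.of_nonneg (CFC.sqrt_nonneg s)).star_eq, CFC.sqrt_mul_sqrt_self s hs0] at h
      refine le_of_eq_of_le ?_ h
      conv_rhs => arg 1; arg 2; rw [← CFC.sqrt_mul_sqrt_self s hs0]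
      conv_lhs => rw [← CFC.sqrt_mul_sqrt_self s hs0]
      simp only [mul_assoc]
    calc star (c i * s * d i) * (c i * s * d i)
        = star (s * d i) * (star (c i) * c i) * (s * d i) := by simp only [star_mul, mul_assoc]
      _ ≤ star (s * d i) * algebraMap ℝ B (‖c i‖ ^ 2) * (s * d i) :=
          star_left_conjugate_le_conjugate h1 _
      _ = ‖c i‖ ^ 2 • (star (d i) * (s * s) * d i) := by
          rw [Algebra.algebraMap_eq_smul_one, mul_smul_comm, smul_mul_assoc, mul_one, star_mul,
            (IsSelfAdjoint.of_nonneg hs0).star_eq]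
          simp only [mul_assoc]
      _ ≤ ‖c i‖ ^ 2 • (star (d i) * (‖s‖ • s) * d i) :=
          smul_le_smul_of_nonneg_left (star_left_conjugate_le_conjugate h2 _) (sq_nonneg _)
      _ = _ := by simp [smul_smul]
  have hle : star y * y ≤ ((n : ℝ) * C) • S := by
    refine (star_sum_mul_sum_le _).trans ?_
    rw [← smul_smul]
    refine smul_le_smul_of_nonneg_left ?_ (Nat.cast_nonneg n)
    rw [hS, smul_sum]
    refine sum_le_sum fun i _ => (hterm i).trans
      (smul_le_smul_of_nonneg_right ?_ (star_left_conjugate_nonneg hs0 _))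
    exact single_le_sum (f := fun i => ‖c i‖ ^ 2 * ‖s‖) (fun j _ => by positivity) (mem_univ i)
  have hC0 : 0 ≤ (n : ℝ) * C := by positivity
  have hsub : Sub (Cuntz.cut a₂ (1 / 2)) (((n : ℝ) * C) • S) := by
    rw [← he₀]
    exact sub_trans (sub_conj _ _) (sub_of_le (star_mul_self_nonneg y) hle)
  refine ⟨n, fun g hg => ?_⟩
  obtain ⟨c', hc'⟩ := hsub (g / 2) (half_pos hg)
  refine ⟨fun i => Real.sqrt (2 * ((n : ℝ) * C)) • (d i * c' * k₁), fun i => ?_, fun z hz => ?_⟩
  · show Real.sqrt (2 * ((n : ℝ) * C)) • (d i * c' * k₁) ∈ K.carrier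
    rw [← Complex.coe_smul]
    exact hcl.smul_mem _ _ (K.mul_left _ _ hk₁.2)
  · have hsum : ∑ i, star (Real.sqrt (2 * ((n : ℝ) * C)) • (d i * c' * k₁)) * s *
        (Real.sqrt (2 * ((n : ℝ) * C)) • (d i * c' * k₁)) =
        (2 : ℝ) • (k₁ * (star c' * (((n : ℝ) * C) • S) * c') * k₁) := by
      rw [hS]
      simp only [smul_sum, mul_sum, sum_mul, star_smul, star_trivial, smul_mul_assoc,
        mul_smul_comm, smul_smul, star_mul, hks.star_eq,
        Real.mul_self_sqrt (show 0 ≤ 2 * ((n : ℝ) * C) by positivity)]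
      exact sum_congr rfl fun i _ => by simp only [mul_assoc]
    have hfix : (2 : ℝ) • (k₁ * Cuntz.cut a₂ (1 / 2) * k₁) * z = z := by
      have ha₂z : a₂ * z = z := by rw [ha₂, mul_assoc, hz, hz]
      rw [smul_mul_assoc, mul_assoc, hz, mul_assoc, Cuntz.cut,
        cfc_mul_of_fix (IsSelfAdjoint.of_nonneg ha₂0) ha₂z (by fun_prop), mul_smul_comm, hz,
        smul_smul]
      norm_num
    rw [hsum]
    conv_lhs => arg 1; arg 2; rw [← hfix]
    rw [← sub_mul, ← smul_sub, ← sub_mul, ← mul_sub]
    refine (norm_mul_le _ _).trans (mul_le_mul_of_nonneg_right ?_ (norm_nonneg _))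
    rw [norm_smul, Real.norm_two]
    have hk1 : ‖k₁‖ ≤ 1 := hk₁.1.2
    calc 2 * ‖k₁ * (star c' * (((n : ℝ) * C) • S) * c' - Cuntz.cut a₂ (1 / 2)) * k₁‖
        ≤ 2 * (1 * (g / 2) * 1) := by
          gcongr
          refine (norm_mul_le _ _).trans (mul_le_mul ?_ hk1 (norm_nonneg _) (by positivity))
          exact (norm_mul_le _ _).trans (mul_le_mul hk1 hc' (norm_nonneg _) zero_le_one)
      _ = g := by ring

/-- A contraction in the ideal almost fixing a positive element of it. -/
theorem exists_plateau {a : B} (ha : 0 ≤ a) (haK : a ∈ K.carrier) (_ha1 : ‖a‖ ≤ 1) {r : ℝ}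
    (hr : 0 < r) : ∃ f : B, f ∈ K.carrier ∧ star f = f ∧ ‖f‖ ≤ 1 ∧ ‖f * a * f - a‖ ≤ r := by
  have has : IsSelfAdjoint a := IsSelfAdjoint.of_nonneg ha
  set δ := r / 2 with hδ
  have hδ0 : 0 < δ := by positivity
  have hc : Continuous fun t : ℝ => (max t δ)⁻¹ :=
    Continuous.inv₀ (by fun_prop) fun t => (lt_max_of_lt_right hδ0).ne'
  refine ⟨a * cfc (fun t : ℝ => (max t δ)⁻¹) a, K.mul_right _ _ haK, ?_, ?_, ?_⟩
  all_goals
    have hf : a * cfc (fun t : ℝ => (max t δ)⁻¹) a = cfc (fun t : ℝ => t * (max t δ)⁻¹) a := by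
      rw [cfc_mul (fun t : ℝ => t) (fun t : ℝ => (max t δ)⁻¹) a continuousOn_id hc.continuousOn,
        cfc_id' ℝ a has]
    rw [hf]
  · exact Cuntz.star_cfc_real _ _
  · refine norm_cfc_le zero_le_one fun t ht => ?_
    have ht0 := spectrum_nonneg_of_nonneg ha ht
    rw [← div_eq_mul_inv, Real.norm_of_nonneg (by positivity), div_le_one (lt_max_of_lt_right hδ0)]
    exact le_max_left _ _
  · have hg : Continuous fun t : ℝ => t * (max t δ)⁻¹ := continuous_id.mul hc
    rw [cfc_sandwich has hg.continuousOn]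
    conv_lhs => arg 1; arg 2; rw [← cfc_id' ℝ a has]
    rw [← cfc_sub (fun t : ℝ => t * (max t δ)⁻¹ * t * (t * (max t δ)⁻¹)) (fun t : ℝ => t) a
      ((hg.mul continuous_id).mul hg).continuousOn continuousOn_id]
    refine norm_cfc_le hr.le fun t ht => ?_
    have ht0 := spectrum_nonneg_of_nonneg ha ht
    rcases le_total δ t with h | h
    · rw [max_eq_left h, mul_inv_cancel₀ (by linarith : t ≠ 0)]
      simp [hr.le]
    · rw [max_eq_right h]
      have h1 : t * δ⁻¹ ≤ 1 := by rw [← div_eq_mul_inv, div_le_one hδ0]; exact h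
      have h2 : 0 ≤ t * δ⁻¹ := by positivity
      rw [Real.norm_eq_abs, abs_le]
      constructor <;> nlinarith [mul_nonneg h2 ht0, mul_le_mul h1 h1 h2 zero_le_one]

/-- An approximate factorisation in the ambient algebra gives an exact one in `B`. -/
theorem exists_exact {b a : B} (hb : b ∈ K.carrier) (ha : 0 ≤ a) (haK : a ∈ K.carrier)
    (ha1 : ‖a‖ ≤ 1) {ε : ℝ} (hε : 0 < ε) (C : Amb K)
    (hC : ‖star (ambConst K ⟨b, mem_constDom K hb⟩ * C) * (ambConst K ⟨b, mem_constDom K hb⟩ * C) -
      ambConst K ⟨a, mem_constDom K haK⟩‖ < ε / 4) :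
    ∃ c : B, star (b * c) * (b * c) = Cuntz.cut a ε := by
  obtain ⟨f, hfK, hfs, hf1, hfa⟩ := exists_plateau K ha haK ha1 (show 0 < ε / 4 by positivity)
  obtain ⟨D, rfl⟩ := quotStar_surjective (annIdeal K) C
  let bI : idealiser K := ⟨cst atTop b, cst_mem_idealiser K hb⟩
  let aI : idealiser K := ⟨cst atTop a, cst_mem_idealiser K haK⟩
  have h1 : ‖ambMk K (star (bI * D) * (bI * D) - aI)‖ < ε / 4 := by
    rw [map_sub, map_mul, map_star, map_mul]
    exact hC
  have h2 := norm_compress_le K _ hfK hf1 h1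
  obtain ⟨Ds, hDs⟩ := seqMk_surjective (D : SeqQuot B atTop)
  set f' := BoundedContinuousFunction.const ℕ f
  set b' := BoundedContinuousFunction.const ℕ b
  set a' := BoundedContinuousFunction.const ℕ a
  set Y : ℕ →ᵇ B := f' * (star (b' * Ds) * (b' * Ds) - a') * f' with hY
  have hn' : ‖seqMk B atTop Y‖ ≤ ε / 4 := by
    refine le_trans (le_of_eq (congrArg norm ?_)) h2
    simp only [hY, map_sub, map_mul, map_star, hDs]
    rfl
  obtain ⟨V, hV, hVn⟩ := Submodule.Quotient.norm_mk_lt (S := nullSeq B atTop) (seqMk B atTop Y)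
    (show (0 : ℝ) < ε / 8 by positivity)
  have hVeq : seqMk B atTop V = seqMk B atTop Y := hV
  rw [seqMk_eq_iff] at hVeq
  obtain ⟨m, hm⟩ := (hVeq.eventually (gt_mem_nhds (show (0 : ℝ) < ε / 8 by positivity))).exists
  have hYm : ‖Y m‖ < ε / 2 := by
    have h3 := norm_le_norm_sub_add (Y m) (V m)
    rw [norm_sub_rev] at hm
    have h4 := V.norm_coe_le_norm m
    have : ‖V‖ < ε / 4 + ε / 8 := by linarith
    linarith
  obtain ⟨e, he⟩ := exists_cut_eq ha (star_mul_self_nonneg (b * Ds m * f))
    (show ‖a - star (b * Ds m * f) * (b * Ds m * f)‖ < ε by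
      have e1 : star (b * Ds m * f) * (b * Ds m * f) - a =
          f * (star (b * Ds m) * (b * Ds m) - a) * f + (f * a * f - a) := by
        simp only [star_mul, hfs, mul_sub, sub_mul, mul_assoc]; abel
      rw [norm_sub_rev, e1]
      refine (norm_add_le _ _).trans_lt ?_
      have : ‖f * (star (b * Ds m) * (b * Ds m) - a) * f‖ < ε / 2 := hYm
      linarith)
  exact ⟨Ds m * f * e, by rw [← he]; simp only [star_mul, mul_assoc]⟩

end Order

section Main

variable [TopologicalSpace.SeparableSpace B]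

local instance relOrder : PartialOrder (RelQuot K atTop) := CStarAlgebra.spectralOrder _

local instance relOrdered : StarOrderedRing (RelQuot K atTop) :=
  CStarAlgebra.spectralOrderedRing _

/-- The action of the trivial group. -/
def trivAction : RelAction (Multiplicative (Fin 1)) K where
  hom _ := StarAlgHom.id ℂ B
  hom_one _ := rfl
  hom_mul _ _ _ := rfl
  mem _ _ hk := hk

/-- Commuting slots in the relative central sequences. -/
theorem exists_relSlots {J : ℕ} {δ : ℝ} {x : Fin J → RelQuot K atTop} (hx : SqZeroFamily δ x)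
    (m : ℕ) : ∃ X : Fin m → Fin J → RelQuot K atTop, IsSlots (δ / 4) X := by
  have hact : ∀ c : RelQuot K atTop, (trivAction K).act 1 c = c := (trivAction K).act_one
  obtain ⟨X, -, hX, hc⟩ := Relative.exists_slots (trivAction K) ⊤ (fun _ : Fin 1 => 1) hx
    (fun j => (trivAction K).mem_fixed.2 fun g _ => by
      rw [Subsingleton.elim g 1]; exact hact _) m
  refine ⟨X, hX, fun s t hst i j => ?_⟩
  have h := hc s t hst 0 0 i j
  rwa [hact, hact] at h

/-- **Absorption relative to the ideal.** -/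
theorem absorb : AbsorbStatement.{u} := by
  intro B _ _ K hcl hsimp hdd k k₁ hk hk₁ hkk b hb hbK hb0
  let _ : PartialOrder B := CStarAlgebra.spectralOrder B
  let _ : StarOrderedRing B := CStarAlgebra.spectralOrderedRing B
  have hbs : IsSelfAdjoint b := by obtain ⟨w, rfl⟩ := hb; exact IsSelfAdjoint.star_mul_self w
  obtain ⟨n₀, hconj⟩ := exists_conjugates K hcl hsimp hbs hbK hb0 hk₁
  -- slots
  obtain ⟨y, v, h1, h2, h3⟩ := hdd
  obtain ⟨J, δ, hδ, x₀, hx₀⟩ :=
    noCharStatement (RelQuot K atTop) (isEmpty_hom_of_rel h1 h2 h3)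
  have hδ4 : 0 < δ / 4 := by linarith
  obtain ⟨mw, kf, hw⟩ := orthN_of_orth orthStatement.{u} J J (δ / 4) hδ4
  refine ⟨4 * kf * n₀ + 2, by omega, fun a ha N hN Z hkZ hZ ε hε => ?_⟩
  have hP : 0 < (4 * kf * n₀ + 2) * N := by positivity
  obtain ⟨n, hn⟩ : ∃ n, 4 * N * kf * n₀ ≤ 2 ^ n := ⟨_, Nat.lt_two_pow_self.le⟩
  obtain ⟨mE, hcol⟩ := colours.{u} J n (δ / 4) hδ4
  obtain ⟨X, hX⟩ := exists_relSlots K hx₀ (Fintype.card (Fin mw ⊕ Fin mE))
  obtain ⟨F⟩ := exists_frame hw hcol (fun i => X (Fintype.equivFin (Fin mw ⊕ Fin mE) i))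
    (hX.comp _ (Fintype.equivFin _).injective)
  -- the rows lie in the ideal
  have hZK : ∀ i e, Z i e ∈ K.carrier := fun i e => by
    rw [← hkZ i e]; exact K.mul_right _ _ hk.2
  have hk₁Z : ∀ i e, k₁ * Z i e = Z i e := fun i e => by
    rw [← hkZ i e, ← mul_assoc, hkk]
  let cK : ∀ z : B, z ∈ K.carrier → constDom K := fun z hz => ⟨z, mem_constDom K hz⟩
  have hC : ∀ (z : B) (hz : z ∈ K.carrier) w, Commute (ambConst K (cK z hz)) (ambRel K w) :=
    fun z hz w => commute_ambConst_ambRel K hz w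
  have hH : ∀ e e', ∑ i, star (cK _ (hZK i e)) * cK _ (hZK i e') =
      if e = e' then cK a ha.2 else 0 := fun e e' => by
    refine Subtype.ext ?_
    rw [AddSubmonoidClass.coe_finsetSum]
    refine (hZ e e').trans ?_
    split <;> rfl
  let _ : PartialOrder (Amb K) := CStarAlgebra.spectralOrder _
  let _ : StarOrderedRing (Amb K) := CStarAlgebra.spectralOrderedRing _
  obtain ⟨C, hCle⟩ := exists_approx_factor (b := ambConst K (cK b hbK))
    (H := ambConst K (cK a ha.2)) (R := ambRel K F.R) hP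
    ((show IsSelfAdjoint (cK b hbK) from Subtype.ext hbs.star_eq).map (ambConst K))
    (fun i e => ambConst K (cK _ (hZK i e)))
    (fun e e' => by
      simp only [← map_star, ← map_mul, ← map_sum, hH]
      split <;> simp)
    (fun j r r' => ambRel K (F.E j r r')) (fun j => ambRel K (F.Q j))
    (fun g hg => by
      set W := ∑ i, ∑ e, ‖Z i e‖ with hW
      have hW0 : 0 ≤ W := by positivity
      obtain ⟨m, hmK, hm⟩ := hconj (g / 2 / (W + 1)) (by positivity)
      refine ⟨fun l => ambConst K (cK (m l) (hmK l)), fun i j r r' => hC (m i) (hmK i) _, fun i e => ?_⟩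
      have h := hm _ (hk₁Z i e)
      simp only [← map_star, ← map_mul, ← map_sum, ← map_sub]
      refine (norm_ambConst_le K _).trans ?_
      push_cast
      refine h.trans ?_
      have h1 : ‖Z i e‖ ≤ W + 1 := by
        have h2 : ‖Z i e‖ ≤ ∑ e, ‖Z i e‖ :=
          single_le_sum (f := fun e => ‖Z i e‖) (fun _ _ => norm_nonneg _) (mem_univ e)
        have h3 : (∑ e, ‖Z i e‖) ≤ W :=
          single_le_sum (f := fun i => ∑ e, ‖Z i e‖) (fun _ _ => by positivity) (mem_univ i)
        linarith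
      calc g / 2 / (W + 1) * ‖Z i e‖ ≤ g / 2 / (W + 1) * (W + 1) := by gcongr
        _ = g / 2 := div_mul_cancel₀ _ (by positivity)
        _ ≤ g := by linarith)
    (fun j r r' => by rw [← map_star, F.star_E])
    (fun j r r' e => by simp only [← map_mul, F.mul_same])
    (fun j r r' e f h => by simp only [← map_mul, F.mul_ne j r r' e f h, map_zero])
    (fun j => by rw [← map_sum, F.diag])
    (by simp only [← map_star, ← map_mul, ← map_sum, F.norm_R, map_one])
    (fun j => ambRel K (F.s j)) (fun j => (F.s_sa j).map (ambRel K))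
    (fun i j hij => by rw [← map_mul, F.s_orth i j hij, map_zero])
    (fun j l => ambRel K (F.c j l))
    (fun j => by simp only [← map_star, ← map_mul, ← map_sum, F.full, map_one])
    (fun j r r' => hC a ha.2 _) (by rw [← map_star]; exact hC a ha.2 _)
    (fun j r r' => hC b hbK _) (fun _ => (hC b hbK _).symm)
    (fun _ _ => by rw [← map_star]; exact (hC b hbK _).symm)
    (fun i e _ _ _ => hC (Z i e) (hZK i e) _)
    (fun i j r r' => (F.comm_s i j r r').map (ambRel K))
    (fun i l j r r' => (F.comm_c i l j r r').map (ambRel K))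
    ⟨0, Nat.two_pow_pos n⟩ (Fin.castLE (card_slices hn) ∘ Fintype.equivFin _)
    ((Fin.castLE_injective (card_slices hn)).comp (Fintype.equivFin _).injective)
    (show 0 < ε / 8 by positivity)
  have ha0 : 0 ≤ a := by
    obtain ⟨⟨⟨w', hw'⟩, -⟩, -⟩ := ha; rw [hw']; exact star_mul_self_nonneg w'
  obtain ⟨c, hc⟩ := exists_exact K hbK ha0 ha.2 ha.1.2 hε C (hCle.trans_lt (by linarith))
  exact ⟨b * c, c, rfl, hc⟩

end Main

end Vale.Agent.P095.NU
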