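import Vale.Agent.P095.NU.AmplifyTools
import Vale.Agent.P095.Compare.Amplify

/-!
# P095, non-unital: small local traces give a small number of fixed rows

The argument of `Compare/Amplify.lean`, compressed by a cut of `h` so that all rows are fixed by a
local unit of `h` and all coefficients lie in the ideal.
-/

noncomputable section

namespace Vale.Agent.P095.NU

universe u

open Vale.Agent.P095.Gamma Vale.Agent.P095.Full Vale.Agent.P095.Compare Vale.Agent.P095.Relative

open Vale.Agent Filter Topology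

open scoped ComplexOrder

variable {B : Type u} [CStarAlgebra B] [PartialOrder B] [StarOrderedRing B]

/-- Compressed copies lie below a small multiple of the unit and few rows fixed by `w`. -/
theorem model_rows (hF : FreeStatement.{u}) (hM : ModelStatement) {p n k : ℕ} {x : Fin n → B}
    {a : B} {d t : ℝ} (ha : 0 ≤ a) (han : ‖a‖ ≤ 1) (hd : 0 ≤ d) (hd1 : d ≤ 1) (ht : 0 ≤ t)
    (ht1 : t ≤ 1) (hx : ‖∑ i, star (x i) * x i - a‖ ≤ d)
    (hxx : ∑ i, x i * star (x i) ≤ algebraMap ℝ B t) {q w : B} (hq : star q = q) (hqn : ‖q‖ ≤ 1)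
    (hxw : ∀ i, w * (x i * q) = x i * q) {φ : B →ₗ[ℂ] Matrix (Fin k) (Fin k) ℂ}
    {ψ : Matrix (Fin k) (Fin k) ℂ →ₗ[ℂ] B} (hφ : IsCPMap φ) (hψ : IsCPMapMat B ψ)
    (hψn : ‖ψ 1‖ ≤ 1) (hψw : ∀ M, w * ψ M = ψ M) {err ρ₀ : ℝ} (hρ : 0 < ρ₀)
    (happ : ∀ z ∈ freeSupport p n, ∀ c c',
      ‖q * freeCoef x a (d + 4 * Real.sqrt ((p + 1) * t)) z c c' * q -
        ψ (φ (freeCoef x a (d + 4 * Real.sqrt ((p + 1) * t)) z c c'))‖ ≤ err)
    (herr : ((freeSupport p n).card * p : ℕ) * err ≤ ρ₀) :
    ∃ (G ρ : Type) (_ : Fintype G) (_ : Fintype ρ) (W : ρ → Fin p × G → B),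
      0 < Fintype.card G ∧ Fintype.card ρ ≤ 2 * Fintype.card G ∧ (∀ j u, w * W j u = W j u) ∧
        ∀ b : Fin p × G → B, ∑ u, star (b u) * (q * a * q) * b u ≤
          (d + 4 * Real.sqrt ((p + 1) * t) + 2 * ρ₀) • ∑ u, star (b u) * b u +
            ∑ j, star (∑ u, W j u * b u) * (∑ u, W j u * b u) := by
  classical
  set e := d + 4 * Real.sqrt ((p + 1) * t) with he
  have he0 : 0 ≤ e := by positivity
  set S := freeSupport p n
  obtain ⟨kz, hkw, hkz⟩ := exists_fixed_kraus hψ hψw
  set C : Free p n → Fin p × Fin k → Fin p × Fin k → ℂ :=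
    fun z c c' => φ (freeCoef x a e z c.1 c'.1) c.2 c'.2 with hC
  obtain ⟨G, _, _, _, π, r, v, hr, hpos⟩ := hM (Fin p × Fin k) (Fin p × Fin n) S C
    (fun W u => compressed_nonneg hF ha han hd hd1 ht ht1 hx hxx hφ W u)
    ρ₀ (1 / ((k : ℝ) + 1)) hρ (by positivity)
  obtain ⟨Z, hZ⟩ := Compare.exists_gram (fun y y' : (Fin p × Fin k) × G =>
    coefKernel S C π y y' + (if y = y' then (ρ₀ : ℂ) else 0) + ∑ l, v l y * star (v l y')) hpos
  let RG : Fin p × G → Fin p × G → B := fun y y' => coefKernel S (freeCoef x a e) π y y'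
  let E : Fin p × G → Fin p × G → B := fun y y' =>
    q * RG y y' * q - ψ (φ (RG y y')) - if y = y' then (ρ₀ : ℂ) • ψ 1 else 0
  let Zs : (Fin p × Fin k) × G → (Fin p × G) × Fin k → ℂ := fun z y => Z z ((y.1.1, y.2), y.1.2)
  let Zv : Fin r → (Fin p × G) × Fin k → ℂ := fun l y => star (v l ((y.1.1, y.2), y.1.2))
  have hsplit : ∀ y y', q * RG y y' * q +
      ψ (Matrix.of fun i j => ∑ l, star (Zv l (y, i)) * Zv l (y', j)) =
      E y y' + ψ (Matrix.of fun i j => ∑ z, star (Zs z (y, i)) * Zs z (y', j)) := by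
    intro y y'
    have e1 : (Matrix.of fun i j => ∑ z, star (Zs z (y, i)) * Zs z (y', j)) =
        φ (RG y y') + (if y = y' then (ρ₀ : ℂ) • (1 : Matrix (Fin k) (Fin k) ℂ) else 0) +
          Matrix.of fun i j => ∑ l, star (Zv l (y, i)) * Zv l (y', j) := by
      ext i j
      simp only [Matrix.of_apply, Matrix.add_apply, Zs, Zv, star_star, ← hZ]
      congr 1
      congr 1
      · simp only [coefKernel, RG, map_sum, Matrix.sum_apply, hC]
        exact Finset.sum_congr rfl fun z _ => by split_ifs <;> simp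
      · by_cases hy : y = y'
        · subst hy
          by_cases hij : i = j
          · subst hij; simp
          · simp [hij]
        · have : ((y.1, i), y.2) ≠ ((y'.1, j), y'.2) := by
            intro h
            simp only [Prod.mk.injEq] at h
            exact hy (Prod.ext h.1.1 h.2)
          simp [hy, this]
    rw [e1, map_add, map_add, apply_ite ψ, map_smul, map_zero]
    simp only [E]
    abel
  have hrow : ∀ y y' : Fin p × G, ‖E y y'‖ ≤
      (∑ z ∈ S, if π z = y.2 * y'.2⁻¹ then err else 0) + if y = y' then ρ₀ * ‖ψ 1‖ else 0 := by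
    intro y y'
    refine (norm_sub_le _ _).trans (add_le_add ?_ ?_)
    · simp only [RG, coefKernel, map_sum, Finset.mul_sum, Finset.sum_mul, ← Finset.sum_sub_distrib]
      refine (norm_sum_le _ _).trans (Finset.sum_le_sum fun z hz => ?_)
      split_ifs
      · exact happ z hz _ _
      · simp
    · split_ifs
      · simp [norm_smul, abs_of_pos hρ]
      · simp
  set R : ℝ := (S.card * p : ℕ) * err + ρ₀ * ‖ψ 1‖ with hR
  have hR2 : R ≤ 2 * ρ₀ := by
    have : ρ₀ * ‖ψ 1‖ ≤ ρ₀ := mul_le_of_le_one_right hρ.le hψn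
    linarith
  have hsum1 : ∀ y : Fin p × G, ∑ y', ‖E y y'‖ ≤ R := by
    intro y
    refine (Finset.sum_le_sum fun y' _ => hrow y y').trans (le_of_eq ?_)
    rw [Finset.sum_add_distrib, Finset.sum_ite_eq, if_pos (Finset.mem_univ _), Finset.sum_comm, hR]
    congr 1
    have : ∀ z, ∑ y' : Fin p × G, (if π z = y.2 * y'.2⁻¹ then err else 0) = p * err := by
      intro z
      have : ∀ g : G, π z = y.2 * g⁻¹ ↔ g = (π z)⁻¹ * y.2 := fun g => by
        rw [eq_mul_inv_iff_mul_eq, eq_inv_mul_iff_mul_eq]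
      simp [Fintype.sum_prod_type, this]
    simp [this]; ring
  have hsum2 : ∀ y' : Fin p × G, ∑ y, ‖E y y'‖ ≤ R := by
    intro y'
    refine (Finset.sum_le_sum fun y _ => hrow y y').trans (le_of_eq ?_)
    rw [Finset.sum_add_distrib, Finset.sum_ite_eq', if_pos (Finset.mem_univ _), Finset.sum_comm, hR]
    congr 1
    have : ∀ z, ∑ y : Fin p × G, (if π z = y.2 * y'.2⁻¹ then err else 0) = p * err := by
      intro z
      have : ∀ g : G, π z = g * y'.2⁻¹ ↔ g = π z * y'.2 := fun g => by
        rw [eq_mul_inv_iff_mul_eq, eq_comm]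
      simp [Fintype.sum_prod_type, this]
    simp [this]; ring
  let Wv : Fin r × Fin k → Fin p × G → B := fun ll y => ∑ i, Zv ll.1 (y, i) • kz ll.2 i
  let Wx : G → Fin p × G → B := fun g y =>
    (∑ i, if π (gen y.1 i) * y.2 = g then x i else 0) * q
  have hfix : ∀ j u, w * Sum.elim Wx Wv j u = Sum.elim Wx Wv j u := by
    rintro (g | ll) u
    · simp only [Sum.elim_inl, Wx, Finset.sum_mul, Finset.mul_sum, ite_mul, zero_mul, mul_ite,
        mul_zero, hxw]
    · simp only [Sum.elim_inr, Wv, Finset.mul_sum, mul_smul_comm, hkw]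
  have hmain : ∀ b : Fin p × G → B, ∑ y, star (b y) * (q * a * q) * b y ≤
      (e + R) • ∑ y, star (b y) * b y +
        ∑ j, star (∑ y, Sum.elim Wx Wv j y * b y) * (∑ y, Sum.elim Wx Wv j y * b y) := by
    intro b
    have f1 := quotForm_freeCoef π x a e fun y => q * b y
    have f2 := kraus_form hkz Zv b
    have f3 := kraus_form hkz Zs b
    have f4 : ∑ y, ∑ y', star (q * b y) * RG y y' * (q * b y') +
        ∑ y, ∑ y', star (b y) *
          ψ (Matrix.of fun i j => ∑ l, star (Zv l (y, i)) * Zv l (y', j)) * b y' =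
        ∑ y, ∑ y', star (b y) * E y y' * b y' +
        ∑ y, ∑ y', star (b y) *
          ψ (Matrix.of fun i j => ∑ z, star (Zs z (y, i)) * Zs z (y', j)) * b y' := by
      have e2 : ∀ y y', star (q * b y) * RG y y' * (q * b y') =
          star (b y) * (q * RG y y' * q) * b y' := fun y y' => by
        simp only [star_mul, hq, mul_assoc]
      simp only [e2, ← Finset.sum_add_distrib, ← add_mul, ← mul_add, hsplit]
    rw [f1, f2, f3] at f4
    have hA : ∑ y, star (q * b y) * a * (q * b y) = ∑ y, star (b y) * (q * a * q) * b y :=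
      Finset.sum_congr rfl fun y _ => by simp only [star_mul, hq, mul_assoc]
    rw [hA] at f4
    have hrowq : ∀ g, rowApply π x (fun y => q * b y) g = ∑ y, Wx g y * b y := fun g => by
      simp only [rowApply, Wx, mul_assoc]
    simp only [hrowq] at f4
    have hqq : ∑ y, star (q * b y) * (q * b y) ≤ ∑ y, star (b y) * b y := by
      refine Finset.sum_le_sum fun y _ => ?_
      have h1 : star q * q ≤ 1 := by
        refine (IsSelfAdjoint.star_mul_self q).le_algebraMap_norm_self.trans
          (le_of_le_of_eq (algebraMap_mono B ?_) (map_one (algebraMap ℝ B)))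
        rw [CStarRing.norm_star_mul_self]
        exact mul_le_one₀ hqn (norm_nonneg _) hqn
      have h2 := star_left_conjugate_le_conjugate h1 (b y)
      simpa only [star_mul, mul_one, mul_assoc] using h2
    have hsa : IsSelfAdjoint (∑ y, ∑ y', star (b y) * E y y' * b y') := by
      have h1 : ∀ {ι : Type} (s : Finset ι) (f : ι → B),
          IsSelfAdjoint (∑ i ∈ s, star (f i) * f i) :=
        fun s f => isSelfAdjoint_sum s fun i _ => IsSelfAdjoint.star_mul_self _
      have h2 : IsSelfAdjoint (∑ y, star (b y) * (q * a * q) * b y) := by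
        rw [← hA]
        exact isSelfAdjoint_sum _ fun y _ => by
          simpa [star_star] using (IsSelfAdjoint.of_nonneg ha).conjugate (star (q * b y))
      have e5 := congrArg (fun X => X - ∑ wl : ((Fin p × Fin k) × G) × Fin k,
        star (∑ y, (∑ i, Zs wl.1 (y, i) • kz wl.2 i) * b y) *
          (∑ y, (∑ i, Zs wl.1 (y, i) • kz wl.2 i) * b y)) f4
      simp only [add_sub_cancel_right] at e5
      rw [← e5]
      exact (((h1 _ _).add (((IsSelfAdjoint.all e).smul (h1 _ _)).sub h2)).add (h1 _ _)).sub (h1 _ _)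
    have hlow := neg_le_form E hsum1 hsum2 b hsa
    have h3 : 0 ≤ ∑ wl : ((Fin p × Fin k) × G) × Fin k,
        star (∑ y, (∑ i, Zs wl.1 (y, i) • kz wl.2 i) * b y) *
          (∑ y, (∑ i, Zs wl.1 (y, i) • kz wl.2 i) * b y) :=
      Finset.sum_nonneg fun _ _ => star_mul_self_nonneg _
    have key := add_le_add hlow h3
    rw [← f4, add_zero, neg_le_iff_add_nonneg] at key
    rw [Fintype.sum_sum_type, ← sub_nonneg]
    have key2 := key.trans (add_le_add (add_le_add (add_le_add le_rfl
      (sub_le_sub_right (smul_le_smul_of_nonneg_left hqq he0) _)) le_rfl) le_rfl)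
    refine le_of_le_of_eq key2 ?_
    simp only [Sum.elim_inl, Sum.elim_inr, Wv, add_smul]
    abel
  refine ⟨G, G ⊕ (Fin r × Fin k), inferInstance, inferInstance, Sum.elim Wx Wv,
    Fintype.card_pos, ?_, hfix, fun b => (hmain b).trans ?_⟩
  · have h1 : (r : ℝ) * k ≤ Fintype.card G := by
      rw [one_div, ← div_eq_inv_mul, le_div_iff₀ (by positivity)] at hr
      nlinarith [Nat.cast_nonneg (α := ℝ) r]
    have h2 : r * k ≤ Fintype.card G := mod_cast h1
    simp only [Fintype.card_sum, Fintype.card_prod, Fintype.card_fin]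
    omega
  · exact add_le_add_left (smul_le_smul_of_nonneg_right (by linarith)
      (Finset.sum_nonneg fun y _ => star_mul_self_nonneg _)) _

/-- Rows for an element with small traces in another algebra, pushed along a homomorphism. -/
theorem exists_trace_rows (hT : TraceStatement.{u}) {C : Type u} [CStarAlgebra C]
    (f : C →⋆ₐ[ℂ] B) {c : C} (hc : ∃ y : C, c = star y * y) {t : ℝ} (ht : 0 ≤ t)
    (hτ : ∀ τ : C →ₗ[ℂ] ℂ, IsTrace C τ → (τ c).re ≤ t) {d : ℝ} (hd : 0 < d) :
    ∃ (n : ℕ) (x : Fin n → C), ‖∑ i, star (f (x i)) * f (x i) - f c‖ ≤ d ∧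
      ∑ i, f (x i) * star (f (x i)) ≤ algebraMap ℝ B (t + d) := by
  let _ : PartialOrder C := CStarAlgebra.spectralOrder C
  let _ : StarOrderedRing C := CStarAlgebra.spectralOrderedRing C
  obtain ⟨n, x, hx, hxx⟩ := hT C c (CStarAlgebra.nonneg_iff_eq_star_mul_self.2 hc) t ht hτ d hd
  refine ⟨n, x, ?_, ?_⟩
  · simp only [← map_star, ← map_mul, ← map_sum, ← map_sub]
    exact (NonUnitalStarAlgHom.norm_apply_le f _).trans hx
  · obtain ⟨z, hz⟩ := CStarAlgebra.nonneg_iff_eq_star_mul_self.1 (sub_nonneg.2 hxx)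
    have h1 : f (algebraMap ℝ C (t + d)) = algebraMap ℝ B (t + d) := by
      rw [IsScalarTower.algebraMap_apply ℝ ℂ C, AlgHomClass.commutes,
        ← IsScalarTower.algebraMap_apply]
    rw [← sub_nonneg]
    refine le_of_le_of_eq (star_mul_self_nonneg (f z)) ?_
    rw [← map_star, ← map_mul, ← hz, map_sub, h1, map_sum]
    simp only [map_mul, map_star]

theorem amplify_of (hT : TraceStatement.{u}) (hF : FreeStatement.{u}) (hM : ModelStatement) :
    NU.AmplifyStatement.{u} := by
  intro B _ K _ hnuc h w w₁ hu ε hε p hp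
  let _ : PartialOrder B := CStarAlgebra.spectralOrder B
  let _ : StarOrderedRing B := CStarAlgebra.spectralOrderedRing B
  obtain ⟨⟨⟨⟨h₀, hh0⟩, hhn⟩, hhK⟩, ⟨⟨⟨w₀, hw0⟩, -⟩, -⟩, -, hwh, -⟩ := hu
  have hh : 0 ≤ h := hh0 ▸ star_mul_self_nonneg h₀
  have hhsa : IsSelfAdjoint h := IsSelfAdjoint.of_nonneg hh
  set t : ℝ := min (min (1 / 2) (ε / 16)) (ε ^ 2 / (8192 * (p + 1))) with ht_def
  have ht : 0 < t := lt_min (lt_min (by norm_num) (by positivity)) (by positivity)
  have ht2 : t ≤ 1 / 2 := (min_le_left _ _).trans (min_le_left _ _)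
  have ht8 : t ≤ ε / 16 := (min_le_left _ _).trans (min_le_right _ _)
  have htsq : 4 * Real.sqrt ((p + 1) * (t + t)) ≤ ε / 16 := by
    have h1 : t ≤ ε ^ 2 / (8192 * (p + 1)) := min_le_right _ _
    rw [le_div_iff₀ (by positivity)] at h1
    have h2 : ((p : ℝ) + 1) * (t + t) ≤ (ε / 64) ^ 2 := by nlinarith
    have h3 := Real.sqrt_le_sqrt h2
    rw [Real.sqrt_sq (by positivity)] at h3
    linarith
  refine ⟨t, ht, fun e₀ he₀ hτ => ?_⟩
  obtain ⟨⟨e₁, he1⟩, hen⟩ := he₀
  set a : B := h * e₀ * h with ha_def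
  have hapos : 0 ≤ a := by
    have : a = star (e₁ * h) * (e₁ * h) := by
      rw [ha_def, he1, star_mul, hhsa.star_eq]
      simp only [mul_assoc]
    exact this ▸ star_mul_self_nonneg _
  have han : ‖a‖ ≤ 1 := (norm_mul_le _ _).trans
    (mul_le_one₀ ((norm_mul_le _ _).trans (mul_le_one₀ hhn (norm_nonneg _) hen)) (norm_nonneg _) hhn)
  obtain ⟨n, xL, hxL, hxxL⟩ := exists_trace_rows hT (locAlg h).subtype
    (isPos_locAlg (z := locElem h e₀) hapos) ht.le hτ ht
  let x : Fin n → B := fun i => (xL i : B)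
  have hx : ‖∑ i, star (x i) * x i - a‖ ≤ t := hxL
  have hxx : ∑ i, x i * star (x i) ≤ algebraMap ℝ B (t + t) := hxxL
  set δ : ℝ := ε / 64 with hδdef
  have hδ : 0 < δ := by positivity
  set k0 := unitCut δ h with hk0
  have hks : star k0 = k0 := star_unitCut hδ hhsa
  obtain ⟨hkn, hkh⟩ := norm_unitCut_le hδ hh
  have hkK : k0 ∈ K.carrier := K.mul_right _ _ hhK
  have hwk : w * k0 = k0 := by rw [hk0, unitCut, ← mul_assoc, hwh]
  set q := k0 * k0 with hq_def
  have hq : star q = q := by rw [hq_def, star_mul, hks]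
  have hqn : ‖q‖ ≤ 1 := (norm_mul_le _ _).trans (mul_le_one₀ hkn (norm_nonneg _) hkn)
  have hqh : ‖q * h - h‖ ≤ 2 * δ := by
    have : q * h - h = k0 * (k0 * h - h) + (k0 * h - h) := by rw [hq_def]; noncomm_ring
    rw [this, two_mul]
    exact (norm_add_le _ _).trans (add_le_add ((norm_mul_le _ _).trans
      ((mul_le_of_le_one_left (norm_nonneg _) hkn).trans hkh)) hkh)
  have hhq : ‖h * q - h‖ ≤ 2 * δ := by
    rwa [← norm_star, star_sub, star_mul, hq, hhsa.star_eq]
  have hqa : ‖a - q * a * q‖ ≤ 4 * δ := by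
    have h1 : a - q * a * q = -((q * h - h) * (e₀ * (h * q)) + h * e₀ * (h * q - h)) := by
      rw [ha_def]; noncomm_ring
    rw [h1, norm_neg, show 4 * δ = 2 * δ + 2 * δ by ring]
    refine (norm_add_le _ _).trans (add_le_add ((norm_mul_le _ _).trans ?_)
      ((norm_mul_le _ _).trans ?_))
    · refine (mul_le_of_le_one_right (norm_nonneg _) ?_).trans hqh
      exact (norm_mul_le _ _).trans (mul_le_one₀ hen (norm_nonneg _)
        ((norm_mul_le _ _).trans (mul_le_one₀ hhn (norm_nonneg _) hqn)))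
    · refine (mul_le_of_le_one_left (norm_nonneg _) ?_).trans hhq
      exact (norm_mul_le _ _).trans (mul_le_one₀ hhn (norm_nonneg _) hen)
  set e := t + 4 * Real.sqrt ((p + 1) * (t + t)) with he
  set S := freeSupport p n
  classical
  set err : ℝ := ε / 8 / ((S.card * p : ℕ) + 1) with herr
  have herr0 : 0 < err := by positivity
  obtain ⟨k, φ, ψ, hφ, hψ, hψK, hψn, happ⟩ := hnuc
    ((S ×ˢ (Finset.univ : Finset (Fin p × Fin p))).image
      fun v => k0 * freeCoef x a e v.1 v.2.1 v.2.2 * k0)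
    (fun y hy => by
      obtain ⟨v, -, rfl⟩ := Finset.mem_image.1 hy
      exact K.mul_left _ _ hkK) err herr0
  have hψ0n : ‖k0 * (ψ 1 * k0)‖ ≤ 1 := (norm_mul_le _ _).trans
    (mul_le_one₀ hkn (norm_nonneg _) ((norm_mul_le _ _).trans (mul_le_one₀ hψn (norm_nonneg _) hkn)))
  obtain ⟨G, ρ, _, _, W, hG, hρ, hWw, hW⟩ := model_rows hF hM hapos han ht.le (by linarith)
    (by linarith) (by linarith) hx hxx hq hqn
    (fun i => mul_locAlg_mul hhsa hwh (xL i).2 (by rw [hq_def, ← mul_assoc, hwk]))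
    (isCPMap_comp hφ hks) (isCPMapMat_comp hψ hks) hψ0n
    (fun M => by
      show w * (k0 * (ψ M * k0)) = _
      rw [← mul_assoc w, hwk]; rfl)
    (show (0 : ℝ) < ε / 8 by positivity)
    (err := err) (fun z hz c c' => by
      have h1 := happ _ (Finset.mem_image.2
        ⟨(z, (c, c')), Finset.mem_product.2 ⟨hz, Finset.mem_univ _⟩, rfl⟩)
      rw [norm_sub_rev] at h1
      simp only [LinearMap.comp_apply, LinearMap.mulLeft_apply, LinearMap.mulRight_apply]
      set y := freeCoef x a e z c c'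
      rw [show q * y * q - k0 * (ψ (φ (k0 * (y * k0))) * k0) =
        k0 * (k0 * y * k0 - ψ (φ (k0 * y * k0))) * k0 by
          simp only [hq_def, mul_sub, sub_mul, mul_assoc]]
      exact (norm_mul_le _ _).trans ((mul_le_of_le_one_right (norm_nonneg _) hkn).trans
        ((norm_mul_le _ _).trans ((mul_le_of_le_one_left (norm_nonneg _) hkn).trans h1))))
    (by rw [herr, mul_div_assoc', div_le_iff₀ (by positivity)]; nlinarith)
  set N := Fintype.card G
  have hc2 : Fintype.card ρ + (2 * N - Fintype.card ρ) = 2 * N := by omega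
  let W2 : ρ ⊕ Fin (2 * N - Fintype.card ρ) → Fin p × G → B := Sum.elim W fun _ _ => 0
  let eQ : ρ ⊕ Fin (2 * N - Fintype.card ρ) ≃ Fin (2 * N) :=
    (Fintype.equivFinOfCardEq (by rw [Fintype.card_sum, Fintype.card_fin]; exact hc2))
  let eP : Fin (p * N) ≃ Fin p × G :=
    finProdFinEquiv.symm.trans (Equiv.prodCongr (Equiv.refl _) (Fintype.equivFin G).symm)
  obtain ⟨ι⟩ : Nonempty (ρ ⊕ Fin (2 * N - Fintype.card ρ) ↪ Fin p × G) := by
    rw [Function.Embedding.nonempty_iff_card_le, Fintype.card_congr eQ, Fintype.card_fin,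
      Fintype.card_prod, Fintype.card_fin]
    exact Nat.mul_le_mul_right N hp
  obtain ⟨Y, hYw, hY⟩ := exists_rows (δ := 4 * δ + (e + 2 * (ε / 8))) (ε := ε) hapos
    (by linarith) W2 (fun b => by
      have h1 : ∑ u, star (b u) * a * b u ≤
          (4 * δ) • ∑ u, star (b u) * b u + ∑ u, star (b u) * (q * a * q) * b u := by
        rw [← sub_le_iff_le_add, ← Finset.sum_sub_distrib, Finset.smul_sum]
        refine Finset.sum_le_sum fun u _ => ?_
        have hsa : IsSelfAdjoint (a - q * a * q) := (IsSelfAdjoint.of_nonneg hapos).sub (by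
          have := (IsSelfAdjoint.of_nonneg hapos).conjugate q
          rwa [hq] at this)
        have h2 := star_left_conjugate_le_conjugate
          (hsa.le_algebraMap_norm_self.trans (algebraMap_mono B hqa)) (b u)
        rw [← sub_mul, ← mul_sub]
        refine h2.trans (le_of_eq ?_)
        rw [Algebra.algebraMap_eq_smul_one, mul_smul_comm, smul_mul_assoc, mul_one]
      refine h1.trans ((add_le_add_right (hW b) _).trans (le_of_eq ?_))
      rw [← add_assoc, ← add_smul]
      simp [W2, he]) ι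
  refine ⟨N, fun j c => Y (eQ.symm j) (eP c), hG, fun j c => ?_, fun c c' => ?_⟩
  · refine hYw w (fun j u => ?_) _ _
    rcases j with j | j
    · exact hWw j u
    · exact mul_zero w
  · rw [Equiv.sum_comp eQ.symm fun j => star (Y j (eP c)) * Y j (eP c'), hY]
    simp only [eP.apply_eq_iff_eq]
    rfl

end Vale.Agent.P095.NU
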