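import Vale.Agent.P095.NU.Specs
import Vale.Agent.P095.Compare.Forms

/-!
# P095, non-unital: tools for amplification

The algebra around `h` moves right multiples of `h` inside the fixed rows of a local unit; Gram
kernels of fixed rows have fixed rows; conjugating completely positive maps.
-/

noncomputable section

namespace Vale.Agent.P095.NU

universe u

open Vale.Agent.P095.Full Vale.Agent.P095.Compare

variable {B : Type u} [CStarAlgebra B]

/-- The cut `min 1 (s / δ)` written as `h * g h`. -/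
def unitCut (δ : ℝ) (h : B) : B := h * cfc (fun s : ℝ => (max s δ)⁻¹) h

theorem continuous_invMax {δ : ℝ} (hδ : 0 < δ) : Continuous fun s : ℝ => (max s δ)⁻¹ :=
  Continuous.inv₀ (by fun_prop) fun s => (hδ.trans_le (le_max_right s δ)).ne'

theorem unitCut_eq {δ : ℝ} (hδ : 0 < δ) {h : B} (hh : IsSelfAdjoint h) :
    unitCut δ h = cfc (fun s : ℝ => s * (max s δ)⁻¹) h := by
  rw [cfc_mul _ _ h (by fun_prop) (continuous_invMax hδ).continuousOn, cfc_id' ℝ h hh]
  rfl

theorem star_unitCut {δ : ℝ} (hδ : 0 < δ) {h : B} (hh : IsSelfAdjoint h) :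
    star (unitCut δ h) = unitCut δ h := by
  rw [unitCut_eq hδ hh]
  exact (cfc_predicate (fun s : ℝ => s * (max s δ)⁻¹) h : IsSelfAdjoint _).star_eq

theorem norm_unitCut_le [PartialOrder B] [StarOrderedRing B] {δ : ℝ} (hδ : 0 < δ) {h : B}
    (hh : 0 ≤ h) : ‖unitCut δ h‖ ≤ 1 ∧ ‖unitCut δ h * h - h‖ ≤ δ := by
  have hsa := IsSelfAdjoint.of_nonneg hh
  have hc : Continuous fun s : ℝ => s * (max s δ)⁻¹ := continuous_id.mul (continuous_invMax hδ)
  have hpos : ∀ s : ℝ, 0 < max s δ := fun s => hδ.trans_le (le_max_right s δ)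
  refine ⟨?_, ?_⟩
  · rw [unitCut_eq hδ hsa]
    refine norm_cfc_le zero_le_one fun s hs => ?_
    have hs0 := spectrum_nonneg_of_nonneg hh hs
    rw [Real.norm_eq_abs, abs_of_nonneg (mul_nonneg hs0 (inv_nonneg.2 (hpos s).le)),
      mul_inv_le_iff₀ (hpos s), one_mul]
    exact le_max_left _ _
  · have e : unitCut δ h * h - h = cfc (fun s : ℝ => s * (max s δ)⁻¹ * s - s) h := by
      rw [cfc_sub (fun s : ℝ => s * (max s δ)⁻¹ * s) (fun s => s) h
          (hc.mul continuous_id).continuousOn continuousOn_id,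
        cfc_mul (fun s : ℝ => s * (max s δ)⁻¹) (fun s => s) h hc.continuousOn continuousOn_id,
        cfc_id' ℝ h hsa, unitCut_eq hδ hsa]
    rw [e]
    refine norm_cfc_le hδ.le fun s hs => ?_
    have hs0 := spectrum_nonneg_of_nonneg hh hs
    rw [Real.norm_eq_abs]
    rcases le_total δ s with h' | h'
    · rw [max_eq_left h', mul_inv_cancel₀ (hδ.trans_le h').ne', one_mul, sub_self, abs_zero]
      exact hδ.le
    · rw [max_eq_right h']
      have h1 : s * δ⁻¹ ≤ 1 := by rw [mul_inv_le_iff₀ hδ]; linarith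
      have h2 : 0 ≤ s * δ⁻¹ := mul_nonneg hs0 (inv_nonneg.2 hδ.le)
      rw [abs_le]
      constructor <;> nlinarith

/-- A left unit of `h` is a left unit of `x * y` for `x` in the algebra around `h` and `y` fixed by
it. -/
theorem mul_locAlg_mul {h w : B} (hh : IsSelfAdjoint h) (hw : w * h = h) {x : B}
    (hx : x ∈ locAlg h) {y : B} (hy : w * y = y) : w * (x * y) = x * y := by
  let S : Set B := {x | ∀ y : B, w * y = y → w * (x * y) = x * y}
  have hcl : IsClosed S := by
    simp only [S, Set.setOf_forall]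
    exact isClosed_iInter fun y => isClosed_iInter fun _ =>
      isClosed_eq (by fun_prop) (by fun_prop)
  have hgen : ∀ z : B, h * z * h ∈ S := fun z y hy => by
    rw [show h * z * h * y = h * (z * h * y) by simp only [mul_assoc], ← mul_assoc, hw]
  suffices hS : (StarAlgebra.adjoin ℂ (Set.range fun z : B => h * z * h) : Set B) ⊆ S from
    (closure_minimal hS hcl) hx y hy
  intro z hz
  suffices h2 : z ∈ S ∧ star z ∈ S from h2.1
  induction hz using StarAlgebra.adjoin_induction with
  | mem z hz =>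
    obtain ⟨t, rfl⟩ := hz
    refine ⟨hgen t, ?_⟩
    rw [star_mul, star_mul, hh.star_eq, ← mul_assoc]
    exact hgen _
  | algebraMap r =>
    have : ∀ r : ℂ, algebraMap ℂ B r ∈ S := fun r y hy => by
      rw [← Algebra.smul_def, mul_smul_comm, hy]
    exact ⟨this r, by rw [← algebraMap_star_comm]; exact this _⟩
  | add a b _ _ ha hb =>
    refine ⟨fun y hy => ?_, fun y hy => ?_⟩
    · rw [add_mul, mul_add, ha.1 y hy, hb.1 y hy]
    · rw [star_add, add_mul, mul_add, ha.2 y hy, hb.2 y hy]
  | mul a b _ _ ha hb =>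
    refine ⟨fun y hy => ?_, fun y hy => ?_⟩
    · rw [mul_assoc, ha.1 _ (hb.1 y hy)]
    · rw [star_mul, mul_assoc, hb.2 _ (ha.2 y hy)]
  | star a _ ha => exact ⟨ha.2, by rw [star_star]; exact ha.1⟩

/-- The real functional calculus of the algebra around `h` is that of `B`. -/
theorem coe_cfc_locAlg {h : B} (f : ℝ → ℝ) (hf : Continuous f) {z : locAlg h}
    (hz : IsSelfAdjoint z) : ((cfc f z : locAlg h) : B) = cfc f (z : B) :=
  StarAlgHom.map_cfc ((locAlg h).subtype.restrictScalars ℝ) f z hf.continuousOn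
    (AddMonoidHomClass.continuous_of_bound (locAlg h).subtype 1 fun x => by
      simpa only [one_mul] using NonUnitalStarAlgHom.norm_apply_le (locAlg h).subtype x) hz
    (hz.map (locAlg h).subtype)

/-- An element of the algebra around `h` positive in `B` is positive there. -/
theorem isPos_locAlg [PartialOrder B] [StarOrderedRing B] {h : B} {z : locAlg h}
    (hz : 0 ≤ (z : B)) : ∃ y : locAlg h, z = star y * y := by
  have hsa : IsSelfAdjoint z := Subtype.ext (IsSelfAdjoint.of_nonneg hz).star_eq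
  let f : ℝ → ℝ := fun t => √(max t 0)
  refine ⟨cfc f z, Subtype.ext ?_⟩
  rw [MulMemClass.coe_mul, StarMemClass.coe_star, coe_cfc_locAlg f (by fun_prop) hsa,
    (cfc_predicate f (z : B) : IsSelfAdjoint _).star_eq,
    ← cfc_mul f f (z : B) (by fun_prop) (by fun_prop)]
  conv_lhs => rw [← cfc_id' ℝ (z : B) (IsSelfAdjoint.of_nonneg hz)]
  refine cfc_congr fun t ht => ?_
  simp only [f]
  rw [Real.mul_self_sqrt (le_max_right _ _), max_eq_left (spectrum_nonneg_of_nonneg hz ht)]

/-- A self-adjoint square root of `star Z * Z`. -/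
theorem exists_sa_sqrt {C : Type*} [CStarAlgebra C] (Z : C) :
    ∃ S : C, star S = S ∧ star S * S = star Z * Z := by
  let _ : PartialOrder C := CStarAlgebra.spectralOrder C
  let _ : StarOrderedRing C := CStarAlgebra.spectralOrderedRing C
  have hs : star (CFC.sqrt (star Z * Z)) = CFC.sqrt (star Z * Z) :=
    (IsSelfAdjoint.of_nonneg (CFC.sqrt_nonneg _)).star_eq
  exact ⟨CFC.sqrt (star Z * Z), hs,
    by rw [hs]; exact CFC.sqrt_mul_sqrt_self _ (star_mul_self_nonneg Z)⟩

variable [PartialOrder B] [StarOrderedRing B]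

/-- A Gram kernel with entries fixed by `w` is the Gram kernel of rows fixed by `w`. -/
theorem exists_fixed_gram {κ : Type*} [Fintype κ] [DecidableEq κ] (Z : κ → κ → B) {w : B}
    (hw : ∀ u v, w * ∑ z, star (Z z u) * Z z v = ∑ z, star (Z z u) * Z z v) :
    ∃ S : κ → κ → B, (∀ z u, w * S z u = S z u) ∧
      ∀ u v, ∑ z, star (S z u) * S z v = ∑ z, star (Z z u) * Z z v := by
  obtain ⟨S, hS, hSS⟩ :=
    exists_sa_sqrt (CStarMatrix.ofMatrix (Matrix.of Z) : CStarMatrix κ κ B)
  have hgram : ∀ u v, ∑ z, star (S z u) * S z v = ∑ z, star (Z z u) * Z z v := fun u v => by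
    have := congrArg (fun X : CStarMatrix κ κ B => X u v) hSS
    simp only [CStarMatrix.mul_apply, CStarMatrix.star_apply] at this
    exact this
  have hsym : ∀ z u, star (S z u) = S u z := fun z u => by
    have := congrArg (fun X : CStarMatrix κ κ B => X u z) hS
    simp only [CStarMatrix.star_apply] at this
    exact this
  refine ⟨fun z u => S z u, fun z u => ?_, hgram⟩
  have h0 : ∑ x, ((w - 1) * S z x) * star ((w - 1) * S z x) = 0 := by
    have e : ∀ x, ((w - 1) * S z x) * star ((w - 1) * S z x) =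
        (w - 1) * (star (S x z) * S x z) * star (w - 1) := fun x => by
      rw [hsym x z, show S x z = star (S z x) from (hsym z x).symm, star_mul]
      simp only [mul_assoc]
    simp only [e, ← Finset.sum_mul, ← Finset.mul_sum]
    rw [sub_mul, one_mul, hgram, hw, sub_self, zero_mul]
  have h1 := (Finset.sum_eq_zero_iff_of_nonneg fun x _ => mul_star_self_nonneg _).1 h0 u
    (Finset.mem_univ u)
  rw [CStarRing.mul_star_self_eq_zero_iff, sub_mul, one_mul, sub_eq_zero] at h1
  exact h1

/-- A completely positive map out of matrices with values fixed by `w` is given by fixed rows. -/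
theorem exists_fixed_kraus {n : ℕ} {ψ : Matrix (Fin n) (Fin n) ℂ →ₗ[ℂ] B} (h : IsCPMapMat B ψ)
    {w : B} (hw : ∀ M, w * ψ M = ψ M) :
    ∃ z : Fin n → Fin n → B, (∀ l a, w * z l a = z l a) ∧
      ∀ M, ψ M = ∑ l, ∑ a, ∑ b, M a b • (star (z l a) * z l b) := by
  classical
  obtain ⟨z, hz⟩ := exists_kraus h
  have he : ∀ a b, ψ (Matrix.single a b 1) = ∑ l, star (z l a) * z l b := fun a b => by
    rw [hz]
    refine Finset.sum_congr rfl fun l _ => ?_
    simp [Matrix.single_apply, ite_smul, ite_and, Finset.sum_ite_eq]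
  obtain ⟨S, hSw, hS⟩ := exists_fixed_gram z (w := w) fun a b => by rw [← he]; exact hw _
  refine ⟨S, hSw, fun M => ?_⟩
  have key : ∀ z : Fin n → Fin n → B, ∑ l, ∑ a, ∑ b, M a b • (star (z l a) * z l b) =
      ∑ a, ∑ b, M a b • ∑ l, star (z l a) * z l b := fun z => by
    simp only [Finset.smul_sum]
    rw [Finset.sum_comm]
    exact Finset.sum_congr rfl fun a _ => Finset.sum_comm
  rw [hz, key, key]
  simp only [hS]

/-- Conjugation before a completely positive map. -/
theorem isCPMap_comp {n : ℕ} {φ : B →ₗ[ℂ] Matrix (Fin n) (Fin n) ℂ} (hφ : IsCPMap φ) {k : B}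
    (hk : star k = k) :
    IsCPMap (φ.comp ((LinearMap.mulLeft ℂ k).comp (LinearMap.mulRight ℂ k))) := by
  intro m a b
  obtain ⟨w, hw⟩ := hφ m (fun i => a i * k) b
  refine ⟨w, ?_⟩
  rw [← hw]
  refine Finset.sum_congr rfl fun i _ => Finset.sum_congr rfl fun j _ => ?_
  simp only [LinearMap.comp_apply, LinearMap.mulLeft_apply, LinearMap.mulRight_apply, star_mul, hk,
    mul_assoc]

/-- Conjugation after a completely positive map. -/
theorem isCPMapMat_comp {n : ℕ} {ψ : Matrix (Fin n) (Fin n) ℂ →ₗ[ℂ] B} (hψ : IsCPMapMat B ψ)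
    {k : B} (hk : star k = k) :
    IsCPMapMat B (((LinearMap.mulLeft ℂ k).comp (LinearMap.mulRight ℂ k)).comp ψ) := by
  intro m a b
  obtain ⟨w, hw⟩ := hψ m a (fun i => k * b i)
  refine ⟨w, ?_⟩
  rw [← hw]
  refine Finset.sum_congr rfl fun i _ => Finset.sum_congr rfl fun j _ => ?_
  simp only [LinearMap.comp_apply, LinearMap.mulLeft_apply, LinearMap.mulRight_apply, star_mul, hk,
    mul_assoc]

end Vale.Agent.P095.NU
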