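import Vale.Agent.P095.NU.Excision

/-!
# P095, all amenable groups, non-unital: approximate units with local units

`P n = ∑_{p ≤ n} a p (a p)*` for a dense sequence `a` of the ideal; three nested ramps of `P n`.
-/

noncomputable section

namespace Vale.Agent.P095.NU

universe u

open Filter Topology Vale.Agent.P095.Relative Vale.Agent.P095.Full
  Vale.Agent.P095.Full.Excision

attribute [local instance] CStarAlgebra.spectralOrder CStarAlgebra.spectralOrderedRing

variable {B : Type u} [CStarAlgebra B]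

/-- `(1 - ramp)² t ≤ 2 δ`. -/
theorem compl_up_sq_mul_le {δ t : ℝ} (hδ : 0 < δ) (ht : 0 ≤ t) :
    ‖(1 - up δ δ t) * t * (1 - up δ δ t)‖ ≤ 2 * δ := by
  have h0 : 0 ≤ 1 - up δ δ t := by linarith [up_le_one δ δ t]
  have h1 : 1 - up δ δ t ≤ 1 := by linarith [up_nonneg δ δ t]
  rw [Real.norm_of_nonneg (by positivity)]
  rcases le_total t (2 * δ) with h | h
  · calc (1 - up δ δ t) * t * (1 - up δ δ t) ≤ 1 * t * 1 := by gcongr
      _ ≤ 2 * δ := by linarith
  · rw [up_eq_one hδ (by linarith)]
    simp [hδ.le]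

/-- Every closed ideal of a separable algebra has an approximate unit with local units. -/
theorem exists_isUnitSeq [TopologicalSpace.SeparableSpace B] (K : TestIdeal B)
    (hK : IsClosedIdeal K) : ∃ u : ℕ → B, IsUnitSeq K u := by
  classical
  have : Nonempty K.carrier := ⟨⟨0, hK.zero_mem⟩⟩
  obtain ⟨a, ha⟩ := TopologicalSpace.exists_dense_seq K.carrier
  set P : ℕ → B := fun n => ∑ p ∈ Finset.range (n + 1), (a p : B) * star (a p : B) with hP
  have hP0 : ∀ n, 0 ≤ P n := fun n => Finset.sum_nonneg fun p _ => mul_star_self_nonneg _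
  have hPK : ∀ n, P n ∈ K.carrier := fun n =>
    Finset.sum_induction _ (· ∈ K.carrier) (fun x y hx hy => hK.add_mem x hx y hy) hK.zero_mem
      fun p _ => K.mul_right _ _ (a p).2
  let δ : ℕ → ℝ := fun n => 1 / ((n : ℝ) + 1)
  have hδ : ∀ n, 0 < δ n := fun n => by positivity
  have mem : ∀ (n : ℕ) (c : ℝ), 0 < c → InPosBall K (cfc (up c c) (P n)) := fun n c hc =>
    ⟨⟨isPos_of_nonneg' (cfc_up_nonneg _ _ _), norm_cfc_up_le _ _ _⟩,
      cfc_up_mem K (hP0 n) (hPK n) hc hc⟩
  refine ⟨fun n => cfc (up (δ n) (δ n)) (P n), fun n => mem n _ (hδ n), fun n => ?_, ?_⟩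
  · exact ⟨cfc (up (δ n / 2) (δ n / 2)) (P n), cfc (up (δ n / 4) (δ n / 4)) (P n),
      mem n _ (hδ n), mem n _ (half_pos (hδ n)), mem n _ (by linarith [hδ n]),
      cfc_up_mul (half_pos (hδ n)) (hδ n) (by linarith),
      cfc_up_mul (by linarith [hδ n]) (half_pos (hδ n)) (by linarith)⟩
  intro k hk
  set u : ℕ → B := fun n => cfc (up (δ n) (δ n)) (P n) with hu
  have hu1 : ∀ n, ‖u n‖ ≤ 1 := fun n => norm_cfc_up_le _ _ _
  -- on the dense sequence
  have hbound : ∀ p n, p ≤ n → ‖u n * (a p : B) - (a p : B)‖ ≤ Real.sqrt (2 * δ n) := by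
    intro p n hpn
    set D := cfc (fun t => 1 - up (δ n) (δ n) t) (P n) with hD
    have hc : Continuous fun t => 1 - up (δ n) (δ n) t := continuous_const.sub (continuous_up _ _)
    have hPs : IsSelfAdjoint (P n) := IsSelfAdjoint.of_nonneg (hP0 n)
    have hDs : star D = D := IsSelfAdjoint.star_eq (cfc_predicate _ _)
    have e1 : u n * (a p : B) - (a p : B) = -(D * (a p : B)) := by
      rw [hD, cfc_sub (fun _ => (1 : ℝ)) (up (δ n) (δ n)) (P n) continuousOn_const
        (continuous_up _ _).continuousOn, cfc_const_one ℝ (P n) hPs, sub_mul, one_mul, neg_sub]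
    rw [e1, norm_neg]
    refine Real.le_sqrt_of_sq_le ?_
    rw [sq, ← CStarRing.norm_self_mul_star, star_mul,
      show D * (a p : B) * (star (a p : B) * star D) = D * ((a p : B) * star (a p : B)) * star D by
        simp only [mul_assoc]]
    have hle : D * ((a p : B) * star (a p : B)) * star D ≤ D * P n * star D :=
      star_right_conjugate_le_conjugate (Finset.single_le_sum
        (f := fun p => (a p : B) * star (a p : B)) (fun q _ => mul_star_self_nonneg _)
        (Finset.mem_range_succ_iff.2 hpn)) D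
    refine (CStarAlgebra.norm_le_norm_of_nonneg_of_le
      (star_right_conjugate_nonneg (mul_star_self_nonneg _) D) hle).trans ?_
    rw [hDs, hD]
    nth_rewrite 2 [← cfc_id' ℝ (P n) hPs]
    rw [← cfc_mul _ (fun x : ℝ => x) (P n) hc.continuousOn continuousOn_id,
      ← cfc_mul (fun x => (1 - up (δ n) (δ n) x) * x) _ (P n)
      (hc.mul continuous_id).continuousOn hc.continuousOn]
    exact norm_cfc_le (by positivity) fun t ht =>
      compl_up_sq_mul_le (hδ n) (spectrum_nonneg_of_nonneg (hP0 n) ht)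
  have hlim : Tendsto (fun n => Real.sqrt (2 * δ n)) atTop (𝓝 0) := by
    have h := (tendsto_one_div_add_atTop_nhds_zero_nat (𝕜 := ℝ)).const_mul 2
    rw [mul_zero] at h
    have h2 := (Real.continuous_sqrt.tendsto 0).comp h
    rwa [Real.sqrt_zero] at h2
  rw [Metric.tendsto_nhds]
  intro ε hε
  obtain ⟨p, hp⟩ := ha.exists_dist_lt ⟨k, hk⟩ (show (0 : ℝ) < ε / 4 by positivity)
  have hp' : ‖k - (a p : B)‖ < ε / 4 := by rw [← dist_eq_norm]; exact hp
  filter_upwards [eventually_ge_atTop p, hlim.eventually (gt_mem_nhds (half_pos hε))] with n h1 h2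
  rw [Real.dist_eq, sub_zero, abs_of_nonneg (norm_nonneg _)]
  rw [show u n * k - k = (u n * (k - (a p : B)) - (k - (a p : B))) +
    (u n * (a p : B) - (a p : B)) by noncomm_ring]
  have h3 : ‖u n * (k - (a p : B)) - (k - (a p : B))‖ ≤ 2 * ‖k - (a p : B)‖ :=
    (norm_sub_le _ _).trans (by
      linarith [(norm_mul_le (u n) (k - (a p : B))).trans
        (mul_le_of_le_one_left (norm_nonneg _) (hu1 n))])
  have h4 := hbound p n h1
  have := norm_add_le (u n * (k - (a p : B)) - (k - (a p : B))) (u n * (a p : B) - (a p : B))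
  linarith

end Vale.Agent.P095.NU
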