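import Vale.Agent.P095.NU.Specs
import Vale.Agent.P095.NU.UnitSeq
import Vale.Agent.P095.Full.Assembly

/-!
# P095, all amenable groups, non-unital: assembly

Equivariant property (SI) applied to an invariant class which is null in all local traces but not
killed by a character gives two orthogonal invariant copies of it, which no character allows.  A
fixed relative algebra without characters contains invariant dimension-drop generators.
-/

noncomputable section

namespace Vale.Agent.P095.NU

universe u v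

open Filter Topology BoundedContinuousFunction Vale.Agent.P101
open Vale.Agent.P095.Gamma Vale.Agent.P095.Full Vale.Agent.P095.Relative

variable {B : Type u} [CStarAlgebra B] {K : TestIdeal B} {G : Type v} [Group G]
  (α : RelAction G K)

/-- Passage from the fixed algebra to the relative central sequence algebra. -/
def topIncl : α.fixed atTop (⊤ : Subgroup G) →⋆ₐ[ℂ] RelQuot K atTop :=
  (α.fixed atTop (⊤ : Subgroup G)).subtype

theorem topIncl_injective : Function.Injective (topIncl α) := fun _ _ h => Subtype.ext h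

/-- The functional calculus of a fixed class is represented by that of a representative. -/
theorem exists_cls_cfc (e : α.fixed atTop (⊤ : Subgroup G)) {E : ℕ →ᵇ B} (hE : IsRel K atTop E)
    (hcls : cls E hE = topIncl α e) (he : IsSelfAdjoint e) (hsa : IsSelfAdjoint E) {h : ℝ → ℝ}
    (hh : Continuous h) :
    ∃ hW : IsRel K atTop (fcalc h E), cls (fcalc h E) hW = topIncl α (fcalc h e) := by
  set x : relCent K atTop := ⟨seqMk B atTop E, hE⟩ with hx
  have hxsa : IsSelfAdjoint x := Subtype.ext (hsa.map (seqMk B atTop)).star_eq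
  have h1 : seqMk B atTop (fcalc h E) = ((fcalc h x : relCent K atTop) : SeqQuot B atTop) := by
    rw [hom_fcalc (seqMk B atTop) hh hsa]
    exact (hom_fcalc (relCent K atTop).subtype hh hxsa).symm
  have hW : IsRel K atTop (fcalc h E) := by
    rw [IsRel, h1]
    exact SetLike.coe_mem _
  refine ⟨hW, ?_⟩
  rw [cls, show (⟨seqMk B atTop (fcalc h E), hW⟩ : relCent K atTop) = fcalc h x from
    Subtype.ext h1, hom_fcalc (relMk K atTop) hh hxsa, hom_fcalc (topIncl α) hh he, ← hcls]
  rfl

/-- The relative classes of a bounded sequence asymptotically central and fixed. -/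
theorem exists_fixed_of_tendsto (S : ℕ →ᵇ B)
    (hc : ∀ k ∈ K.carrier, Tendsto (fun n => ‖k * S n - S n * k‖) atTop (𝓝 0))
    (hg : ∀ g, ∀ k ∈ K.carrier, Tendsto (fun n => ‖(α.hom g (S n) - S n) * k‖) atTop (𝓝 0)) :
    ∃ (x : α.fixed atTop (⊤ : Subgroup G)) (hS : IsRel K atTop S), cls S hS = topIncl α x :=
  ⟨⟨cls S (mem_relCent.2 hc), α.mem_fixed.2 fun g _ => by
    rw [α.act_cls, cls_eq_iff]
    exact hg g⟩, mem_relCent.2 hc, rfl⟩

/-- A fixed class moves its representatives little, against the ideal. -/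
theorem tendsto_translate (x : α.fixed atTop (⊤ : Subgroup G)) {X : ℕ →ᵇ B}
    (hX : IsRel K atTop X) (hcls : cls X hX = topIncl α x) (g : G) {k : B} (hk : k ∈ K.carrier) :
    Tendsto (fun n => ‖(α.hom g (X n) - X n) * k‖) atTop (𝓝 0) := by
  have h : α.act g (cls X hX) = cls X hX := by
    rw [hcls]
    exact α.mem_fixed.1 x.2 g (Subgroup.mem_top g)
  rw [α.act_cls] at h
  exact cls_eq_iff.1 h k hk

variable [TopologicalSpace.SeparableSpace B] [Countable G] [DecidableEq G]

/-- No character of the fixed relative algebra. -/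
theorem isEmpty_fixed (htr : TracialStatement.{u, v}) (hpair : PairStatement.{u, v})
    (hsi : SIStatement.{u, v}) (hK : IsClosedIdeal K) (hs : IsSimpleRel K) (hn : IsNuclearRel K)
    (hdd : HasRelDrop K) (hF : IsFolnerGroup G) :
    IsEmpty (α.fixed atTop (⊤ : Subgroup G) →⋆ₐ[ℂ] ℂ) := by
  classical
  refine ⟨fun χ => ?_⟩
  obtain ⟨u, hu⟩ := exists_isUnitSeq K hK
  obtain ⟨e, E, hE, hcls, hEpc, hχ, hτ⟩ := hpair htr B K hK hdd G hF α u hu χ
  have hEsa : IsSelfAdjoint E := by
    ext n
    exact (IsPos.isSelfAdjoint (hEpc n).1).star_eq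
  have hesa : IsSelfAdjoint e := topIncl_injective α <| by
    rw [map_star]
    show star (e : RelQuot K atTop) = e
    rw [← hcls, ← cls_star]
    exact cls_congr hEsa.star_eq hE
  set lam := (χ e).re with hlam
  have hcp : Continuous fun t : ℝ => max t 0 := by fun_prop
  have hlam0 : χ e = (max lam 0 : ℝ) := by
    have h1 : fcalc (fun t : ℝ => max t 0) E = E := by
      refine BoundedContinuousFunction.ext fun n => ?_
      show seqEval n (fcalc _ E) = seqEval n E
      rw [hom_fcalc (seqEval n) hcp hEsa]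
      exact cfc_posPart_of_isPos (hEpc n).1
    obtain ⟨hW, hWc⟩ := exists_cls_cfc α e hE hcls hesa hEsa hcp
    have h2 : fcalc (fun t : ℝ => max t 0) e = e :=
      topIncl_injective α <| hWc.symm.trans ((cls_congr h1 hE).trans hcls)
    conv_lhs => rw [← h2]
    exact char_cfc χ hcp hesa
  have hlpos : 0 < lam := by
    by_contra hneg
    exact hχ (by rw [hlam0, max_eq_right (not_lt.1 hneg), Complex.ofReal_zero])
  set η := lam / 2 with hη
  have hη0 : 0 < η := by positivity
  have hcont : Continuous (posCut η) := by unfold posCut; fun_prop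
  obtain ⟨q, hq⟩ := exists_surjective_nat G
  have : Nonempty K.carrier := ⟨⟨0, hK.zero_mem⟩⟩
  obtain ⟨b, hb⟩ := TopologicalSpace.exists_dense_seq K.carrier
  let a : ℕ → B := fun p => (b p : B)
  have hden : ∀ k ∈ K.carrier, k ∈ closure (Set.range a) := fun k hk =>
    map_mem_closure (f := fun x : K.carrier => (x : B)) continuous_subtype_val
      (hb (⟨k, hk⟩ : K.carrier)) (by rintro _ ⟨p, rfl⟩; exact ⟨p, rfl⟩)
  let ε : ℕ → ℝ := fun n => 1 / ((n : ℝ) + 1)
  have hεpos : ∀ n, 0 < ε n := fun n => by positivity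
  have hε0 : Tendsto ε atTop (𝓝 0) := tendsto_one_div_add_atTop_nhds_zero_nat
  choose mu θ T' X' hX'K hθ hP using fun n => hsi B K hK hs hn hdd G hF α u hu
    ((Finset.range (n + 1)).image q) ((Finset.range (n + 1)).image a)
    (fun x hx => by obtain ⟨p, -, rfl⟩ := Finset.mem_image.1 hx; exact (b p).2)
    η hη0 (ε n) (hεpos n)
  let good : ℕ → B → Prop := fun n z =>
    (∀ x ∈ X' n, ‖x * z - z * x‖ ≤ θ n) ∧
      (∀ g ∈ T' n, ∀ x ∈ X' n, ‖(α.hom g z - z) * x‖ ≤ θ n) ∧
      LocLE (u (mu n) * u (mu n)) z (θ n)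
  have hgood : ∀ n, ∀ᶠ m in atTop, good n (E m) := fun n => by
    filter_upwards [(X' n).eventually_all.2 fun x hx =>
      (mem_relCent.1 hE x (hX'K n x hx)).eventually (Iic_mem_nhds (hθ n)),
      (T' n).eventually_all.2 fun g _ => (X' n).eventually_all.2 fun x hx =>
      (tendsto_translate α e hE hcls g (hX'K n x hx)).eventually (Iic_mem_nhds (hθ n)),
      hτ (mu n) (θ n) (hθ n)] with m h1 h2 h3
    exact ⟨h1, h2, h3⟩
  let out : ℕ → ℕ → (Fin 2 → B) → Prop := fun n m s => good n (E m) →
    (∀ i, ∀ x ∈ (Finset.range (n + 1)).image a, ‖x * s i - s i * x‖ ≤ ε n) ∧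
    (∀ i, ∀ g ∈ (Finset.range (n + 1)).image q, ∀ x ∈ (Finset.range (n + 1)).image a,
      ‖(α.hom g (s i) - s i) * x‖ ≤ ε n) ∧
    ∀ i j, ∀ x ∈ (Finset.range (n + 1)).image a,
      ‖(star (s i) * s j - (if i = j then cfc (posCut η) (E m) else 0)) * x‖ ≤ ε n
  have hstep : ∀ n m, ∃ s : Fin 2 → B, (∀ i, ‖s i‖ ≤ 2) ∧ out n m s := by
    intro n m
    by_cases hg : good n (E m)
    · obtain ⟨s, hs2, hsc, hsg, hss⟩ := hP n (E m) (hEpc m) hg.1 hg.2.1 hg.2.2
      exact ⟨s, hs2, fun _ => ⟨fun i x hx => (hsc i x hx).1, hsg, hss⟩⟩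
    · exact ⟨0, fun i => by simp, fun h => absurd h hg⟩
  choose s hs2 hs' using hstep
  let lev : ℕ → ℕ := fun m => Nat.findGreatest (fun n => good n (E m)) m
  have hlev : ∀ n, ∀ᶠ m in atTop, n ≤ lev m ∧ good (lev m) (E m) := fun n => by
    filter_upwards [hgood n, eventually_ge_atTop n] with m h1 h2
    exact ⟨Nat.le_findGreatest h2 h1, Nat.findGreatest_spec (P := fun k => good k (E m)) h2 h1⟩
  let S : Fin 2 → (ℕ →ᵇ B) := fun i => bseq (fun m => s (lev m) m i) 2 fun m => hs2 _ _ i
  have hεlev : Tendsto (fun m => ε (lev m)) atTop (𝓝 0) :=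
    hε0.comp (tendsto_atTop.2 fun n => (hlev n).mono fun m hm => hm.1)
  have hlim : ∀ {w : ℕ → ℝ} (p : ℕ), (∀ m, 0 ≤ w m) →
      (∀ m, p ≤ lev m → good (lev m) (E m) → w m ≤ ε (lev m)) → Tendsto w atTop (𝓝 0) :=
    fun p h0 h => squeeze_zero' (Eventually.of_forall h0)
      ((hlev p).mono fun m hm => h m hm.1 hm.2) hεlev
  have hmem : ∀ {f : ℕ → B} {p n : ℕ}, p ≤ n → f p ∈ (Finset.range (n + 1)).image f :=
    fun {f p n} h => Finset.mem_image_of_mem f (Finset.mem_range_succ_iff.2 h)
  have hcent : ∀ i, ∀ k ∈ K.carrier, Tendsto (fun m => ‖k * S i m - S i m * k‖) atTop (𝓝 0) :=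
    fun i k hk => tendsto_dense (fun m x => x * S i m - S i m * x) (2 * ‖S i‖)
      (fun m => lip_comm _ ((S i).norm_coe_le_norm m))
      (fun p => hlim p (fun m => norm_nonneg _) fun m hp hg =>
        (hs' (lev m) m hg).1 i (a p) (hmem hp))
      (hden k hk)
  have hinv : ∀ i g, ∀ k ∈ K.carrier,
      Tendsto (fun m => ‖(α.hom g (S i m) - S i m) * k‖) atTop (𝓝 0) := by
    intro i g k hk
    obtain ⟨p, rfl⟩ := hq g
    set D : ℕ →ᵇ B := seqComp (α.hom (q p)) (S i) - S i with hD
    refine tendsto_dense (fun m x => D m * x) ‖D‖ (fun m => lip_mul _ (D.norm_coe_le_norm m))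
      (fun r => hlim (max p r) (fun m => norm_nonneg _) fun m hp hg => ?_) (hden k hk)
    exact (hs' (lev m) m hg).2.1 i (q p)
      (Finset.mem_image_of_mem q (Finset.mem_range_succ_iff.2 ((le_max_left _ _).trans hp))) (a r)
      (hmem ((le_max_right _ _).trans hp))
  choose sig hS hsig using fun i => exists_fixed_of_tendsto α (S i) (hcent i) (hinv i)
  obtain ⟨hW, hWc⟩ := exists_cls_cfc α e hE hcls hesa hEsa hcont
  have hrel : ∀ i j, star (sig i) * sig j = if i = j then fcalc (posCut η) e else 0 := by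
    intro i j
    refine topIncl_injective α ?_
    have hD : ∀ k ∈ K.carrier, Tendsto (fun m => ‖(star (S i m) * S j m -
        (if i = j then fcalc (posCut η) E else 0 : ℕ →ᵇ B) m) * k‖) atTop (𝓝 0) := by
      intro k hk
      set D : ℕ →ᵇ B := star (S i) * S j - (if i = j then fcalc (posCut η) E else 0) with hD
      refine tendsto_dense (fun m x => D m * x) ‖D‖ (fun m => lip_mul _ (D.norm_coe_le_norm m))
        (fun r => hlim r (fun m => norm_nonneg _) fun m hp hg => ?_) (hden k hk)
      refine le_trans (le_of_eq (congrArg (fun z => ‖z * a r‖) ?_))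
        ((hs' (lev m) m hg).2.2 i j (a r) (hmem hp))
      have hev : seqEval m (fcalc (posCut η) E) = cfc (posCut η) (E m) :=
        hom_fcalc (seqEval m) hcont hEsa
      rw [hD]
      split
      · simp only [S, ← hev]; rfl
      · simp [S]
    rw [map_mul, map_star, ← hsig i, ← hsig j, ← cls_star, ← cls_mul (hS i).star (hS j),
      apply_ite (topIncl α), map_zero]
    by_cases hij : i = j
    · rw [if_pos hij, ← hWc, cls_eq_iff]
      simpa [hij] using hD
    · rw [if_neg hij, cls_eq_zero_iff]
      simpa [hij] using hD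
  have hval : ∀ i j, star (χ (sig i)) * χ (sig j) = if i = j then (η : ℂ) else 0 := by
    intro i j
    rw [← map_star, ← map_mul, hrel]
    split
    · rw [fcalc, char_cfc χ hcont hesa, ← hlam]
      congr 1
      rw [posCut, max_eq_left (by linarith)]
      linarith
    · exact map_zero χ
  have h00 := hval 0 0
  have h11 := hval 1 1
  have h01 := hval 0 1
  rw [if_pos rfl] at h00 h11
  rw [if_neg (by decide)] at h01
  have hne : (η : ℂ) ≠ 0 := Complex.ofReal_ne_zero.2 hη0.ne'
  rcases mul_eq_zero.1 h01 with h | h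
  · exact hne (by rw [← h00, h, zero_mul])
  · exact hne (by rw [← h11, h, mul_zero])

omit [TopologicalSpace.SeparableSpace B] [Countable G] [DecidableEq G] in
/-- Equivariant Jiang–Su stability of the ideal for every countable amenable group, given the
tracial and the (SI) statements. -/
theorem amenableStatement_of (htr : TracialStatement.{u, v}) (hpair : PairStatement.{u, v})
    (hsi : SIStatement.{u, v}) : AmenableStatement.{u, v} :=
  fun _ _ _ _ hK hs hn hdd _ _ _ _ hF β =>
    exists_gens β (⊤ : Subgroup _) (fun _ => Set.toFinite _)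
      (isEmpty_fixed β htr hpair hsi hK hs hn hdd hF)

end Vale.Agent.P095.NU
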