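import Vale.Agent.P095.NU.Specs
import Vale.Agent.P095.Full.Bumps

/-!
# P095, all amenable groups, non-unital: bumps

In a simple ideal the norm of a positive relative class is attained over every norm-one positive
element, and a relative dimension drop gives almost orthogonal bumps.
-/

noncomputable section

namespace Vale.Agent.P095.NU

universe u

open Filter Topology BoundedContinuousFunction Vale.Agent.P101
open Vale.Agent.P095.Gamma Vale.Agent.P095.Full Vale.Agent.P095.Relative

section Generic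

variable {S Q R : Type*} [CStarAlgebra S] [CStarAlgebra Q] [CStarAlgebra R]

/-- Star homomorphisms commute with the continuous functional calculus. -/
theorem hom_cfc [PartialOrder S] [StarOrderedRing S] [PartialOrder Q] [StarOrderedRing Q]
    (φ : S →⋆ₐ[ℂ] Q) {f : ℝ → ℝ} (hf : Continuous f) {a : S} (ha : IsSelfAdjoint a) :
    φ (cfc f a) = cfc f (φ a) :=
  StarAlgHom.map_cfc (φ.restrictScalars ℝ) f a hf.continuousOn
    (AddMonoidHomClass.continuous_of_bound φ 1 fun b => by
      simpa only [one_mul] using NonUnitalStarAlgHom.norm_apply_le φ b) ha (ha.map φ)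

omit [CStarAlgebra R] in
/-- A self-adjoint element with positive injective image has a square root. -/
theorem exists_root [PartialOrder S] [StarOrderedRing S] [PartialOrder Q] [StarOrderedRing Q]
    (φ : S →⋆ₐ[ℂ] Q) (hφ : Function.Injective φ) {q : S} (hq : IsSelfAdjoint q) (h : 0 ≤ φ q) :
    ∃ r : S, star r * r = q := by
  refine ⟨cfc (fun t : ℝ => Real.sqrt t) q, hφ ?_⟩
  have hcont : Continuous fun t : ℝ => Real.sqrt t := Real.continuous_sqrt
  rw [(cfc_predicate (fun t : ℝ => Real.sqrt t) q).star_eq, map_mul, hom_cfc φ hcont hq,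
    ← cfc_mul _ _ _ hcont.continuousOn hcont.continuousOn,
    cfc_congr fun t ht => Real.mul_self_sqrt (spectrum_nonneg_of_nonneg h ht)]
  exact cfc_id' ℝ _ (IsSelfAdjoint.of_nonneg h)

/-- The top cut of a positive element of norm above the cut is non-zero. -/
theorem cfc_topCut_ne_zero' [PartialOrder Q] [StarOrderedRing Q] [Nontrivial Q] {x : Q}
    (hx : 0 ≤ x) {δ : ℝ} (hδ : 0 < δ) (hn : 1 - δ < ‖x‖) : cfc (topCut δ) x ≠ 0 := by
  refine cfc_ne_zero_of_apply_ne_zero (IsSelfAdjoint.of_nonneg hx) (by unfold topCut; fun_prop)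
    (CStarAlgebra.norm_mem_spectrum_of_nonneg hx) ?_
  have : 0 < (‖x‖ - (1 - δ)) / δ := div_pos (sub_pos.2 hn) hδ
  exact ne_of_gt (lt_of_lt_of_le this (le_max_left _ _))

variable [PartialOrder S] [StarOrderedRing S] [PartialOrder Q] [StarOrderedRing Q]
  [PartialOrder R] [StarOrderedRing R] {B : Type u} [CStarAlgebra B] [PartialOrder B]
  [StarOrderedRing B]

/-- An element of a simple ideal of norm one and a positive element commuting with the ideal,
large modulo the annihilator of the ideal, have a large product. -/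
theorem le_norm_compress {K : TestIdeal B} (hsimp : IsSimpleRel K) (j : S →⋆ₐ[ℂ] Q)
    (π : S →⋆ₐ[ℂ] R) (ι : B →⋆ₐ[ℂ] Q) (hnull : ∀ s, (∀ k ∈ K.carrier, j s * ι k = 0) → π s = 0)
    (hcomm : ∀ s, ∀ k ∈ K.carrier, Commute (ι k) (j s)) {q : S} (hq : 0 ≤ q) (hqn : ‖q‖ ≤ 1)
    {δ : ℝ} (hδ : 0 < δ) (hδ1 : δ < 1) (hπ : 1 - δ < ‖π q‖) {a : B} (ha : 0 ≤ a)
    (haK : a ∈ K.carrier) (han : ‖ι a‖ = 1) : 1 - 6 * δ ≤ ‖ι a * j q * ι a‖ := by
  have hqsa : IsSelfAdjoint q := IsSelfAdjoint.of_nonneg hq
  have hasa : IsSelfAdjoint a := IsSelfAdjoint.of_nonneg ha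
  have hcont : Continuous (topCut δ) := by unfold topCut; fun_prop
  have : Nontrivial Q := ⟨⟨ι a, 0, fun h => by rw [h, norm_zero] at han; exact zero_ne_one han⟩⟩
  have : Nontrivial R := ⟨⟨π q, 0, fun h => by rw [h, norm_zero] at hπ; linarith⟩⟩
  have hjn : ‖j q‖ ≤ 1 := (NonUnitalStarAlgHom.norm_apply_le j q).trans hqn
  have hg : π (cfc (topCut δ) q) ≠ 0 := by
    rw [hom_cfc π hcont hqsa]
    exact cfc_topCut_ne_zero' (map_nonneg π hq) hδ hπ
  refine le_norm_mul_mul (map_nonneg ι ha) (map_nonneg j hq) han.le hjn (hcomm q a haK) hδ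
    fun h0 => hg (hnull _ fun k hk => ?_)
  -- `b` is the top cut of `a`, and lies in the ideal.
  set b : B := cfc (topCut δ) a with hbdef
  set y : Q := j (cfc (topCut δ) q) with hydef
  rw [← hom_cfc ι hcont hasa, ← hom_cfc j hcont hqsa, ← hbdef, ← hydef] at h0
  have hbK : b ∈ K.carrier := by
    have hd : ∀ t : ℝ, max t (1 - δ) ≠ 0 := fun t =>
      ne_of_gt (lt_max_of_lt_right (by linarith))
    have hh : Continuous fun t : ℝ => max ((t - (1 - δ)) / δ) 0 / max t (1 - δ) :=
      Continuous.div (by fun_prop) (by fun_prop) hd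
    have e : b = a * cfc (fun t : ℝ => max ((t - (1 - δ)) / δ) 0 / max t (1 - δ)) a := by
      rw [hbdef]
      conv_rhs => arg 1; rw [← cfc_id' ℝ a hasa]
      rw [← cfc_mul _ _ a (by fun_prop) hh.continuousOn]
      refine cfc_congr fun t _ => ?_
      show max ((t - (1 - δ)) / δ) 0 = t * (max ((t - (1 - δ)) / δ) 0 / max t (1 - δ))
      rcases le_total t (1 - δ) with h | h
      · rw [max_eq_right (div_nonpos_of_nonpos_of_nonneg (sub_nonpos.2 h) hδ.le), zero_div,
          mul_zero]
      · rw [max_eq_left h, mul_div_cancel₀ _ (by linarith : t ≠ 0)]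
    rw [e]
    exact K.mul_right _ a haK
  have hb0 : b ≠ 0 := by
    intro h
    have := cfc_topCut_ne_zero (map_nonneg ι ha) han hδ
    rw [← hom_cfc ι hcont hasa, ← hbdef, h, map_zero] at this
    exact this rfl
  have h0' : y * ι b = 0 := by rw [← (hcomm _ b hbK).eq]; exact h0
  have hzero : ∀ u ∈ K.carrier, ∀ x ∈ K.carrier, y * ι (u * x) = 0 := by
    intro u hu x hx
    refine norm_le_zero_iff.1 (le_of_forall_pos_lt_add fun ε hε => ?_)
    set C : ℝ := ‖y‖ * ‖u‖ + 1 with hC
    have hC0 : 0 < C := by positivity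
    obtain ⟨n, c, d, hcd⟩ := hsimp b hbK hb0 x hx (ε / C) (by positivity)
    have hterm : ∀ i, y * ι (u * (c i * b * d i)) = 0 := fun i => by
      rw [show u * (c i * b * d i) = u * c i * b * d i by noncomm_ring, map_mul, map_mul,
        ← mul_assoc, ← mul_assoc, ← (hcomm _ (u * c i) (K.mul_right _ _ hu)).eq,
        mul_assoc (ι (u * c i)) y, h0', mul_zero, zero_mul]
    have e : y * ι (u * x) = y * ι (u * (x - ∑ i, c i * b * d i)) := by
      rw [mul_sub, map_sub, mul_sub, Finset.mul_sum, map_sum, Finset.mul_sum,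
        Finset.sum_eq_zero fun i _ => hterm i, sub_zero]
    rw [e, zero_add]
    calc ‖y * ι (u * (x - ∑ i, c i * b * d i))‖
        ≤ ‖y‖ * (‖u‖ * ‖x - ∑ i, c i * b * d i‖) :=
          (norm_mul_le _ _).trans (mul_le_mul_of_nonneg_left
            ((NonUnitalStarAlgHom.norm_apply_le ι _).trans (norm_mul_le _ _)) (norm_nonneg _))
      _ ≤ ‖y‖ * ‖u‖ * (ε / C) := by
          rw [← mul_assoc]
          exact mul_le_mul_of_nonneg_left hcd (by positivity)
      _ < C * (ε / C) := mul_lt_mul_of_pos_right (by linarith) (by positivity)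
      _ = ε := mul_div_cancel₀ _ hC0.ne'
  refine (CStarRing.mul_star_self_eq_zero_iff _).1 ?_
  rw [star_mul, ← map_star, mul_assoc, ← mul_assoc (ι k), ← map_mul, ← mul_assoc,
    hzero k hk (star k) (K.star_mem k hk), zero_mul]

end Generic

variable {B : Type u} [CStarAlgebra B] {K : TestIdeal B} {F : Filter ℕ}

attribute [local instance] CStarAlgebra.spectralOrder CStarAlgebra.spectralOrderedRing

/-- Constant sequences modulo null sequences. -/
def cstHom (F : Filter ℕ) : B →⋆ₐ[ℂ] SeqQuot B F :=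
  (seqMk B F).comp
    { toFun := fun a => BoundedContinuousFunction.const ℕ a
      map_one' := rfl
      map_mul' := fun _ _ => rfl
      map_zero' := rfl
      map_add' := fun _ _ => rfl
      commutes' := fun _ => rfl
      map_star' := fun _ => rfl }

theorem cstHom_apply (a : B) : cstHom F a = cst F a := rfl

theorem norm_seqMk_le_of_evF {f : ℕ →ᵇ B} {c : ℝ} (hc : 0 ≤ c) (hf : ∀ᶠ n in F, ‖f n‖ ≤ c) :
    ‖seqMk B F f‖ ≤ c := by
  classical
  let g : ℕ →ᵇ B := bseq (fun n => if ‖f n‖ ≤ c then f n else 0) c fun n => by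
    by_cases h : ‖f n‖ ≤ c <;> simp [h, hc]
  have e : seqMk B F f = seqMk B F g := by
    refine seqMk_eq_iff.2 (tendsto_const_nhds.congr' ?_)
    filter_upwards [hf] with n hn
    simp [g, hn]
  rw [e]
  refine (norm_seqMk_le g).trans ((BoundedContinuousFunction.norm_le hc).2 fun n => ?_)
  by_cases h : ‖f n‖ ≤ c <;> simp [g, h, hc]

theorem norm_cstHom [F.NeBot] (a : B) : ‖cstHom F a‖ = ‖a‖ := by
  refine le_antisymm (NonUnitalStarAlgHom.norm_apply_le _ a) (le_of_forall_pos_lt_add fun ε hε => ?_)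
  obtain ⟨y, hy, hyn⟩ :=
    Submodule.Quotient.norm_mk_lt (S := nullSeq B F) (cstHom F a) (half_pos hε)
  have hd : seqMk B F y = cst F a := hy
  rw [seqMk_eq_iff] at hd
  obtain ⟨n, hn⟩ := (hd.eventually (gt_mem_nhds (half_pos hε))).exists
  have h1 := y.norm_coe_le_norm n
  have h2 := norm_le_norm_sub_add a (y n)
  change ‖y n - a‖ < ε / 2 at hn
  rw [norm_sub_rev] at hn
  linarith

theorem isRel_mono {F' : Filter ℕ} (h : F' ≤ F) {f : ℕ →ᵇ B} (hf : IsRel K F f) :
    IsRel K F' f :=
  mem_relCent.2 fun k hk => (mem_relCent.1 hf k hk).mono_left h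

theorem cls_eq_mono {F' : Filter ℕ} (h : F' ≤ F) {f g : ℕ →ᵇ B} {hf : IsRel K F f}
    {hg : IsRel K F g} (e : cls f hf = cls g hg) (hf' : IsRel K F' f) (hg' : IsRel K F' g) :
    cls f hf' = cls g hg' :=
  cls_eq_iff.2 fun k hk => (cls_eq_iff.1 e k hk).mono_left h

/-- A contractive class of norm close to one compresses every norm-one positive element of the
ideal to norm close to one. -/
theorem frequently_le_norm_compress [F.NeBot] (hsimp : IsSimpleRel K) {W : ℕ →ᵇ B}
    (hW : IsRel K F W) (hWn : ‖W‖ ≤ 1) {δ : ℝ} (hδ : 0 < δ) (hδ1 : δ < 1)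
    (hc : 1 - δ < ‖cls W hW‖ * ‖cls W hW‖) {a : B} (ha : InPosBall K a) (han : ‖a‖ = 1) :
    ∃ᶠ n in F, 1 - 7 * δ ≤ ‖a * (star (W n) * W n) * a‖ := by
  by_contra hno
  rw [Filter.not_frequently] at hno
  set s : relCent K F := ⟨seqMk B F W, hW⟩ with hs
  have hsn : ‖star s * s‖ ≤ 1 := by
    rw [CStarRing.norm_star_mul_self]
    exact mul_le_one₀ ((norm_seqMk_le W).trans hWn) (norm_nonneg _) ((norm_seqMk_le W).trans hWn)
  have ha0 : 0 ≤ a := by
    obtain ⟨w, rfl⟩ := ha.1.1
    exact star_mul_self_nonneg w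
  have h6 := le_norm_compress hsimp (relCent K F).subtype (relMk K F) (cstHom F)
    (fun x hx => (relMk_eq_zero K F).2 hx) (fun x k hk => commute_cst x.2 hk)
    (star_mul_self_nonneg s) hsn hδ hδ1
    (by rwa [map_mul, map_star, CStarRing.norm_star_mul_self]) ha0 ha.2
    ((norm_cstHom a).trans han)
  have e : cstHom F a * (relCent K F).subtype (star s * s) * cstHom F a =
      seqMk B F (BoundedContinuousFunction.const ℕ a * (star W * W) *
        BoundedContinuousFunction.const ℕ a) := by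
    simp only [map_mul, map_star]
    rfl
  rw [e] at h6
  have hup := norm_seqMk_le_of_evF (F := F) (f := BoundedContinuousFunction.const ℕ a * (star W * W) *
    BoundedContinuousFunction.const ℕ a) (le_max_left 0 (1 - 7 * δ))
    (hno.mono fun n hn => le_max_of_le_right (not_le.1 hn).le)
  rcases le_total (1 - 7 * δ) 0 with h | h
  · obtain ⟨n, hn⟩ := hno.exists
    exact hn (h.trans (norm_nonneg _))
  · rw [max_eq_right h] at hup
    linarith

/-- A class of norm one is close to the class of a contraction. -/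
theorem exists_contraction_cls {c : RelQuot K F} (hc : ‖c‖ = 1) {δ : ℝ} (hδ : 0 < δ) :
    ∃ (t : ℝ) (W : ℕ →ᵇ B) (hW : IsRel K F W), 0 < t ∧ t ≤ 1 ∧ 1 - δ < t * t ∧ ‖W‖ ≤ 1 ∧
      cls W hW = (t : ℂ) • c := by
  set r : ℝ := 1 + δ / 4 with hr
  have hr1 : 1 < r := by linarith
  obtain ⟨f, hf, hfc, hfn⟩ := exists_cls_bound c (r := r) (hc.trans_lt hr1)
  refine ⟨r⁻¹, ((r⁻¹ : ℝ) : ℂ) • f, hf.smul _, inv_pos.2 (by linarith),
    inv_le_one_of_one_le₀ hr1.le, ?_, ?_, by rw [cls_smul hf, hfc]⟩
  · rw [← mul_inv, ← one_div, lt_div_iff₀ (by positivity), hr]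
    nlinarith [mul_pos hδ hδ, mul_pos (mul_pos hδ hδ) hδ]
  · rw [norm_smul, Complex.norm_real, Real.norm_eq_abs, abs_of_pos (inv_pos.2 (by linarith)),
      inv_mul_le_iff₀ (by linarith), mul_one]
    exact hfn.le

/-- In a simple ideal the norm of a relative class is attained over every element. -/
theorem normClassStatement : NormClassStatement.{u} := by
  intro B _ _ K _ hsimp f hf hz hz1 a ha han ε hε
  by_contra hno
  rw [Filter.not_frequently] at hno
  obtain ⟨w, hw⟩ := hz
  have hwn : ‖w‖ = 1 := by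
    rw [hw, CStarRing.norm_star_mul_self] at hz1
    nlinarith [norm_nonneg w]
  set δ : ℝ := min (ε / 16) (1 / 2) with hδdef
  have hδ : 0 < δ := lt_min (by positivity) (by norm_num)
  obtain ⟨t, W, hW, ht0, ht1, ht, hWn, hWc⟩ := exists_contraction_cls hwn hδ
  have hcW : ‖cls W hW‖ = t := by
    rw [hWc, norm_smul, hwn, Complex.norm_real, Real.norm_eq_abs, abs_of_pos ht0, mul_one]
  have h7 := frequently_le_norm_compress hsimp hW hWn hδ ((min_le_right _ _).trans_lt (by norm_num))
    (by rwa [hcW]) ha han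
  have e : cls (star W * W) (hW.star.mul hW) = cls (((t * t : ℝ) : ℂ) • f) (hf.smul _) := by
    rw [cls_mul hW.star hW, cls_star hW, cls_smul hf, hWc, hw, star_smul, smul_mul_smul_comm,
      Complex.star_def, Complex.conj_ofReal, ← Complex.ofReal_mul]
  have hd := cls_eq_iff.1 e a ha.2
  obtain ⟨n, hn1, hn2, hn3⟩ :=
    (h7.and_eventually (hno.and (hd.eventually (gt_mem_nhds (half_pos hε))))).exists
  simp only [BoundedContinuousFunction.coe_mul,
    BoundedContinuousFunction.coe_smul, BoundedContinuousFunction.star_apply, Pi.mul_apply] at hn3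
  set T : ℂ := ((t * t : ℝ) : ℂ)
  have e2 : a * (star (W n) * W n) * a =
      a * ((star (W n) * W n - T • f n) * a) + T • (a * f n * a) := by
    rw [sub_mul, mul_sub, smul_mul_assoc, mul_smul_comm, ← mul_assoc a (star (W n) * W n) a,
      ← mul_assoc a (f n) a]
    abel
  rw [e2] at hn1
  have h1 : ‖a * ((star (W n) * W n - T • f n) * a)‖ ≤ ε / 2 :=
    (norm_mul_le _ _).trans ((mul_le_of_le_one_left (norm_nonneg _) han.le).trans hn3.le)
  have h2 : ‖T • (a * f n * a)‖ ≤ ‖a * f n * a‖ := by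
    rw [norm_smul, Complex.norm_real, Real.norm_eq_abs, abs_of_pos (mul_pos ht0 ht0)]
    exact mul_le_of_le_one_left (norm_nonneg _) (mul_le_one₀ ht1 ht0.le ht1)
  have h3 := norm_add_le (a * ((star (W n) * W n - T • f n) * a)) (T • (a * f n * a))
  have h4 : δ ≤ ε / 16 := min_le_left _ _
  have h5 := not_le.1 hn2
  linarith

/-- Bumps over one element of norm one are bumps over any other. -/
theorem normProdStatement : NormProdStatement.{u} := by
  intro B _ _ K hK hsimp u hu hun a ha han ε hε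
  by_contra hno
  push Not at hno
  classical
  have : Nonempty K.carrier := ⟨⟨u, hu.2⟩⟩
  obtain ⟨b, hb⟩ := TopologicalSpace.exists_dense_seq K.carrier
  let d : ℕ → B := fun p => (b p : B)
  have hden : ∀ k ∈ K.carrier, k ∈ closure (Set.range d) := fun k hk => by
    have := hb.closure_eq ▸ Set.mem_univ (⟨k, hk⟩ : K.carrier)
    exact map_mem_closure (f := fun x : K.carrier => (x : B)) continuous_subtype_val this
      (by rintro _ ⟨p, rfl⟩; exact ⟨p, rfl⟩)
  let X : ℕ → Finset B := fun n => (Finset.range (n + 1)).image d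
  have hXK : ∀ n, ∀ x ∈ X n, x ∈ K.carrier := fun n x hx => by
    obtain ⟨p, -, rfl⟩ := Finset.mem_image.1 hx
    exact (b p).2
  choose P hP hPn using fun n => hno (X n) (1 / ((n : ℝ) + 1)) (hXK n) (by positivity)
  choose W hW using fun n => (hP n).1.1
  let p : ℕ →ᵇ B := bseq P 1 fun n => (hP n).1.2
  have hη := tendsto_one_div_add_atTop_nhds_zero_nat (𝕜 := ℝ)
  have hp : IsRel K atTop p := mem_relCent.2 fun k hk =>
    tendsto_dense (fun n x => x * P n - P n * x) 2
      (fun n x y => by simpa using lip_comm (P n) (hP n).1.2 x y)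
      (fun q => squeeze_zero' (Eventually.of_forall fun _ => norm_nonneg _)
        ((eventually_ge_atTop q).mono fun n hn =>
          (hP n).2.2 _ (Finset.mem_image.2 ⟨q, Finset.mem_range.2 (by omega), rfl⟩)) hη)
      (hden k hk)
  have hWn : ∀ n, ‖W n‖ ≤ 1 := fun n => by
    have h := (hP n).1.2
    rw [hW n, CStarRing.norm_star_mul_self] at h
    nlinarith [norm_nonneg (W n)]
  set s : RelQuot K atTop := cls p hp with hs
  -- the witness of positivity is only a class in `relCent`, hence the square root in the quotient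
  have hpos : IsPos s := by
    have h' : (0 : SeqQuot B atTop) ≤ seqMk B atTop p := by
      rw [show p = star (bseq W 1 hWn) * bseq W 1 hWn from DFunLike.ext _ _ hW, map_mul, map_star]
      exact star_mul_self_nonneg _
    set q : relCent K atTop := ⟨seqMk B atTop p, hp⟩ with hqdef
    have hqsa : IsSelfAdjoint q := Subtype.ext (IsSelfAdjoint.of_nonneg h').star_eq
    obtain ⟨r, hr⟩ := exists_root (relCent K atTop).subtype Subtype.val_injective hqsa h'
    refine ⟨relMk K atTop r, ?_⟩
    rw [← map_star, ← map_mul, hr]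
    rfl
  have hle : ‖s‖ ≤ 1 := (Submodule.Quotient.norm_mk_le _ _).trans
    ((norm_seqMk_le p).trans ((BoundedContinuousFunction.norm_le zero_le_one).2 fun n => (hP n).1.2))
  have hs1 : ‖s‖ = 1 := by
    refine le_antisymm hle (le_of_not_gt fun hlt => ?_)
    obtain ⟨f, hf, hfc, hfn⟩ := exists_cls_bound s (r := (‖s‖ + 1) / 2) (by linarith)
    have hd := cls_eq_iff.1 hfc u hu.2
    obtain ⟨n, h1, h2⟩ := ((hd.eventually (gt_mem_nhds (show (0 : ℝ) < (1 - ‖s‖) / 8 by linarith))).and
      (hη.eventually (gt_mem_nhds (show (0 : ℝ) < (1 - ‖s‖) / 8 by linarith)))).exists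
    have h3 : 1 - 1 / ((n : ℝ) + 1) ≤ ‖u * P n * u‖ := (hP n).2.1
    have e : u * P n * u = u * f n * u - u * ((f n - P n) * u) := by noncomm_ring
    have h4 : ‖u * f n * u‖ ≤ (‖s‖ + 1) / 2 := (norm_mul_le _ _).trans
      ((mul_le_of_le_one_right (norm_nonneg _) hun.le).trans ((norm_mul_le _ _).trans
        ((mul_le_of_le_one_left (norm_nonneg _) hun.le).trans ((f.norm_coe_le_norm n).trans hfn.le))))
    have h5 : ‖u * ((f n - P n) * u)‖ ≤ (1 - ‖s‖) / 8 :=
      (norm_mul_le _ _).trans ((mul_le_of_le_one_left (norm_nonneg _) hun.le).trans h1.le)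
    rw [e] at h3
    have := norm_sub_le (u * f n * u) (u * ((f n - P n) * u))
    linarith
  obtain ⟨n, hn⟩ := (normClassStatement B K hK hsimp p hp hpos hs1 a ha han ε hε).exists
  exact not_le.2 (hPn n) hn

/-- A relative dimension drop gives almost orthogonal bumps. -/
theorem orthBumpStatement : OrthBumpStatement.{u} := by
  intro B _ _ K _ hsimp hdd u hu hun n X hX θ hθ
  classical
  have he : IsEmpty (RelQuot K atTop →⋆ₐ[ℂ] ℂ) := ⟨fun χ => by
    obtain ⟨y, v, h1, h2, h3⟩ := hdd
    have hy : χ y = 0 := mul_self_eq_zero.1 (by rw [← map_mul, h1, map_zero])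
    have hv : χ v = 0 := by
      rw [← h3, map_mul, map_mul, hy, zero_mul, zero_mul]
    have h := congrArg χ h2
    simp [hy, hv] at h⟩
  obtain ⟨N, δ, x, hδ, hx⟩ := exists_sqZeroFamily he
  obtain ⟨m, k, hmk⟩ := orthN_of_orth orthStatement.{u} N n (δ / 4) (by positivity)
  let α : RelAction Unit K :=
    { hom := fun _ => StarAlgHom.id ℂ B
      hom_one := fun _ => rfl
      hom_mul := fun _ _ _ => rfl
      mem := fun _ _ h => h }
  obtain ⟨S, -, hSf, hSc⟩ := exists_slots α ⊤ (fun _ : Unit => (1 : Unit)) hx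
    (fun j => α.mem_fixed.2 fun g _ => by rw [Subsingleton.elim g 1, α.act_one]) m
  obtain ⟨w, hw0, hwo, hwf⟩ := hmk (RelQuot K atTop) S
    ⟨hSf, fun s t hst i j => by simpa [α.act_one] using hSc s t hst () () i j⟩
  choose c hc using fun l => CStarAlgebra.nonneg_iff_eq_star_mul_self.1 (hw0 l)
  choose C hCr hC using fun l => exists_cls (c l)
  choose e he' using hwf
  choose E hEr hE using fun l i => exists_cls (e l i)
  -- everything is read along an ultrafilter, where norms of classes are limits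
  set ω := hyperfilter ℕ
  have hω : (ω : Filter ℕ) ≤ atTop := Nat.hyperfilter_le_atTop
  have hCω : ∀ l, IsRel K (ω : Filter ℕ) (C l) := fun l => isRel_mono hω (hCr l)
  have hEω : ∀ l i, IsRel K (ω : Filter ℕ) (E l i) := fun l i => isRel_mono hω (hEr l i)
  let cω : Fin n → RelQuot K (ω : Filter ℕ) := fun l => cls (C l) (hCω l)
  have hone : ∀ l, ∑ i, star (cls (E l i) (hEω l i)) * (star (cω l) * cω l) * cls (E l i) (hEω l i)
      = 1 := by
    intro l
    let T : Fin k → ℕ →ᵇ B := fun i => star (E l i) * (star (C l) * C l) * E l i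
    have hT : ∀ i, IsRel K atTop (T i) := fun i =>
      ((hEr l i).star.mul ((hCr l).star.mul (hCr l))).mul (hEr l i)
    have hT' : ∀ i, IsRel K (ω : Filter ℕ) (T i) := fun i =>
      ((hEω l i).star.mul ((hCω l).star.mul (hCω l))).mul (hEω l i)
    have h1 : cls (∑ i, T i) (IsRel.sum _ fun i _ => hT i) = cls 1 IsRel.one := by
      rw [cls_sum hT, cls_one]
      simp only [T, cls_mul ((hEr _ _).star.mul ((hCr _).star.mul (hCr _))) (hEr _ _),
        cls_mul (hEr _ _).star ((hCr _).star.mul (hCr _)), cls_mul (hCr _).star (hCr _),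
        cls_star (hEr _ _), cls_star (hCr _), hE, hC, ← hc]
      exact he' l
    have h2 := cls_eq_mono hω h1 (IsRel.sum _ fun i _ => hT' i) IsRel.one
    rw [cls_sum hT', cls_one] at h2
    simpa only [T, cls_mul ((hEω _ _).star.mul ((hCω _).star.mul (hCω _))) (hEω _ _),
      cls_mul (hEω _ _).star ((hCω _).star.mul (hCω _)), cls_mul (hCω _).star (hCω _),
      cls_star (hEω _ _), cls_star (hCω _)] using h2
  have horth : ∀ l l', l ≠ l' → star (cω l) * cω l * (star (cω l') * cω l') = 0 := by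
    intro l l' h
    have h1 : cls ((star (C l) * C l) * (star (C l') * C l'))
        (((hCr l).star.mul (hCr l)).mul ((hCr l').star.mul (hCr l'))) = 0 := by
      rw [cls_mul ((hCr l).star.mul (hCr l)) ((hCr l').star.mul (hCr l')),
        cls_mul (hCr l).star (hCr l), cls_mul (hCr l').star (hCr l'), cls_star (hCr l),
        cls_star (hCr l'), hC, hC, ← hc, ← hc]
      exact hwo l l' h
    have h2 : cls ((star (C l) * C l) * (star (C l') * C l'))
        (((hCω l).star.mul (hCω l)).mul ((hCω l').star.mul (hCω l'))) = 0 :=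
      cls_eq_zero_iff.2 fun x hx => (cls_eq_zero_iff.1 h1 x hx).mono_left hω
    rwa [cls_mul ((hCω l).star.mul (hCω l)) ((hCω l').star.mul (hCω l')),
      cls_mul (hCω l).star (hCω l), cls_mul (hCω l').star (hCω l'), cls_star (hCω l),
      cls_star (hCω l')] at h2
  have hne : ∀ l, cω l ≠ 0 := by
    intro l h
    have h1 := hone l
    simp only [h, star_zero, mul_zero, zero_mul, Finset.sum_const_zero] at h1
    rw [← cls_one, eq_comm, cls_eq_zero_iff] at h1
    have := tendsto_nhds_unique (h1 u hu.2)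
      ((tendsto_const_nhds (x := (1 : ℝ))).congr fun j => by simp [hun])
    norm_num at this
  let δ' : ℝ := min (θ / 8) (1 / 2)
  have hδ' : 0 < δ' := lt_min (by positivity) (by norm_num)
  have hroot : ∀ l, ‖((‖cω l‖⁻¹ : ℝ) : ℂ) • cω l‖ = 1 := fun l => by
    rw [norm_smul, Complex.norm_real, Real.norm_eq_abs,
      abs_of_pos (inv_pos.2 (norm_pos_iff.2 (hne l))), inv_mul_cancel₀ (norm_ne_zero_iff.2 (hne l))]
  choose t W hW ht0 ht1 ht hWn hWc using fun l => exists_contraction_cls (hroot l) hδ'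
  let P : Fin n → ℕ →ᵇ B := fun l => star (W l) * W l
  have hPr : ∀ l, IsRel K (ω : Filter ℕ) (P l) := fun l => (hW l).star.mul (hW l)
  have hPP : ∀ l l', l ≠ l' → cls (P l * P l') ((hPr l).mul (hPr l')) = 0 := fun l l' h => by
    rw [cls_mul (hPr l) (hPr l'), cls_mul (hW l).star (hW l), cls_mul (hW l').star (hW l'),
      cls_star (hW l), cls_star (hW l'), hWc, hWc]
    simp only [star_smul, smul_mul_smul_comm, horth l l' h, smul_zero]
  have E1 : ∀ᶠ j in (ω : Filter ℕ), ∀ l, 1 - θ ≤ ‖u * P l j * u‖ := eventually_all.2 fun l => by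
    have hcn : 1 - δ' < ‖cls (W l) (hW l)‖ * ‖cls (W l) (hW l)‖ := by
      rw [hWc, norm_smul, hroot, Complex.norm_real, Real.norm_eq_abs, abs_of_pos (ht0 l), mul_one]
      exact ht l
    refine (Ultrafilter.frequently_iff_eventually.1 (frequently_le_norm_compress hsimp (hW l) (hWn l)
      hδ' ((min_le_right _ _).trans_lt (by norm_num)) hcn hu hun)).mono fun j hj => le_trans ?_ hj
    have : δ' ≤ θ / 8 := min_le_left _ _
    linarith
  have E2 : ∀ᶠ j in (ω : Filter ℕ), ∀ l, ∀ x ∈ X, ‖x * P l j - P l j * x‖ ≤ θ :=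
    eventually_all.2 fun l => X.eventually_all.2 fun x hx =>
      (mem_relCent.1 (hPr l) x (hX x hx)).eventually (ge_mem_nhds hθ)
  have E3 : ∀ᶠ j in (ω : Filter ℕ), ∀ l l', l ≠ l' → ∀ x ∈ X, ‖x * (P l j * P l' j)‖ ≤ θ :=
    eventually_all.2 fun l => eventually_all.2 fun l' => by
      by_cases h : l = l'
      · exact Eventually.of_forall fun j hne => absurd h hne
      suffices hs : ∀ x ∈ X, ∀ᶠ j in (ω : Filter ℕ), ‖x * (P l j * P l' j)‖ ≤ θ by
        filter_upwards [X.eventually_all.2 hs] with j hj _ using hj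
      intro x hx
      have h1 := mem_relCent.1 ((hPr l).mul (hPr l')) x (hX x hx)
      have h2 := cls_eq_zero_iff.1 (hPP l l' h) x (hX x hx)
      filter_upwards [h1.eventually (ge_mem_nhds (half_pos hθ)),
        h2.eventually (ge_mem_nhds (half_pos hθ))] with j hj1 hj2
      have := norm_le_norm_sub_add (x * (P l * P l') j) ((P l * P l') j * x)
      exact this.trans (by linarith)
  obtain ⟨j, h1, h2, h3⟩ := (E1.and (E2.and E3)).exists
  refine ⟨fun l => P l j, fun l => ⟨⟨⟨W l j, rfl⟩, ?_⟩, h1 l, h2 l⟩, h3⟩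
  show ‖star (W l j) * W l j‖ ≤ 1
  rw [CStarRing.norm_star_mul_self]
  exact mul_le_one₀ (((W l).norm_coe_le_norm j).trans (hWn l)) (norm_nonneg _)
    (((W l).norm_coe_le_norm j).trans (hWn l))

end Vale.Agent.P095.NU
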