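import Vale.Agent.P095.NU.CombineTools
import Vale.Agent.P095.Full.Combine

/-!
# P095, all amenable groups, non-unital: averages over cosets, tested on elements
-/

noncomputable section

namespace Vale.Agent.P095.NU

universe u v

open Vale.Agent.P095.Full Vale.Agent.P095.Relative

variable {B : Type u} [CStarAlgebra B] {K : TestIdeal B} {G : Type v} [Group G]
  (α : RelAction G K) (N : Subgroup G)

/-- Averaged products over a test element. -/
theorem relOrbit_products (S : Finset (G ⧸ N)) (w : G ⧸ N → ℝ) (y z E x : B) {σ δ δ' C : ℝ}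
    (hw : ∀ q, 0 ≤ w q ∧ w q ≤ 1) (hw2 : ∑ q ∈ S, w q ^ 2 = 1) (hσ : 0 ≤ σ) (hC : ‖x‖ ≤ C)
    (hone : ∀ q ∈ S, ‖(star y * z - E) * α.hom q.out⁻¹ x‖ ≤ δ)
    (hE : ∀ q ∈ S, ‖(α.hom q.out E - E) * x‖ ≤ δ')
    (hoff : ∀ p ∈ S, ∀ q ∈ S, p ≠ q → ‖star y * α.hom (p.out⁻¹ * q.out) z‖ ≤ σ) :
    ‖(star (∑ q ∈ S, w q • relOrbit α N y q) * (∑ q ∈ S, w q • relOrbit α N z q) - E) * x‖ ≤
      δ + δ' + (S.card : ℝ) ^ 2 * (σ * C) := by
  rw [sub_mul, mul_assoc, Finset.sum_mul]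
  simp only [smul_mul_assoc]
  refine norm_avg_mul_avg_sub_le S w _ _ (E * x) hw hw2
    (mul_nonneg hσ ((norm_nonneg x).trans hC)) (fun p hp => ?_) fun p hp q hq hpq => ?_
  · have e : star (relOrbit α N y p) * (relOrbit α N z p * x) - E * x =
        α.hom p.out (star y * z - E) * x + (α.hom p.out E - E) * x := by
      rw [← mul_assoc, star_relOrbit_mul, inv_mul_cancel, α.hom_one, map_sub, sub_mul, sub_mul]
      abel
    rw [e]
    refine (norm_add_le _ _).trans (add_le_add ?_ (hE p hp))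
    rw [norm_hom_mul]
    exact hone p hp
  · rw [← mul_assoc, star_relOrbit_mul]
    refine (norm_mul_le _ _).trans (mul_le_mul ?_ hC (norm_nonneg _) hσ)
    rw [norm_hom]
    exact hoff p hp q hq hpq

/-- Averaged commutators. -/
theorem relOrbit_commutator (S : Finset (G ⧸ N)) (w : G ⧸ N → ℝ) (x y : B) {δ : ℝ}
    (hw : ∀ q, 0 ≤ w q ∧ w q ≤ 1)
    (hc : ∀ q ∈ S, ‖α.hom q.out⁻¹ y * x - x * α.hom q.out⁻¹ y‖ ≤ δ) :
    ‖y * (∑ q ∈ S, w q • relOrbit α N x q) - (∑ q ∈ S, w q • relOrbit α N x q) * y‖ ≤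
      S.card * δ := by
  rw [Finset.mul_sum, Finset.sum_mul, ← Finset.sum_sub_distrib]
  simp only [mul_smul_comm, smul_mul_assoc, ← smul_sub]
  refine norm_sum_weight_le S w _ hw fun q hq => ?_
  have e : y * relOrbit α N x q - relOrbit α N x q * y =
      α.hom q.out (α.hom q.out⁻¹ y * x - x * α.hom q.out⁻¹ y) := by
    rw [map_sub, map_mul, map_mul, α.hom_inv]
    rfl
  rw [e, norm_hom]
  exact hc q hq

/-- Averaged almost invariance over a test element. -/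
theorem relOrbit_invariant_of_or [DecidableEq (G ⧸ N)] (S : Finset (G ⧸ N)) (w : G ⧸ N → ℝ) (g : G)
    (s x : B) {D σ δ d C : ℝ} (hw : ∀ q, 0 ≤ w q ∧ w q ≤ 1) (hσ : 0 ≤ σ) (hC : ‖x‖ ≤ C)
    (hD : 0 ≤ D) (hs : ‖s‖ ^ 2 ≤ D)
    (hsupp : ∀ q, q ∉ S → w q = 0) (hmove : ∀ q, w q ≠ 0 → g • q ∈ S)
    (hδ : 0 ≤ δ) (hn : ∀ q ∈ S, ‖(α.hom ((g • q).out⁻¹ * (g * q.out)) s - s) *
      α.hom (g • q).out⁻¹ x‖ ≤ δ ∨ w q = 0)
    (hoff : ∀ p ∈ S, ∀ q ∈ S, p ≠ q → ‖star s * α.hom (p.out⁻¹ * q.out) s‖ ≤ σ)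
    (hd : ∑ q ∈ S, (w (g⁻¹ • q) - w q) ^ 2 ≤ d) :
    ‖(α.hom g (∑ q ∈ S, w q • relOrbit α N s q) - ∑ q ∈ S, w q • relOrbit α N s q) * x‖ ≤
      S.card * δ + Real.sqrt (D * d + (S.card : ℝ) ^ 2 * σ) * C := by
  set u := relOrbit α N s
  have e2 : ∑ q ∈ S, w q • u (g • q) = ∑ q ∈ S, w (g⁻¹ • q) • u q := by
    calc ∑ q ∈ S, w q • u (g • q) = ∑ q ∈ S.image (g • ·), w (g⁻¹ • q) • u q := by
          rw [Finset.sum_image (MulAction.injective g).injOn]
          simp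
      _ = ∑ q ∈ S.image (g • ·) ∪ S, w (g⁻¹ • q) • u q := by
          refine Finset.sum_subset Finset.subset_union_left fun q _ hq => ?_
          rw [hsupp _ fun h => hq (Finset.mem_image.2 ⟨g⁻¹ • q, h, smul_inv_smul g q⟩), zero_smul]
      _ = _ := by
          refine (Finset.sum_subset Finset.subset_union_right fun q hq hq' => ?_).symm
          obtain ⟨p, hp, rfl⟩ := Finset.mem_image.1 ((Finset.mem_union.1 hq).resolve_right hq')
          rw [inv_smul_smul]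
          by_cases h : w p = 0
          · rw [h, zero_smul]
          · exact absurd (hmove p h) hq'
  have e1 : α.hom g (∑ q ∈ S, w q • u q) - ∑ q ∈ S, w q • u q =
      ∑ q ∈ S, w q • α.hom (g • q).out (α.hom ((g • q).out⁻¹ * (g * q.out)) s - s) +
        ∑ q ∈ S, (w (g⁻¹ • q) - w q) • u q := by
    simp only [map_sum, hom_real_smul, map_sub, smul_sub, sub_smul, Finset.sum_sub_distrib, ← e2]
    simp only [u, relOrbit, ← α.hom_mul, mul_inv_cancel_left]
    abel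
  rw [e1, add_mul, Finset.sum_mul]
  simp only [smul_mul_assoc]
  refine (norm_add_le _ _).trans (add_le_add ?_ ?_)
  · refine (norm_sum_le _ _).trans ((Finset.sum_le_sum fun q hq => ?_).trans_eq
      (show ∑ _q ∈ S, δ = _ by simp))
    rcases hn q hq with h | h
    · rw [norm_smul, Real.norm_of_nonneg (hw q).1, norm_hom_mul]
      exact ((mul_le_mul (hw q).2 h (norm_nonneg _) zero_le_one).trans_eq (one_mul δ))
    · rw [h, zero_smul, norm_zero]; exact hδ
  · refine (norm_mul_le _ _).trans (mul_le_mul ?_ hC (norm_nonneg _) (Real.sqrt_nonneg _))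
    refine Real.le_sqrt_of_sq_le ((relOrbit_norm_sq_le α N S _ s (fun q _ => ?_) hσ hs hoff).trans
      (by gcongr))
    rw [abs_le]
    exact ⟨by linarith [(hw (g⁻¹ • q)).1, (hw q).2], by linarith [(hw (g⁻¹ • q)).2, (hw q).1]⟩

end Vale.Agent.P095.NU
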