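import Vale.Agent.P095.NU.CombineLocalStatement
import Vale.Agent.P095.NU.CombineAverage

/-!
# P095, all amenable groups, non-unital: equivariant property (SI) relative to the ideal

The local elements are averaged with Følner weights over the cosets of the trivially acting
subgroup; all relations are tested on finitely many elements of the ideal.
-/

noncomputable section

namespace Vale.Agent.P095.NU

universe u v

open Filter Topology
open Vale.Agent.P095.Gamma Vale.Agent.P095.Full Vale.Agent.P095.Relative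

variable {B : Type u} [CStarAlgebra B]

/-- Finitely many tests inside a star-closed finite subset of the ideal, with a bound. -/
theorem exists_tests (K : TestIdeal B) (Y₀ : Finset B) (hY₀ : ∀ x ∈ Y₀, x ∈ K.carrier) :
    ∃ (Y : Finset B) (W : ℝ), Y₀ ⊆ Y ∧ 1 ≤ W ∧ (∀ x ∈ Y, star x ∈ Y) ∧
      (∀ x ∈ Y, x ∈ K.carrier) ∧ ∀ x ∈ Y, ‖x‖ + 1 ≤ W := by
  classical
  obtain ⟨Y, W, h1, -, h3, h4⟩ := exists_star_closed Y₀
  refine ⟨(Y₀ ∪ Y₀.image star), max W 1, Finset.subset_union_left, le_max_right _ _,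
    fun x hx => ?_, fun x hx => ?_, fun x hx => ?_⟩
  · rcases Finset.mem_union.1 hx with hx | hx
    · exact Finset.mem_union_right _ (Finset.mem_image_of_mem _ hx)
    · obtain ⟨y, hy, rfl⟩ := Finset.mem_image.1 hx
      rw [star_star]
      exact Finset.mem_union_left _ hy
  · rcases Finset.mem_union.1 hx with hx | hx
    · exact hY₀ x hx
    · obtain ⟨y, hy, rfl⟩ := Finset.mem_image.1 hx
      exact K.star_mem y (hY₀ y hy)
  · refine le_trans ?_ (le_max_left _ _)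
    rcases Finset.mem_union.1 hx with hx | hx
    · linarith [h4 x (h1 hx)]
    · obtain ⟨y, hy, rfl⟩ := Finset.mem_image.1 hx
      linarith [h4 _ (h3 y (h1 hy))]

/-- An element of the unit sequence fixing finitely many tests, with `v y v ≈ y`. -/
theorem exists_unit_fixing {K : TestIdeal B} {u : ℕ → B} (hu : IsUnitSeq K u) (Y : Finset B)
    (hY : ∀ y ∈ Y, y ∈ K.carrier) {γ : ℝ} (hγ : 0 < γ) :
    ∃ v : B, InPosBall K v ∧ ∀ y ∈ Y, ‖v * y * v - y‖ ≤ γ ∧ ‖v * v * y - y‖ ≤ γ := by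
  classical
  have h : ∀ᶠ m in atTop, ∀ y ∈ Y, ‖u m * y - y‖ ≤ γ / 2 ∧ ‖u m * star y - star y‖ ≤ γ / 2 :=
    Y.eventually_all.2 fun y hy =>
      ((hu.tendsto y (hY y hy)).eventually (Iic_mem_nhds (half_pos hγ))).and
        ((hu.tendsto _ (K.star_mem y (hY y hy))).eventually (Iic_mem_nhds (half_pos hγ)))
  obtain ⟨m, hm⟩ := h.exists
  have hn := (hu.mem m).1.2
  refine ⟨u m, hu.mem m, fun y hy => ?_⟩
  obtain ⟨h1, h2⟩ := hm y hy
  have h3 : ‖y * u m - y‖ ≤ γ / 2 := by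
    rw [← norm_star, star_sub, star_mul, (hu.mem m).1.1.isSelfAdjoint.star_eq]
    exact h2
  constructor
  · have e : u m * y * u m - y = u m * (y * u m - y) + (u m * y - y) := by noncomm_ring
    rw [e]
    refine (norm_add_le _ _).trans ?_
    have := (norm_mul_le (u m) (y * u m - y)).trans
      (mul_le_mul hn h3 (norm_nonneg _) zero_le_one)
    linarith
  · have e : u m * u m * y - y = u m * (u m * y - y) + (u m * y - y) := by noncomm_ring
    rw [e]
    refine (norm_add_le _ _).trans ?_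
    have := (norm_mul_le (u m) (u m * y - y)).trans
      (mul_le_mul hn h1 (norm_nonneg _) zero_le_one)
    linarith

/-- Compressions which are multiples of `v y v` give almost commutation and almost relations. -/
theorem compressions_close (s E v : B) (hE : ‖E‖ ≤ 1) (Y : Finset B) {σ γ W : ℝ}
    (hσ : 0 ≤ σ) (hγ : 0 ≤ γ) (hW1 : 1 ≤ W) (hYs : ∀ x ∈ Y, star x ∈ Y)
    (hW : ∀ x ∈ Y, ‖x‖ + 1 ≤ W) (hone : ‖star s * s - E * (v * v)‖ ≤ σ)
    (hv : ∀ y ∈ Y, ‖v * v * y - y‖ ≤ γ)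
    (hv' : ∀ y ∈ Y, ‖v * (star y * y) * v - star y * y‖ ≤ γ ∧ ‖v * y * v - y‖ ≤ γ)
    (h : ∀ y ∈ Y, ‖star s * (star y * y) * s - E * (v * (star y * y) * v)‖ ≤ σ ∧
      ‖star s * y * s - E * (v * y * v)‖ ≤ σ) :
    (∀ x ∈ Y, ‖(star s * s - E) * x‖ ≤ σ * W + γ) ∧
      ∀ x ∈ Y, ‖x * s - s * x‖ ≤ Real.sqrt ((σ * W + γ) * (4 * W)) := by
  have hEmul : ∀ z w : B, ‖z - w‖ ≤ γ → ‖E * z - E * w‖ ≤ γ := fun z w hzw => by
    rw [← mul_sub]
    refine (norm_mul_le _ _).trans ?_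
    calc ‖E‖ * ‖z - w‖ ≤ 1 * γ := mul_le_mul hE hzw (norm_nonneg _) zero_le_one
      _ = γ := one_mul γ
  have hσW : σ ≤ σ * W := le_mul_of_one_le_right hσ hW1
  have key : ∀ z, ‖star s * z * s - E * (v * z * v)‖ ≤ σ → ‖v * z * v - z‖ ≤ γ →
      ‖star s * z * s - E * z‖ ≤ σ * W + γ := fun z h1 h2 =>
    (norm_sub_le_norm_sub_add_norm_sub _ (E * (v * z * v)) _).trans
      (add_le_add (h1.trans hσW) (hEmul _ _ h2))
  have hfirst : ∀ x ∈ Y, ‖(star s * s - E) * x‖ ≤ σ * W + γ := fun x hx => by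
    have e : (star s * s - E) * x =
        (star s * s - E * (v * v)) * x + (E * (v * v * x) - E * x) := by noncomm_ring
    rw [e]
    refine (norm_add_le _ _).trans (add_le_add ((norm_mul_le _ _).trans ?_) (hEmul _ _ (hv x hx)))
    exact mul_le_mul hone (by linarith [hW x hx]) (norm_nonneg _) hσ
  refine ⟨hfirst, fun x hx => Real.le_sqrt_of_sq_le ?_⟩
  refine (norm_commutator_rel_le s E x (key _ (h x hx).1 (hv' x hx).1)
    (key _ (h _ (hYs x hx)).2 (hv' _ (hYs x hx)).2) (key _ (h x hx).2 (hv' x hx).2)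
    (hfirst x hx)).trans ?_
  refine mul_le_mul_of_nonneg_left ?_ (by positivity)
  linarith [hW x hx]

/-- Half a local element is a contraction, which bounds its displacement by trivial elements. -/
theorem displacement_rel_le {K : TestIdeal B} {G : Type v} [Group G] (α : RelAction G K) (n : G)
    (s k : B) (X : Finset B) {θ b δ : ℝ} (hs : ‖s‖ ≤ 2) (hX : ∀ x ∈ X, ‖x * s - s * x‖ ≤ b)
    (hb : b ≤ θ)
    (h : ∀ z : B, ‖z‖ ≤ 1 → (∀ x ∈ X, ‖x * z - z * x‖ ≤ θ) → ‖(α.hom n z - z) * k‖ ≤ δ) :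
    ‖(α.hom n s - s) * k‖ ≤ 2 * δ := by
  have h1 := h ((2 : ℝ)⁻¹ • s) (by
    rw [norm_smul, Real.norm_of_nonneg (by norm_num)]; linarith) fun x hx => by
    rw [mul_smul_comm, smul_mul_assoc, ← smul_sub, norm_smul, Real.norm_of_nonneg (by norm_num)]
    linarith [hX x hx, norm_nonneg (x * s - s * x)]
  rw [hom_real_smul, ← smul_sub, smul_mul_assoc, norm_smul, Real.norm_of_nonneg (by norm_num)] at h1
  linarith

/-- A translate of `(e - η)₊` is close to it over a test element. -/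
theorem exists_invariant_cut (η : ℝ) {C ε : ℝ} (hC : 0 ≤ C) (hε : 0 < ε) :
    ∃ δ : ℝ, 0 < δ ∧ ∀ (K : TestIdeal B) (G : Type v) [Group G] (α : RelAction G K) (g : G)
      (e x : B), IsPosContraction e → ‖x‖ ≤ C → ‖x * e - e * x‖ ≤ δ →
        ‖(α.hom g e - e) * x‖ ≤ δ →
        ‖(α.hom g (cfc (posCut η) e) - cfc (posCut η) e) * x‖ ≤ ε := by
  obtain ⟨δ, hδ, k⟩ := exists_cfc_near (A := B) (continuous_posCut η) 1 (C := C)
    (ε := ε / 2) hC (half_pos hε)
  refine ⟨δ / 2, half_pos hδ, fun K G _ α g e x he hx h1 h2 => ?_⟩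
  have hes := he.1.isSelfAdjoint
  have hge : ‖α.hom g e‖ ≤ 1 := (norm_hom α g e).trans_le he.2
  have a1 := k e e x hes hes he.2 he.2 hx (h1.trans (by linarith))
  have a2 := k e (α.hom g e) x hes (hes.map _) he.2 hge hx (by
    rw [show x * e - α.hom g e * x = (x * e - e * x) - (α.hom g e - e) * x by noncomm_ring]
    exact (norm_sub_le _ _).trans (by linarith))
  rw [relAct_cfc α g (continuous_posCut η) hes]
  calc ‖(cfc (posCut η) (α.hom g e) - cfc (posCut η) e) * x‖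
      = ‖(x * cfc (posCut η) e - cfc (posCut η) e * x) -
          (x * cfc (posCut η) e - cfc (posCut η) (α.hom g e) * x)‖ := by
        congr 1; noncomm_ring
    _ ≤ ε := (norm_sub_le _ _).trans (by linarith)

/-- **Equivariant property (SI)** relative to the ideal, from the local elements. -/
theorem siStatement_of_local (hloc : LocalStatement.{u, v}) : SIStatement.{u, v} := by
  intro B _ _ K hK hS hN hdd G _ _ hFol α u hu T X hX η hη ε₀ hε₀
  classical
  obtain ⟨ε, hε0, hε1, hεle⟩ : ∃ ε : ℝ, 0 < ε ∧ ε ≤ 1 ∧ ε ≤ ε₀ :=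
    ⟨min ε₀ 1, lt_min hε₀ one_pos, min_le_right _ _, min_le_left _ _⟩
  obtain ⟨C, hC1, hC⟩ : ∃ C : ℝ, 1 ≤ C ∧ ∀ x ∈ X, ‖x‖ ≤ C ∧ ‖star x‖ ≤ C := by
    refine ⟨∑ x ∈ X, ‖x‖ + 1, by linarith [Finset.sum_nonneg fun x (_ : x ∈ X) => norm_nonneg x],
      fun x hx => ?_⟩
    rw [norm_star]
    have h := Finset.single_le_sum (f := fun x : B => ‖x‖) (fun _ _ => norm_nonneg _) hx
    constructor <;> linarith
  have hC0 : 0 < C := by linarith
  obtain ⟨F, hF0, hF⟩ := hFol T ((ε / (4 * C)) ^ 2 / 2) (by positivity)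
  obtain ⟨S, ns, hSF, hSg, hns, hmem⟩ := exists_coset_data (trivialRelSubgroup α) F T
  obtain ⟨k, hk1, hcard⟩ : ∃ k : ℝ, 1 ≤ k ∧ (S.card : ℝ) ≤ k :=
    ⟨max 1 S.card, le_max_left _ _, le_max_right _ _⟩
  have hk0 : 0 < k := by linarith
  set Q₀ := (S ×ˢ X).image fun p => α.hom p.1.out⁻¹ p.2 with hQ₀
  have hQK : ∀ q ∈ Q₀, q ∈ K.carrier := fun q hq => by
    obtain ⟨⟨c, x⟩, hp, rfl⟩ := Finset.mem_image.1 hq
    exact α.mem _ x (hX x (Finset.mem_product.1 hp).2)
  obtain ⟨Xn, θn, hXnK, hθn, hXn⟩ := exists_uniform_trivial_rel α ns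
    (fun n hn => (mem_trivialRelSubgroup α).1 (hns n hn)) Q₀ hQK (ε := ε / (16 * k))
    (by positivity)
  obtain ⟨Y, W, hY, hW1, hYs, hYK, hWx⟩ := exists_tests K (Q₀ ∪ Xn) fun x hx => by
    rcases Finset.mem_union.1 hx with h' | h'
    exacts [hQK x h', hXnK x h']
  -- the accuracy of the commutators and of the compressions
  obtain ⟨β, hβ0, hβk, hβn⟩ : ∃ β : ℝ, 0 < β ∧ k * β ≤ ε ∧ β ≤ θn :=
    ⟨min (ε / k) θn, lt_min (by positivity) hθn,
      by
        calc k * min (ε / k) θn ≤ k * (ε / k) := by gcongr; exact min_le_left _ _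
          _ = ε := by field_simp,
      min_le_right _ _⟩
  obtain ⟨τ, hτ0, hτε, hτβ⟩ : ∃ τ : ℝ, 0 < τ ∧ τ ≤ ε / 4 ∧ τ * (4 * W) ≤ β ^ 2 :=
    ⟨min (ε / 4) (β ^ 2 / (4 * W)), by positivity, min_le_left _ _,
      (le_div_iff₀ (by positivity)).1 (min_le_right _ _)⟩
  obtain ⟨σ, hσ0, hσW, hσC, hσs⟩ : ∃ σ : ℝ, 0 < σ ∧ σ * W ≤ τ / 2 ∧
      k ^ 2 * (σ * C) ≤ ε / 4 ∧ k ^ 2 * σ ≤ (ε / (4 * C)) ^ 2 := by
    refine ⟨min (τ / (2 * W)) (min (ε / (4 * k ^ 2 * C)) ((ε / (4 * C)) ^ 2 / k ^ 2)),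
      lt_min (by positivity) (lt_min (by positivity) (by positivity)), ?_, ?_, ?_⟩
    · calc _ ≤ τ / (2 * W) * W := by gcongr; exact min_le_left _ _
        _ = τ / 2 := by field_simp
    · calc _ ≤ k ^ 2 * (ε / (4 * k ^ 2 * C) * C) := by
            gcongr; exact (min_le_right _ _).trans (min_le_left _ _)
        _ = ε / 4 := by field_simp
    · calc _ ≤ k ^ 2 * ((ε / (4 * C)) ^ 2 / k ^ 2) := by
            gcongr; exact (min_le_right _ _).trans (min_le_right _ _)
        _ = _ := by field_simp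
  obtain ⟨v, hv, hvY⟩ := exists_unit_fixing hu (Y ∪ Y.image fun y => star y * y)
    (fun y hy => by
      rcases Finset.mem_union.1 hy with h' | h'
      · exact hYK y h'
      · obtain ⟨z, hz, rfl⟩ := Finset.mem_image.1 h'
        exact K.mul_left _ z (hYK z hz)) (half_pos hτ0)
  obtain ⟨m, θ, X', hX'K, hθ, hloc'⟩ := hloc B K hK hS hN hdd G α u hu
    ((S ×ˢ S).image fun p => p.1.out⁻¹ * p.2.out)
    (insert 1 (Y ∪ Y.image fun y => star y * y)) v hv η hη σ hσ0
  obtain ⟨δ₂, hδ₂, k₂⟩ := exists_invariant_cut.{u, v} (B := B) η hC0.le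
    (show (0 : ℝ) < ε / 4 by positivity)
  refine ⟨m, min θ δ₂, S.image Quotient.out, X' ∪ X, fun x hx => ?_, lt_min hθ hδ₂,
    fun e he hXe hTe hτe => ?_⟩
  · rcases Finset.mem_union.1 hx with h' | h'
    exacts [hX'K x h', hX x h']
  obtain ⟨s₀, hcomp, hoff⟩ := hloc' e he
    (fun x hx => (hXe x (Finset.mem_union_left _ hx)).trans (min_le_left _ _))
    fun τ' hτ' => (hτe τ' hτ').trans (min_le_left _ _)
  have hEn : ‖cfc (posCut η) e‖ ≤ 1 := norm_posCut_le hη.le he.2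
  have hvn : ‖v * v‖ ≤ 1 :=
    (norm_mul_le _ _).trans (mul_le_one₀ hv.1.2 (norm_nonneg _) hv.1.2)
  have hone : ∀ i, ‖star (s₀ i) * s₀ i - cfc (posCut η) e * (v * v)‖ ≤ σ := fun i => by
    have h := hcomp i i 1 (Finset.mem_insert_self _ _)
    rwa [if_pos rfl, mul_one, mul_one] at h
  have hσ1 : σ ≤ 1 := by
    have : σ ≤ σ * W := le_mul_of_one_le_right hσ0.le hW1
    linarith
  have hs₀ : ∀ i, ‖s₀ i‖ ^ 2 ≤ 1 + σ := fun i => by
    rw [sq, ← CStarRing.norm_star_mul_self]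
    have := norm_le_norm_add_norm_sub' (star (s₀ i) * s₀ i) (cfc (posCut η) e * (v * v))
    have := (norm_mul_le (cfc (posCut η) e) (v * v)).trans
      (mul_le_one₀ hEn (norm_nonneg _) hvn)
    linarith [hone i]
  have hs₀' : ∀ i, ‖s₀ i‖ ≤ 2 := fun i => by nlinarith [hs₀ i, norm_nonneg (s₀ i)]
  have hclose : ∀ i, (∀ x ∈ Y, ‖(star (s₀ i) * s₀ i - cfc (posCut η) e) * x‖ ≤ τ) ∧
      ∀ x ∈ Y, ‖x * s₀ i - s₀ i * x‖ ≤ β := fun i => by
    have hmem1 : ∀ y ∈ Y, y ∈ insert (1 : B) (Y ∪ Y.image fun y => star y * y) := fun y hy =>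
      Finset.mem_insert_of_mem (Finset.mem_union_left _ hy)
    have hmem2 : ∀ y ∈ Y, star y * y ∈ insert (1 : B) (Y ∪ Y.image fun y => star y * y) :=
      fun y hy => Finset.mem_insert_of_mem
        (Finset.mem_union_right _ (Finset.mem_image.2 ⟨y, hy, rfl⟩))
    obtain ⟨h1, h2⟩ := compressions_close (s₀ i) (cfc (posCut η) e) v hEn Y hσ0.le
      (half_pos hτ0).le hW1 hYs hWx (hone i)
      (fun y hy => (hvY y (Finset.mem_union_left _ hy)).2)
      (fun y hy => ⟨(hvY _ (Finset.mem_union_right _ (Finset.mem_image.2 ⟨y, hy, rfl⟩))).1,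
        (hvY y (Finset.mem_union_left _ hy)).1⟩)
      (fun y hy => by
        have a1 := hcomp i i _ (hmem2 y hy)
        have a2 := hcomp i i _ (hmem1 y hy)
        rw [if_pos rfl] at a1 a2
        exact ⟨a1, a2⟩)
    refine ⟨fun x hx => (h1 x hx).trans (by linarith), fun x hx => (h2 x hx).trans ?_⟩
    refine Real.sqrt_le_iff.2 ⟨hβ0.le, le_trans ?_ hτβ⟩
    gcongr
    linarith
  have huoff : ∀ i j, ∀ p ∈ S, ∀ q ∈ S, p ≠ q →
      ‖star (s₀ i) * α.hom (p.out⁻¹ * q.out) (s₀ j)‖ ≤ σ := fun i j p hp q hq hpq =>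
    hoff _ (Finset.mem_image.2 ⟨(p, q), Finset.mem_product.2 ⟨hp, hq⟩, rfl⟩)
      (fun h => out_inv_mul_notMem _ hpq ((mem_trivialRelSubgroup α).2 h)) i j
  have hQY : ∀ q ∈ S, ∀ x ∈ X, α.hom q.out⁻¹ x ∈ Y := fun q hq x hx =>
    hY (Finset.mem_union_left _
      (Finset.mem_image.2 ⟨(q, x), Finset.mem_product.2 ⟨hq, hx⟩, rfl⟩))
  have hw2 := sum_cosetWeight_sq (trivialRelSubgroup α) F hF0 S hSF
  have hw01 : ∀ q, 0 ≤ cosetWeight (trivialRelSubgroup α) F q ∧
      cosetWeight (trivialRelSubgroup α) F q ≤ 1 := fun q =>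
    ⟨cosetWeight_nonneg _ F q, cosetWeight_le_one _ F q⟩
  obtain ⟨s, hs⟩ : ∃ s : Fin 2 → B, ∀ i, s i = ∑ q ∈ S,
      cosetWeight (trivialRelSubgroup α) F q • relOrbit α (trivialRelSubgroup α) (s₀ i) q :=
    ⟨_, fun i => rfl⟩
  have hnorm : ∀ i, ‖s i‖ ≤ 2 := fun i => by
    have h := relOrbit_norm_sq_le α _ S (cosetWeight (trivialRelSubgroup α) F) (s₀ i)
      (fun q _ => abs_le.2 ⟨by linarith [(hw01 q).1], (hw01 q).2⟩) hσ0.le (hs₀ i) (huoff i i)
    rw [hw2, ← hs i, mul_one] at h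
    have h2 : (S.card : ℝ) ^ 2 * σ ≤ 1 := by
      refine le_trans (le_trans ?_ hσC) (by linarith)
      calc (S.card : ℝ) ^ 2 * σ ≤ k ^ 2 * (σ * 1) := by rw [mul_one]; gcongr
        _ ≤ k ^ 2 * (σ * C) := by gcongr
    nlinarith [norm_nonneg (s i)]
  have hscom : ∀ i, ∀ y : B, (∀ q ∈ S, α.hom q.out⁻¹ y ∈ Y) → ‖y * s i - s i * y‖ ≤ ε := by
    intro i y hy
    rw [hs]
    refine (relOrbit_commutator α _ S _ (s₀ i) y hw01 fun q hq => (hclose i).2 _ (hy q hq)).trans ?_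
    exact (mul_le_mul_of_nonneg_right hcard hβ0.le).trans hβk
  refine ⟨s, hnorm, fun i x hx => ⟨?_, ?_⟩, fun i g hg x hx => ?_, fun i j x hx => ?_⟩
  · exact (hscom i x fun q hq => hQY q hq x hx).trans hεle
  · have e1 : x * star (s i) - star (s i) * x = -star (star x * s i - s i * star x) := by
      simp only [star_sub, star_mul, star_star]; abel
    rw [e1, norm_neg, norm_star]
    refine (hscom i (star x) fun q hq => ?_).trans hεle
    rw [map_star]
    exact hYs _ (hQY q hq x hx)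
  · have hd := (sum_cosetWeight_sub_sq_le (trivialRelSubgroup α) F g S).trans
      ((div_le_iff₀ (by exact_mod_cast hF0.card_pos)).2 (hF g hg))
    rw [hs]
    have hn : ∀ q ∈ S,
        ‖(α.hom ((g • q).out⁻¹ * (g * q.out)) (s₀ i) - s₀ i) * α.hom (g • q).out⁻¹ x‖ ≤
          2 * (ε / (16 * k)) ∨ cosetWeight (trivialRelSubgroup α) F q = 0 := fun q hq => by
      by_cases h0 : cosetWeight (trivialRelSubgroup α) F q = 0
      · exact Or.inr h0
      · exact Or.inl (displacement_rel_le α _ (s₀ i) _ Xn (hs₀' i)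
          (fun y hy => (hclose i).2 y (hY (Finset.mem_union_right _ hy))) hβn
          fun z hz hz' => hXn _ (hmem g hg q hq) _ (Finset.mem_image.2
            ⟨(g • q, x), Finset.mem_product.2 ⟨hSg g hg q h0, hx⟩, rfl⟩) z hz hz')
    refine ((relOrbit_invariant_of_or α _ S _ g (s₀ i) x (σ := σ) hw01 hσ0.le (hC x hx).1
      (by linarith) (hs₀ i) (fun q hq => cosetWeight_eq_zero _ F S hSF hq) (hSg g hg)
      (by positivity) hn (huoff i i) hd).trans ?_).trans hεle
    have h1 : (S.card : ℝ) * (2 * (ε / (16 * k))) ≤ ε / 8 := by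
      calc (S.card : ℝ) * (2 * (ε / (16 * k))) ≤ k * (2 * (ε / (16 * k))) :=
            mul_le_mul_of_nonneg_right hcard (by positivity)
        _ = ε / 8 := by field_simp; ring
    have h2 : Real.sqrt ((1 + σ) * ((ε / (4 * C)) ^ 2 / 2) + (S.card : ℝ) ^ 2 * σ) * C ≤ ε / 2 := by
      calc _ ≤ 2 * (ε / (4 * C)) * C := by
            refine mul_le_mul_of_nonneg_right (Real.sqrt_le_iff.2 ⟨by positivity, ?_⟩) hC0.le
            have h3 : (S.card : ℝ) ^ 2 * σ ≤ (ε / (4 * C)) ^ 2 :=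
              le_trans (by gcongr) hσs
            nlinarith [sq_nonneg (ε / (4 * C))]
        _ = ε / 2 := by field_simp; ring
    linarith
  · rw [hs, hs]
    refine ((relOrbit_products α _ S _ (s₀ i) (s₀ j) _ x (δ := ε / 4) (δ' := ε / 4) (C := C) hw01
      hw2 hσ0.le (hC x hx).1 (fun q hq => ?_) (fun q hq => ?_) (huoff i j)).trans ?_).trans hεle
    · split_ifs with hij
      · subst hij
        exact ((hclose i).1 _ (hQY q hq x hx)).trans hτε
      · have h := hcomp i j 1 (Finset.mem_insert_self _ _)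
        rw [if_neg hij, sub_zero, mul_one] at h
        rw [sub_zero]
        have hxn : ‖α.hom q.out⁻¹ x‖ ≤ C := (norm_hom α _ x).trans_le (hC x hx).1
        refine (norm_mul_le _ _).trans ((mul_le_mul h hxn (norm_nonneg _) hσ0.le).trans ?_)
        exact (le_mul_of_one_le_left (by positivity) (one_le_pow₀ hk1)).trans hσC
    · split_ifs
      · exact k₂ K G α _ e x he (hC x hx).1
          ((hXe x (Finset.mem_union_right _ hx)).trans (min_le_right _ _))
          ((hTe _ (Finset.mem_image_of_mem _ hq) x (Finset.mem_union_right _ hx)).trans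
            (min_le_right _ _))
      · rw [map_zero, sub_zero, zero_mul, norm_zero]; positivity
    · have : (S.card : ℝ) ^ 2 * (σ * C) ≤ ε / 4 := le_trans (by gcongr) hσC
      linarith

/-- **Equivariant property (SI)** relative to the ideal, from nuclearity, excision, the
preparation and comparison. -/
theorem siStatement_of (hg : GlimmStatement.{u}) (hex : ExcisionStatement.{u})
    (hprep : PreparedStatement.{u, v}) (hcmp : CompareStatement.{u}) : SIStatement.{u, v} :=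
  siStatement_of_local (localStatement_of hg hex hprep hcmp)

end Vale.Agent.P095.NU
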