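import Vale.Agent.P095.Full.CombineLocal

/-!
# P095, all amenable groups, non-unital: products of the local elements

As in the unital case, but the square of the local factors is only an intertwined copy of `E`, and
relations with the unit are tested on elements.
-/

noncomputable section

namespace Vale.Agent.P095.NU

universe u

open Vale.Agent.P095.Full

variable {A : Type u} [CStarAlgebra A] {L N : ℕ}

/-- Almost orthogonal excising elements: the diagonal term. -/
theorem norm_glue_diag_rel_le (ω : A →ₗ[ℂ] ℂ) (c d : Fin L → Fin N → A) (r b : Fin L → A) (E E' x : A)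
    {δ εE : ℝ} (hδ : 0 ≤ δ) (hb : ∀ l, star (b l) = b l) (hr : ∀ l, b l * r l = r l)
    (hn : ∀ l, ‖r l‖ ≤ 1) (hE : ∀ l, star (r l) * r l = E')
    (hc : ∀ l i j, ‖star (c l i) * E' * c l j - E * (star (c l i) * c l j)‖ ≤ εE)
    (hz : ∀ p q : Fin L × Fin N, ‖b p.1 * (star (d p.1 p.2) * x * d q.1 q.2) * b q.1 -
      (if p.1 = q.1 then ω (star (d p.1 p.2) * x * d q.1 q.2) • (b p.1 * b p.1) else 0)‖ ≤ δ) :
    ‖star (glue c d r) * x * glue c d r -
        E * ∑ l, ∑ i, ∑ j, ω (star (d l i) * x * d l j) • (star (c l i) * c l j)‖ ≤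
      coeffNorm c ^ 2 * δ +
        (∑ l, ∑ i, ∑ j, ‖ω (star (d l i) * x * d l j)‖) * εE := by
  set M := ∑ p : Fin L × Fin N, ∑ q : Fin L × Fin N,
    (if p.1 = q.1 then ω (star (d p.1 p.2) * x * d q.1 q.2) •
      (star (c p.1 p.2) * E' * c q.1 q.2) else 0) with hM
  have h1 : ‖star (glue c d r) * x * glue c d r - M‖ ≤ coeffNorm c ^ 2 * δ := by
    unfold glue
    simp only [hM, star_sum, Finset.sum_mul, Finset.mul_sum]
    rw [Finset.sum_comm, ← Finset.sum_sub_distrib]
    simp only [← Finset.sum_sub_distrib]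
    refine norm_sum_triple_le c _ fun p q => ?_
    have e0 : star (r p.1) = star (r p.1) * b p.1 := by
      conv_lhs => rw [← hr p.1]
      rw [star_mul, hb]
    have e1 : (if p.1 = q.1 then ω (star (d p.1 p.2) * x * d q.1 q.2) •
        (star (c p.1 p.2) * E' * c q.1 q.2) else 0) = star (c p.1 p.2) * (star (r p.1) *
        (if p.1 = q.1 then ω (star (d p.1 p.2) * x * d q.1 q.2) • (b p.1 * b p.1) else 0) *
          r q.1) * c q.1 q.2 := by
      split_ifs with h
      · rw [← h, mul_smul_comm, smul_mul_assoc, mul_smul_comm, smul_mul_assoc,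
          show star (r p.1) * (b p.1 * b p.1) * r p.1 = star (r p.1) * b p.1 * (b p.1 * r p.1) by
            simp only [mul_assoc], ← e0, hr, hE]
      · simp
    rw [e1, star_mul, star_mul, e0, ← hr q.1,
      show star (c p.1 p.2) * (star (r p.1) * b p.1 * star (d p.1 p.2)) * x *
          (d q.1 q.2 * (b q.1 * r q.1) * c q.1 q.2) = star (c p.1 p.2) * (star (r p.1) *
            (b p.1 * (star (d p.1 p.2) * x * d q.1 q.2) * b q.1) * r q.1) * c q.1 q.2 by
        noncomm_ring, ← e0, hr, ← sub_mul, ← mul_sub, ← sub_mul, ← mul_sub]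
    refine norm_mul₃_le.trans ?_
    rw [norm_star]
    gcongr
    refine norm_mul₃_le.trans ?_
    calc _ ≤ 1 * δ * 1 := by
          gcongr
          · rw [norm_star]; exact hn _
          · exact hz p q
          · exact hn _
      _ = δ := by ring
  have h2 : M = ∑ l, ∑ i, ∑ j,
      ω (star (d l i) * x * d l j) • (star (c l i) * E' * c l j) := by
    simp only [hM, Fintype.sum_prod_type]
    refine Finset.sum_congr rfl fun l _ => Finset.sum_congr rfl fun i _ => ?_
    rw [Finset.sum_comm]
    exact Finset.sum_congr rfl fun j _ => Fintype.sum_ite_eq l _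
  have h3 : ‖M - E * ∑ l, ∑ i, ∑ j, ω (star (d l i) * x * d l j) • (star (c l i) * c l j)‖ ≤
      (∑ l, ∑ i, ∑ j, ‖ω (star (d l i) * x * d l j)‖) * εE := by
    simp only [h2, Finset.mul_sum, ← Finset.sum_sub_distrib, Finset.sum_mul]
    refine (norm_sum_le _ _).trans (Finset.sum_le_sum fun l _ => (norm_sum_le _ _).trans
      (Finset.sum_le_sum fun i _ => (norm_sum_le _ _).trans (Finset.sum_le_sum fun j _ => ?_)))
    rw [mul_smul_comm, ← smul_sub, norm_smul]
    exact mul_le_mul_of_nonneg_left (hc l i j) (norm_nonneg _)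
  refine (norm_sub_le_norm_sub_add_norm_sub _ M _).trans ?_
  linarith

/-- From almost exact compressions of `x* x`, `x*`, `x` and, over `x`, of `1` to a small
commutator. -/
theorem norm_commutator_rel_le (s E x : A) {ε : ℝ}
    (h1 : ‖star s * (star x * x) * s - E * (star x * x)‖ ≤ ε)
    (h2 : ‖star s * star x * s - E * star x‖ ≤ ε) (h3 : ‖star s * x * s - E * x‖ ≤ ε)
    (h4 : ‖(star s * s - E) * x‖ ≤ ε) :
    ‖x * s - s * x‖ ^ 2 ≤ ε * (1 + 3 * ‖x‖) := by
  rw [sq, ← CStarRing.norm_star_mul_self,
    show star (x * s - s * x) * (x * s - s * x) =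
      (star s * (star x * x) * s - E * (star x * x)) - (star s * star x * s - E * star x) * x -
        star x * (star s * x * s - E * x) + star x * ((star s * s - E) * x) by
      simp only [star_sub, star_mul, sub_mul, mul_sub, mul_assoc]; abel]
  calc _ ≤ ε + ε * ‖x‖ + ‖x‖ * ε + ‖x‖ * ε := by
        refine (norm_add_le _ _).trans (add_le_add ((norm_sub_le _ _).trans (add_le_add
          ((norm_sub_le _ _).trans (add_le_add h1 ?_)) ?_)) ?_)
        · exact (norm_mul_le _ _).trans (mul_le_mul_of_nonneg_right h2 (norm_nonneg _))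
        · refine (norm_mul_le _ _).trans ?_
          rw [norm_star]
          exact mul_le_mul_of_nonneg_left h3 (norm_nonneg _)
        · refine (norm_mul_le _ _).trans ?_
          rw [norm_star]
          exact mul_le_mul_of_nonneg_left h4 (norm_nonneg _)
    _ = _ := by ring

end Vale.Agent.P095.NU
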