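import Vale.Agent.P095.NU.Defs
import Vale.Agent.P095.Full.CombineTools

/-!
# P095, all amenable groups, non-unital: tools for the combination step

Actions on the ideal, the subgroup of elements acting trivially on relative central sequences, and
averages over its cosets, tested on elements.
-/

noncomputable section

namespace Vale.Agent.P095.NU

universe u v

open Vale.Agent.P095.Full Vale.Agent.P095.Relative

variable {B : Type u} [CStarAlgebra B] {K : TestIdeal B} {G : Type v} [Group G] (α : RelAction G K)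

theorem norm_hom (g : G) (x : B) : ‖α.hom g x‖ = ‖x‖ := by
  refine le_antisymm (NonUnitalStarAlgHom.norm_apply_le _ x) ?_
  calc ‖x‖ = ‖α.hom g⁻¹ (α.hom g x)‖ := by rw [← α.hom_mul, inv_mul_cancel, α.hom_one]
    _ ≤ ‖α.hom g x‖ := NonUnitalStarAlgHom.norm_apply_le _ _

theorem hom_real_smul (g : G) (w : ℝ) (x : B) : α.hom g (w • x) = w • α.hom g x := by
  rw [← Complex.coe_smul w x, map_smul, Complex.coe_smul]

theorem relAct_cfc (g : G) {f : ℝ → ℝ} (hf : Continuous f) {a : B} (ha : IsSelfAdjoint a) :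
    α.hom g (cfc f a) = cfc f (α.hom g a) :=
  Gamma.map_rcfc (α.hom g) f hf ha

theorem norm_hom_mul (g : G) (y x : B) : ‖α.hom g y * x‖ = ‖y * α.hom g⁻¹ x‖ := by
  conv_lhs => rw [← α.hom_inv g x, ← map_mul]
  exact norm_hom α g _

theorem norm_mul_hom (g : G) (y x : B) : ‖x * α.hom g y‖ = ‖α.hom g⁻¹ x * y‖ := by
  conv_lhs => rw [← α.hom_inv g x, ← map_mul]
  exact norm_hom α g _

/-- The trivially acting elements. -/
def trivialRelSubgroup : Subgroup G where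
  carrier := {g | ActsTriviallyRel α g}
  one_mem' := fun ε hε k _ => ⟨∅, 1, by simp, one_pos, fun z _ _ => by
    rw [α.hom_one, sub_self, zero_mul, norm_zero]; exact hε.le⟩
  mul_mem' := fun {g h} hg hh ε hε k hk => by
    classical
    obtain ⟨X₁, θ₁, m₁, h₁, k₁⟩ := hg (ε / 2) (by positivity) k hk
    obtain ⟨X₂, θ₂, m₂, h₂, k₂⟩ := hh (ε / 2) (by positivity) _ (α.mem g⁻¹ k hk)
    refine ⟨X₁ ∪ X₂, min θ₁ θ₂, fun x hx => ?_, lt_min h₁ h₂, fun z hz hc => ?_⟩
    · rcases Finset.mem_union.1 hx with h' | h'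
      exacts [m₁ x h', m₂ x h']
    have e : (α.hom (g * h) z - z) * k =
        α.hom g (α.hom h z - z) * k + (α.hom g z - z) * k := by
      rw [α.hom_mul, map_sub, ← add_mul]; abel_nf
    rw [e]
    refine (norm_add_le _ _).trans ?_
    rw [norm_hom_mul]
    have a1 := k₁ z hz fun x hx =>
      (hc x (Finset.mem_union_left _ hx)).trans (min_le_left _ _)
    have a2 := k₂ z hz fun x hx =>
      (hc x (Finset.mem_union_right _ hx)).trans (min_le_right _ _)
    linarith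
  inv_mem' := fun {g} hg ε hε k hk => by
    obtain ⟨X, θ, hm, hθ, h⟩ := hg ε hε _ (α.mem g k hk)
    refine ⟨X, θ, hm, hθ, fun z hz hc => ?_⟩
    have e : α.hom g ((α.hom g⁻¹ z - z) * k) = -((α.hom g z - z) * α.hom g k) := by
      rw [map_mul, map_sub, α.hom_inv, ← neg_mul, neg_sub]
    rw [← norm_hom α g, e, norm_neg]
    exact h z hz hc

theorem mem_trivialRelSubgroup {g : G} : g ∈ trivialRelSubgroup α ↔ ActsTriviallyRel α g := Iff.rfl

/-- One centrality condition for finitely many trivially acting elements and finitely many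
tests. -/
theorem exists_uniform_trivial_rel (S : Finset G) (hS : ∀ n ∈ S, ActsTriviallyRel α n)
    (Q : Finset B) (hQ : ∀ k ∈ Q, k ∈ K.carrier) {ε : ℝ} (hε : 0 < ε) :
    ∃ (X : Finset B) (θ : ℝ), (∀ x ∈ X, x ∈ K.carrier) ∧ 0 < θ ∧ ∀ n ∈ S, ∀ k ∈ Q, ∀ z : B,
      ‖z‖ ≤ 1 → (∀ x ∈ X, ‖x * z - z * x‖ ≤ θ) → ‖(α.hom n z - z) * k‖ ≤ ε := by
  classical
  suffices H : ∀ P : Finset (G × B), P ⊆ S ×ˢ Q → ∃ (X : Finset B) (θ : ℝ),
      (∀ x ∈ X, x ∈ K.carrier) ∧ 0 < θ ∧ ∀ p ∈ P, ∀ z : B, ‖z‖ ≤ 1 →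
        (∀ x ∈ X, ‖x * z - z * x‖ ≤ θ) → ‖(α.hom p.1 z - z) * p.2‖ ≤ ε by
    obtain ⟨X, θ, h1, h2, h3⟩ := H _ subset_rfl
    exact ⟨X, θ, h1, h2, fun n hn k hk => h3 (n, k) (Finset.mem_product.2 ⟨hn, hk⟩)⟩
  intro P hP
  induction P using Finset.induction_on with
  | empty => exact ⟨∅, 1, by simp, one_pos, fun p hp => absurd hp (Finset.notMem_empty p)⟩
  | insert p P hp ih =>
    obtain ⟨h1, h2⟩ := Finset.mem_product.1 (hP (Finset.mem_insert_self p P))
    obtain ⟨X₁, θ₁, m₁, t₁, k₁⟩ := hS _ h1 ε hε _ (hQ _ h2)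
    obtain ⟨X₂, θ₂, m₂, t₂, k₂⟩ := ih fun q hq => hP (Finset.mem_insert_of_mem hq)
    refine ⟨X₁ ∪ X₂, min θ₁ θ₂, fun x hx => ?_, lt_min t₁ t₂, fun q hq z hz hc => ?_⟩
    · rcases Finset.mem_union.1 hx with h' | h'
      exacts [m₁ x h', m₂ x h']
    rcases Finset.mem_insert.1 hq with rfl | hq
    · exact k₁ z hz fun x hx => (hc x (Finset.mem_union_left _ hx)).trans (min_le_left _ _)
    · exact k₂ q hq z hz fun x hx => (hc x (Finset.mem_union_right _ hx)).trans (min_le_right _ _)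

variable (N : Subgroup G)

/-- The translate of `x` to the coset `q`. -/
def relOrbit (x : B) (q : G ⧸ N) : B := α.hom q.out x

theorem norm_relOrbit (x : B) (q : G ⧸ N) : ‖relOrbit α N x q‖ = ‖x‖ := norm_hom α _ _

theorem star_relOrbit_mul (x y : B) (p q : G ⧸ N) :
    star (relOrbit α N x p) * relOrbit α N y q =
      α.hom p.out (star x * α.hom (p.out⁻¹ * q.out) y) := by
  rw [relOrbit, relOrbit, map_mul, map_star, ← α.hom_mul, mul_inv_cancel_left]

/-- The norm of an average. -/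
theorem relOrbit_norm_sq_le (S : Finset (G ⧸ N)) (w : G ⧸ N → ℝ) (x : B) {D σ : ℝ}
    (hw : ∀ q ∈ S, |w q| ≤ 1) (hσ : 0 ≤ σ) (hx : ‖x‖ ^ 2 ≤ D)
    (hoff : ∀ p ∈ S, ∀ q ∈ S, p ≠ q → ‖star x * α.hom (p.out⁻¹ * q.out) x‖ ≤ σ) :
    ‖∑ q ∈ S, w q • relOrbit α N x q‖ ^ 2 ≤ D * ∑ q ∈ S, w q ^ 2 + (S.card : ℝ) ^ 2 * σ :=
  norm_sum_smul_sq_le S w _ hw (fun q _ => by rw [norm_relOrbit]; exact hx) hσ
    fun p hp q hq hpq => by rw [star_relOrbit_mul, norm_hom]; exact hoff p hp q hq hpq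

end Vale.Agent.P095.NU
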