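import Vale.Agent.P095.NU.Specs
import Vale.Agent.P095.NU.CombineLocal
import Vale.Agent.P095.NU.CombineTools
import Vale.Agent.P095.Full.Combine

/-!
# P095, all amenable groups, non-unital: the local elements

Nuclearity on the compressed tests `v z v`, an excised state, almost orthogonal excising elements
and comparison give two local elements whose compressions are multiples of `v z v`.
-/

noncomputable section

namespace Vale.Agent.P095.NU

universe u v

open Filter Topology
open Vale.Agent.P095.Gamma Vale.Agent.P095.Full Vale.Agent.P095.Relative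

/-- What the averaging step needs of the two local elements. -/
def LocalStatement : Prop :=
  ∀ (B : Type u) [CStarAlgebra B] [TopologicalSpace.SeparableSpace B] (K : TestIdeal B),
    IsClosedIdeal K → IsSimpleRel K → IsNuclearRel K → HasRelDrop K →
      ∀ (G : Type v) [Group G] (α : RelAction G K) (u : ℕ → B), IsUnitSeq K u →
        ∀ (Tp : Finset G) (X₁ : Finset B) (v : B), InPosBall K v → ∀ η : ℝ, 0 < η →
          ∀ εs : ℝ, 0 < εs → ∃ (m : ℕ) (θ : ℝ) (X' : Finset B), (∀ x ∈ X', x ∈ K.carrier) ∧ 0 < θ ∧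
            ∀ e : B, IsPosContraction e → (∀ x ∈ X', ‖x * e - e * x‖ ≤ θ) →
              LocLE (u m * u m) e θ →
              ∃ s : Fin 2 → B,
                (∀ i j, ∀ z ∈ X₁, ‖star (s i) * z * s j -
                  (if i = j then cfc (posCut η) e * (v * z * v) else 0)‖ ≤ εs) ∧
                ∀ t ∈ Tp, ¬ActsTriviallyRel α t → ∀ i j, ‖star (s i) * α.hom t (s j)‖ ≤ εs

/-- A cut of a positive element of norm one, inside the fixed points of whatever fixes it. -/
theorem exists_cut_under {B : Type u} [CStarAlgebra B] (K : TestIdeal B) {a b : B}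
    (ha : InPosBall K a) (ha1 : ‖a‖ = 1) (hba : b * a = a) :
    ∃ k : B, IsPos k ∧ k ∈ K.carrier ∧ k ≠ 0 ∧ b * k = k := by
  let _ : PartialOrder B := CStarAlgebra.spectralOrder B
  have : StarOrderedRing B := CStarAlgebra.spectralOrderedRing B
  have has : star a = a := ha.1.1.isSelfAdjoint.star_eq
  have hB0 : 0 ≤ a * a := by simpa [has] using star_mul_self_nonneg a
  have hBn : ‖a * a‖ = 1 := by
    have h := CStarRing.norm_star_mul_self (x := a)
    rwa [has, ha1, mul_one] at h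
  set J : ℝ → ℝ := fun t => (max t (1 / 2))⁻¹ * posCut (1 / 2) t with hJ
  have hJc : Continuous J :=
    (Continuous.inv₀ (by fun_prop) fun t =>
      (lt_of_lt_of_le (show (0 : ℝ) < 1 / 2 by norm_num) (le_max_right t _)).ne').mul
      (continuous_posCut _)
  have hBK : a * a * cfc J (a * a) = cfc (posCut (1 / 2)) (a * a) := by
    conv_lhs => enter [1]; rw [← cfc_id' ℝ (a * a) (IsSelfAdjoint.of_nonneg hB0)]
    rw [← cfc_mul (fun t : ℝ => t) J (a * a) continuousOn_id hJc.continuousOn]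
    refine cfc_congr fun t _ => ?_
    show t * ((max t (1 / 2))⁻¹ * posCut (1 / 2) t) = posCut (1 / 2) t
    rcases le_total t (1 / 2) with h | h
    · rw [posCut, max_eq_right (sub_nonpos.2 h), mul_zero, mul_zero]
    · rw [max_eq_left h, ← mul_assoc, mul_inv_cancel₀ (by linarith : t ≠ 0), one_mul]
  refine ⟨cfc (posCut (1 / 2)) (a * a),
    CStarAlgebra.nonneg_iff_eq_star_mul_self.1 (P101.Cuntz.cut_nonneg (a * a) (1 / 2)), ?_, ?_, ?_⟩
  · rw [← hBK, mul_assoc]
    exact K.mul_right _ a ha.2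
  · intro h
    have h1 := P101.Cuntz.norm_cut_sub' hB0 (show (0 : ℝ) ≤ 1 / 2 by norm_num)
    rw [show P101.Cuntz.cut (a * a) (1 / 2) = 0 from h, zero_sub, norm_neg, hBn] at h1
    norm_num at h1
  · rw [← hBK, ← mul_assoc, ← mul_assoc b, hba]

theorem norm_posCut_le {B : Type u} [CStarAlgebra B] {e : B} {η : ℝ} (hη : 0 ≤ η) (he : ‖e‖ ≤ 1) :
    ‖cfc (posCut η) e‖ ≤ 1 := by
  rcases subsingleton_or_nontrivial B with h | h
  · simp [Subsingleton.elim (cfc (posCut η) e) 0]
  · exact norm_cfc_posCut_le hη he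

/-- The transfer elements. -/
theorem exists_transfer_rel (hcmp : CompareStatement.{u}) {B : Type u} [CStarAlgebra B]
    [TopologicalSpace.SeparableSpace B] {K : TestIdeal B} (hK : IsClosedIdeal K)
    (hS : IsSimpleRel K) (hN : IsNuclearRel K) (hdd : HasRelDrop K) {a b h w w₁ : B}
    (ha : InPosBall K a) (ha1 : ‖a‖ = 1) (hba : b * a = a) (hh : IsLocUnit K h w w₁) {η : ℝ}
    (hη : 0 < η) :
    ∃ θ : ℝ, 0 < θ ∧ ∀ e : B, IsPosContraction e → LocLE h e θ →
      ∃ r : B, star r * r = cfc (posCut η) (h * e * h) ∧ b * r = r ∧ ‖r‖ ≤ 1 := by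
  obtain ⟨k, hk0, hkK, hkne, hbk⟩ := exists_cut_under K ha ha1 hba
  obtain ⟨θ, hθ, hc⟩ := hcmp B K hK hS hN hdd h w w₁ hh k hk0 hkK hkne η hη
  refine ⟨θ, hθ, fun e he hτ => ?_⟩
  obtain ⟨r, c, hr, hrr⟩ := hc e he hτ
  refine ⟨r, hrr, by rw [hr, ← mul_assoc, hbk], ?_⟩
  have hn : ‖h * e * h‖ ≤ 1 :=
    calc ‖h * e * h‖ ≤ ‖h‖ * ‖e‖ * ‖h‖ := norm_mul₃_le
      _ ≤ 1 * 1 * 1 := by
          gcongr
          exacts [hh.mem.1.2, he.2, hh.mem.1.2]
      _ = 1 := by norm_num
  have h1 : ‖r‖ * ‖r‖ ≤ 1 := by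
    rw [← CStarRing.norm_star_mul_self, hrr]
    exact norm_posCut_le hη.le hn
  nlinarith [norm_nonneg r]

/-- `c e` and `(h e h) c` are close when `c` almost commutes with `e` and `h` almost fixes `c`. -/
theorem norm_intertwine_le {B : Type u} [CStarAlgebra B] {c e h : B} (he : ‖e‖ ≤ 1) (hh : ‖h‖ ≤ 1)
    {β γ : ℝ} (hc : ‖c * e - e * c‖ ≤ β) (hhc : ‖h * c - c‖ ≤ γ) :
    ‖c * e - h * e * h * c‖ ≤ 3 * β + 2 * γ := by
  have e1 : c * e - h * e * h * c = (c * e - e * c) + (e * c - c * e) - h * (e * c - c * e) -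
      (h * c - c) * e - h * e * (h * c - c) := by noncomm_ring
  rw [e1]
  have h2 : ‖e * c - c * e‖ ≤ β := by rwa [norm_sub_rev]
  have hβ : 0 ≤ β := (norm_nonneg _).trans h2
  have hγ : 0 ≤ γ := (norm_nonneg _).trans hhc
  have a1 : ‖h * (e * c - c * e)‖ ≤ β :=
    (norm_mul_le _ _).trans ((mul_le_mul hh h2 (norm_nonneg _) zero_le_one).trans_eq (one_mul β))
  have a2 : ‖(h * c - c) * e‖ ≤ γ :=
    (norm_mul_le _ _).trans ((mul_le_mul hhc he (norm_nonneg _) hγ).trans_eq (mul_one γ))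
  have a3 : ‖h * e * (h * c - c)‖ ≤ γ :=
    (norm_mul₃_le).trans (by
      calc ‖h‖ * ‖e‖ * ‖h * c - c‖ ≤ 1 * 1 * γ := by gcongr
        _ = γ := by ring)
  have := norm_sub_le ((c * e - e * c) + (e * c - c * e) - h * (e * c - c * e) - (h * c - c) * e)
    (h * e * (h * c - c))
  have := norm_sub_le ((c * e - e * c) + (e * c - c * e) - h * (e * c - c * e)) ((h * c - c) * e)
  have := norm_sub_le ((c * e - e * c) + (e * c - c * e)) (h * (e * c - c * e))
  have := norm_add_le (c * e - e * c) (e * c - c * e)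
  linarith

/-- The local elements. -/
theorem localStatement_of (hg : GlimmStatement.{u}) (hex : ExcisionStatement.{u})
    (hprep : PreparedStatement.{u, v}) (hcmp : CompareStatement.{u}) :
    LocalStatement.{u, v} := by
  intro B _ _ K hK hS hN hdd G _ α u hu Tp X₁ v hv η hη εs hεs
  classical
  by_cases hne : ∃ k ∈ K.carrier, k ≠ 0
  swap
  · have hv0 : v = 0 := by
      by_contra h
      exact hne ⟨v, hv.2, h⟩
    exact ⟨0, 1, ∅, by simp, one_pos, fun e _ _ _ => ⟨0,
      fun i j z _ => by simp [hv0, hεs.le],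
      fun t _ _ i j => by simp [hεs.le]⟩⟩
  obtain ⟨ω, hω, hωex⟩ := hex B K hK hne
  have hvK : ∀ x, v * x * v ∈ K.carrier := fun x => K.mul_left _ v hv.2
  obtain ⟨L, N, c, d₀, hcdK, hcd⟩ := hg B K hK hS hN ω hω (X₁.image fun z => v * z * v)
    (fun x hx => by obtain ⟨z, -, rfl⟩ := Finset.mem_image.1 hx; exact hvK z) (εs / 4) (by positivity)
  set d := fun l i => v * d₀ l i with hd
  have hdz : ∀ l i j z, star (d l i) * z * d l j = star (d₀ l i) * (v * z * v) * d₀ l j :=
    fun l i j z => by simp only [hd, star_mul, hv.1.1.isSelfAdjoint.star_eq, mul_assoc]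
  set M := coeffNorm c + 1 with hM
  have hcn := coeffNorm_nonneg c
  have hM0 : 0 < M := by linarith
  have hcM : ∀ l i, ‖c l i‖ ≤ M := fun l i => by linarith [norm_le_coeffNorm c (l, i)]
  set P := (Finset.univ : Finset (Fin L × Fin N))
  set Z := (X₁ ×ˢ P ×ˢ P).image
      (fun t => star (d t.2.1.1 t.2.1.2) * t.1 * d t.2.2.1 t.2.2.2) ∪
    (Tp ×ˢ P ×ˢ P).image
      (fun t => star (d t.2.1.1 t.2.1.2) * 1 * α.hom t.1 (d t.2.2.1 t.2.2.2)) with hZ
  set δz := εs / (4 * M ^ 2) with hδz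
  have hδz0 : 0 < δz := by positivity
  have hMδ : coeffNorm c ^ 2 * δz ≤ εs / 4 := by
    calc coeffNorm c ^ 2 * δz ≤ M ^ 2 * δz := by gcongr; linarith
      _ = εs / 4 := by rw [hδz]; field_simp
  obtain ⟨a, b, hab, hbb, hbT⟩ := hprep B K hK hS hdd ω hω hωex G α (2 * L) Z Tp δz hδz0
  set W := ∑ x ∈ X₁, ∑ l, ∑ i, ∑ j, ‖ω (star (d l i) * x * d l j)‖ with hW
  have hW0 : 0 ≤ W := by positivity
  obtain ⟨εE, hεE, hεEW⟩ : ∃ εE : ℝ, 0 < εE ∧ (W + 1) * εE ≤ εs / 4 :=
    ⟨εs / (4 * (W + 1)), by positivity, le_of_eq (by field_simp)⟩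
  obtain ⟨δ₁, hδ₁, k₁⟩ := exists_cfc_near (A := B) (continuous_posCut η) 1 (C := M)
    (ε := εE / (2 * M)) (by positivity) (by positivity)
  obtain ⟨δ₂, hδ₂, k₂⟩ := exists_cfc_near (A := B) (continuous_posCut η) 1 (C := M * M)
    (ε := εE / 2) (by positivity) (by positivity)
  have hfix : ∀ᶠ m in atTop, ∀ p ∈ P, ‖u m * u m * c p.1 p.2 - c p.1 p.2‖ ≤ δ₁ / 4 := by
    refine P.eventually_all.2 fun p _ => ?_
    filter_upwards [(hu.tendsto _ (hcdK p.1 p.2).1).eventually
      (Iic_mem_nhds (show (0 : ℝ) < δ₁ / 8 by positivity))] with m hm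
    have e : u m * u m * c p.1 p.2 - c p.1 p.2 =
        u m * (u m * c p.1 p.2 - c p.1 p.2) + (u m * c p.1 p.2 - c p.1 p.2) := by noncomm_ring
    rw [e]
    refine (norm_add_le _ _).trans ?_
    have h1 : ‖u m * (u m * c p.1 p.2 - c p.1 p.2)‖ ≤ 1 * (δ₁ / 8) :=
      (norm_mul_le _ _).trans (mul_le_mul (hu.mem m).1.2 hm (norm_nonneg _) zero_le_one)
    linarith
  obtain ⟨m, hm⟩ := hfix.exists
  set h := u m * u m with hh
  have hus : star (u m) = u m := (hu.mem m).1.1.isSelfAdjoint.star_eq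
  have hhball : InPosBall K h :=
    ⟨⟨⟨u m, by rw [hus]⟩, (norm_mul_le _ _).trans
      (mul_le_one₀ (hu.mem m).1.2 (norm_nonneg _) (hu.mem m).1.2)⟩, K.mul_left _ _ (hu.mem m).2⟩
  obtain ⟨w, w₁, hw⟩ := hu.local_unit m
  have hlu : IsLocUnit K h w w₁ :=
    ⟨hhball, hw.unit_mem, hw.unit_mem₁, by rw [hh, ← mul_assoc, hw.unit_mul], hw.unit_mul₁⟩
  choose θm hθm hr using fun i =>
    exists_transfer_rel hcmp hK hS hN hdd (hab i).1 (hab i).2.1 (hab i).2.2.2 hlu hη
  obtain ⟨θ, hθ0, hθ1, hθ2, hθ3⟩ :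
      ∃ θ : ℝ, 0 < θ ∧ θ ≤ δ₁ / 8 ∧ θ ≤ δ₂ ∧ ∀ i, θ ≤ θm i := by
    set S := insert (δ₁ / 8) (insert δ₂ (Finset.univ.image θm)) with hS'
    refine ⟨S.min' (Finset.insert_nonempty _ _), ?_,
      Finset.min'_le _ _ (Finset.mem_insert_self _ _),
      Finset.min'_le _ _ (Finset.mem_insert_of_mem (Finset.mem_insert_self _ _)),
      fun i => Finset.min'_le _ _ (Finset.mem_insert_of_mem (Finset.mem_insert_of_mem
        (Finset.mem_image_of_mem _ (Finset.mem_univ i))))⟩
    rw [Finset.lt_min'_iff]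
    intro y hy
    rcases Finset.mem_insert.1 hy with rfl | hy
    · positivity
    rcases Finset.mem_insert.1 hy with rfl | hy
    · exact hδ₂
    · obtain ⟨i, -, rfl⟩ := Finset.mem_image.1 hy
      exact hθm i
  refine ⟨m, θ, P.image (fun p => c p.1 p.2) ∪
    (P ×ˢ P).image (fun t => star (c t.1.1 t.1.2) * c t.2.1 t.2.2), fun x hx => ?_, hθ0,
    fun e he hX hτ => ?_⟩
  · rcases Finset.mem_union.1 hx with h' | h'
    · obtain ⟨p, -, rfl⟩ := Finset.mem_image.1 h'
      exact (hcdK _ _).1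
    · obtain ⟨t, -, rfl⟩ := Finset.mem_image.1 h'
      exact K.mul_left _ _ (hcdK _ _).1
  set E := cfc (posCut η) e with hE
  set E' := cfc (posCut η) (h * e * h) with hE'
  have hes := he.1.isSelfAdjoint
  have hhs : star h = h := hhball.1.1.isSelfAdjoint.star_eq
  have hhes : IsSelfAdjoint (h * e * h) := by
    have h1 := hes.conjugate h
    rwa [hhs] at h1
  have hhen : ‖h * e * h‖ ≤ 1 :=
    calc ‖h * e * h‖ ≤ ‖h‖ * ‖e‖ * ‖h‖ := norm_mul₃_le
      _ ≤ 1 * 1 * 1 := by
          gcongr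
          exacts [hhball.1.2, he.2, hhball.1.2]
      _ = 1 := by norm_num
  have hEc : ∀ l i j, ‖star (c l i) * E' * c l j - E * (star (c l i) * c l j)‖ ≤ εE := by
    intro l i j
    have h1 : ‖c l j * E - E' * c l j‖ ≤ εE / (2 * M) := by
      refine k₁ e _ _ hes hhes he.2 hhen (hcM l j) ((norm_intertwine_le he.2 hhball.1.2
        (hX _ (Finset.mem_union_left _ (Finset.mem_image.2 ⟨(l, j), Finset.mem_univ _, rfl⟩)))
        (hm (l, j) (Finset.mem_univ _))).trans ?_)
      linarith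
    have h2 : ‖star (c l i) * c l j * E - E * (star (c l i) * c l j)‖ ≤ εE / 2 := by
      refine k₂ e e _ hes hes he.2 he.2 ((norm_mul_le _ _).trans (by
        rw [norm_star]; exact mul_le_mul (hcM l i) (hcM l j) (norm_nonneg _) hM0.le)) ?_
      exact (hX _ (Finset.mem_union_right _ (Finset.mem_image.2
        ⟨((l, i), (l, j)), Finset.mem_product.2 ⟨Finset.mem_univ _, Finset.mem_univ _⟩, rfl⟩))).trans
        hθ2
    have e1 : star (c l i) * E' * c l j - E * (star (c l i) * c l j) =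
        star (c l i) * (E' * c l j - c l j * E) +
          (star (c l i) * c l j * E - E * (star (c l i) * c l j)) := by noncomm_ring
    rw [e1]
    refine (norm_add_le _ _).trans ?_
    have h3 : ‖star (c l i) * (E' * c l j - c l j * E)‖ ≤ M * (εE / (2 * M)) := by
      refine (norm_mul_le _ _).trans ?_
      rw [norm_star, norm_sub_rev]
      exact mul_le_mul (hcM l i) h1 (norm_nonneg _) hM0.le
    have h4 : M * (εE / (2 * M)) = εE / 2 := by field_simp
    linarith
  choose r hrE hbr hr1 using fun i => hr i e he fun τ hτ' => (hτ τ hτ').trans (hθ3 i)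
  have hbs : ∀ i, star (b i) = b i := fun i => (hab i).2.2.1.1.1.isSelfAdjoint.star_eq
  set κ := fun (k : Fin 2) (l : Fin L) => finProdFinEquiv (k, l) with hκ
  have hκi : ∀ k l k' l', κ k l = κ k' l' → k = k' ∧ l = l' := fun k l k' l' h =>
    Prod.mk.injEq _ _ _ _ ▸ finProdFinEquiv.injective h
  refine ⟨fun k => glue c d fun l => r (κ k l), fun i j x hx => ?_, fun t ht hnt' i j => ?_⟩
  · have hzmem : ∀ p q : Fin L × Fin N, star (d p.1 p.2) * x * d q.1 q.2 ∈ Z := fun p q =>
      Finset.mem_union_left _ (Finset.mem_image.2 ⟨(x, p, q), by simp [hx, P], rfl⟩)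
    by_cases hij : i = j
    · subst hij
      rw [if_pos rfl]
      have h' := norm_glue_diag_rel_le ω c d (fun l => r (κ i l)) (fun l => b (κ i l)) E E' x
        hδz0.le (fun l => hbs _) (fun l => hbr _) (fun l => hr1 _) (fun l => hrE _) hEc
        (fun p q => by
          have h := hbb (κ i p.1) (κ i q.1) _ (hzmem p q)
          by_cases hpq : p.1 = q.1
          · rw [if_pos hpq]
            rwa [if_pos (by rw [hpq])] at h
          · rw [if_neg hpq]
            rwa [if_neg fun h'' => hpq (hκi _ _ _ _ h'').2] at h)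
      set Φ := ∑ l, ∑ i, ∑ j, ω (star (d l i) * x * d l j) • (star (c l i) * c l j) with hΦ
      have h1 : ‖E * Φ - E * (v * x * v)‖ ≤ εs / 4 := by
        rw [← mul_sub]
        refine (norm_mul_le _ _).trans ?_
        calc _ ≤ 1 * (εs / 4) := mul_le_mul (norm_posCut_le hη.le he.2) (by
              rw [norm_sub_rev, hΦ]
              simp only [hdz]
              exact hcd _ (Finset.mem_image_of_mem _ hx)) (norm_nonneg _) zero_le_one
          _ = εs / 4 := one_mul _
      have h2 : (∑ l, ∑ i, ∑ j, ‖ω (star (d l i) * x * d l j)‖) * εE ≤ εs / 4 := by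
        refine le_trans ?_ hεEW
        refine mul_le_mul_of_nonneg_right ?_ hεE.le
        have := Finset.single_le_sum (f := fun x => ∑ l, ∑ i, ∑ j,
          ‖ω (star (d l i) * x * d l j)‖) (fun _ _ => by positivity) hx
        linarith
      refine (norm_sub_le_norm_sub_add_norm_sub _ (E * Φ) _).trans ?_
      linarith
    · rw [if_neg hij, sub_zero]
      have h' := norm_glue_cross_le (StarAlgHom.id ℂ B) c d (fun l => r (κ i l))
        (fun l => r (κ j l)) (fun l => b (κ i l)) (fun l => b (κ j l)) x hδz0.le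
        (fun l => hbs _) (fun l => hbr _) (fun l => hbr _) (fun l => hr1 _) (fun l => hr1 _)
        (fun p q => by
          have h := hbb (κ i p.1) (κ j q.1) _ (hzmem p q)
          rwa [if_neg fun h'' => hij (hκi _ _ _ _ h'').1, sub_zero] at h)
      exact h'.trans (hMδ.trans (by linarith))
  · have h' := norm_glue_cross_le (α.hom t) c d (fun l => r (κ i l))
      (fun l => r (κ j l)) (fun l => b (κ i l)) (fun l => b (κ j l)) 1 hδz0.le
      (fun l => hbs _) (fun l => hbr _) (fun l => hbr _) (fun l => hr1 _) (fun l => hr1 _)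
      (fun p q => hbT t ht hnt' _ _ _
        (Finset.mem_union_right _ (Finset.mem_image.2 ⟨(t, p, q), by simp [ht, P], rfl⟩)))
    rw [mul_one] at h'
    exact h'.trans (hMδ.trans (by linarith))

end Vale.Agent.P095.NU
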