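import Vale.Agent.P095.NU.Specs
import Vale.Agent.P095.Compare.Main

/-!
# P095, non-unital: comparison from amplification and absorption
-/

noncomputable section

namespace Vale.Agent.P095.NU

universe u

open Vale.Agent.P101 Vale.Agent.P095.Gamma Vale.Agent.P095.Full Vale.Agent.P095.Relative

/-- Cuts of an element of the ideal stay in the ideal. -/
theorem posCut_mem {B : Type u} [CStarAlgebra B] (K : TestIdeal B) {x : B} (hx : IsSelfAdjoint x)
    (hxK : x ∈ K.carrier) {η : ℝ} (hη : 0 < η) : cfc (posCut η) x ∈ K.carrier := by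
  have hg : Continuous fun t : ℝ => posCut η t * (max η t)⁻¹ :=
    (by unfold posCut; fun_prop : Continuous (posCut η)).mul
      (Continuous.inv₀ (by fun_prop) fun t => (lt_of_lt_of_le hη (le_max_left _ _)).ne')
  have h : cfc (posCut η) x = x * cfc (fun t => posCut η t * (max η t)⁻¹) x := by
    conv_rhs => enter [1]; rw [← cfc_id' ℝ x hx]
    rw [← cfc_mul (fun t : ℝ => t) _ x (by fun_prop) hg.continuousOn]
    refine cfc_congr fun t _ => ?_
    rcases le_total t η with h | h
    · have : posCut η t = 0 := max_eq_right (by linarith)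
      rw [this]; simp
    · rw [max_eq_right h, mul_comm (posCut η t), ← mul_assoc,
        mul_inv_cancel₀ (hη.trans_le h).ne', one_mul]
  rw [h]
  exact K.mul_right _ _ hxK

theorem compare_of (hamp : AmplifyStatement.{u}) (habs : AbsorbStatement.{u}) :
    CompareStatement.{u} := by
  intro B _ _ K hK hsimp hnuc hdd h w w₁ hu b hb hbK hb0 ε hε
  obtain ⟨p, hp, hP⟩ := habs B K hK hsimp hdd w w₁ hu.unit_mem hu.unit_mem₁ hu.unit_mul₁ b hb hbK hb0
  obtain ⟨t, ht, hT⟩ := hamp B K hK hnuc h w w₁ hu (ε / 2) (half_pos hε) p hp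
  refine ⟨t, ht, fun e he hτ => ?_⟩
  obtain ⟨N, Z, hN, hwZ, hZ⟩ := hT e he hτ
  obtain ⟨⟨⟨h₀, hh0⟩, hhn⟩, hhK⟩ := hu.mem
  have hhsa : star h = h := by rw [hh0, star_mul, star_star]
  obtain ⟨⟨e₁, he1⟩, hen⟩ := he
  have ha : IsPosContraction (h * e * h) := by
    refine ⟨⟨e₁ * h, ?_⟩, ?_⟩
    · rw [he1, star_mul, hhsa]
      simp only [mul_assoc]
    · exact (norm_mul_le _ _).trans (mul_le_one₀
        ((norm_mul_le _ _).trans (mul_le_one₀ hhn (norm_nonneg _) hen)) (norm_nonneg _) hhn)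
  have hsa : IsSelfAdjoint (h * e * h) := by
    obtain ⟨⟨y, hy⟩, -⟩ := ha
    exact hy ▸ IsSelfAdjoint.star_mul_self y
  obtain ⟨x, c, hx, hxx⟩ := hP _
    ⟨Compare.isPosContraction_cfc_posCut ha (half_pos hε).le,
      posCut_mem K hsa (K.mul_left _ _ hhK) (half_pos hε)⟩
    N hN Z hwZ hZ (ε / 2) (half_pos hε)
  refine ⟨x, c, hx, ?_⟩
  rw [hxx, Compare.posCut_posCut hsa (half_pos hε).le, add_halves]

end Vale.Agent.P095.NU
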