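import Vale.Agent.P095.Full.Defs
import Vale.Agent.P095.Relative.Algebra

/-!
# P095, all amenable groups, non-unital: definitions

The algebra is a closed ideal `K` of a unital C*-algebra `B`, for instance `A ⊆ A~`.  Statements
about traces use, for `h : B`, the unital algebra generated by `h B h`; no Pedersen ideal and no
unbounded trace is needed.
-/

noncomputable section

namespace Vale.Agent.P095.NU

universe u v

open Vale.Agent.P095.Gamma Vale.Agent.P095.Full Vale.Agent.P095.Relative Filter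

variable {B : Type u} [CStarAlgebra B] (K : TestIdeal B)

/-- `K` is a closed linear subspace, hence a closed two-sided ideal. -/
structure IsClosedIdeal : Prop where
  zero_mem : (0 : B) ∈ K.carrier
  add_mem : ∀ x ∈ K.carrier, ∀ y ∈ K.carrier, x + y ∈ K.carrier
  smul_mem : ∀ (c : ℂ), ∀ x ∈ K.carrier, c • x ∈ K.carrier
  closed : IsClosed K.carrier

/-- The ideal is a simple C*-algebra: a non-zero element generates it as a closed ideal. -/
def IsSimpleRel : Prop :=
  ∀ b ∈ K.carrier, b ≠ 0 → ∀ x ∈ K.carrier, ∀ ε : ℝ, 0 < ε →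
    ∃ (n : ℕ) (c d : Fin n → B), ‖x - ∑ i, c i * b * d i‖ ≤ ε

/-- Completely positive approximation of the identity of the ideal through matrix algebras. -/
def IsNuclearRel : Prop :=
  ∀ (X : Finset B), (∀ x ∈ X, x ∈ K.carrier) → ∀ ε : ℝ, 0 < ε →
    ∃ (n : ℕ) (φ : B →ₗ[ℂ] Matrix (Fin n) (Fin n) ℂ) (ψ : Matrix (Fin n) (Fin n) ℂ →ₗ[ℂ] B),
      IsCPMap φ ∧ IsCPMapMat B ψ ∧ (∀ M, ψ M ∈ K.carrier) ∧ ‖ψ 1‖ ≤ 1 ∧
        ∀ x ∈ X, ‖ψ (φ x) - x‖ ≤ ε

/-- A unital image of the dimension-drop algebra `Z_{2,3}` in the relative central sequences. -/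
def HasRelDrop : Prop :=
  ∃ y v : RelQuot K atTop,
    y * y = 0 ∧ star v * v = 1 - star y * y - y * star y ∧ y * star y * v = v

/-- A positive contraction in the ideal. -/
def InPosBall (a : B) : Prop := IsPosContraction a ∧ a ∈ K.carrier

/-- `h` has the local unit `w`, which has the local unit `w₁`, all in the ideal. -/
structure IsLocUnit (h w w₁ : B) : Prop where
  mem : InPosBall K h
  unit_mem : InPosBall K w
  unit_mem₁ : InPosBall K w₁
  unit_mul : w * h = h
  unit_mul₁ : w₁ * w = w

/-- An approximate unit of positive contractions with local units (as the cut-offs of a strictly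
positive element).  Without local units the local traces would see nothing of a stable algebra. -/
structure IsUnitSeq (u : ℕ → B) : Prop where
  mem : ∀ n, InPosBall K (u n)
  local_unit : ∀ n, ∃ w w₁, IsLocUnit K (u n) w w₁
  tendsto : ∀ k ∈ K.carrier, Tendsto (fun n => ‖u n * k - k‖) atTop (nhds 0)

/-- A state of `B` that does not vanish on the ideal. -/
structure IsRelState (ω : B →ₗ[ℂ] ℂ) : Prop where
  nonneg : ∀ x, ∃ r : ℝ, 0 ≤ r ∧ ω (star x * x) = (r : ℂ)
  map_one : ω 1 = 1
  ne_zero : ∃ k ∈ K.carrier, ω (star k * k) ≠ 0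

/-- A positive contraction almost commuting with `X` and almost of norm one over `u`. -/
def IsRelBump (u : B) (X : Finset B) (θ : ℝ) (P : B) : Prop :=
  IsPosContraction P ∧ 1 - θ ≤ ‖u * P * u‖ ∧ ∀ x ∈ X, ‖x * P - P * x‖ ≤ θ

/-- The unital C*-algebra generated by `h B h`. -/
def locAlg (h : B) : StarSubalgebra ℂ B :=
  (StarAlgebra.adjoin ℂ (Set.range fun x : B => h * x * h)).topologicalClosure

instance locAlg.isClosed (h : B) : IsClosed (locAlg h : Set B) :=
  StarSubalgebra.isClosed_topologicalClosure _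

instance locAlg.instCStarAlgebra (h : B) : CStarAlgebra (locAlg h) := StarSubalgebra.cstarAlgebra _

/-- `h x h` as an element of the algebra generated by `h B h`. -/
def locElem (h x : B) : locAlg h :=
  ⟨h * x * h, StarSubalgebra.le_topologicalClosure _ (StarAlgebra.subset_adjoin ℂ _ ⟨x, rfl⟩)⟩

/-- `h x h` is at most `θ` in all tracial states of the algebra generated by `h B h`. -/
def LocLE (h x : B) (θ : ℝ) : Prop :=
  ∀ τ : locAlg h →ₗ[ℂ] ℂ, IsTrace (locAlg h) τ → (τ (locElem h x)).re ≤ θ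

variable {K} {G : Type v} [Group G] (α : RelAction G K)

/-- `g` moves sufficiently central contractions little, tested against the ideal. -/
def ActsTriviallyRel (g : G) : Prop :=
  ∀ ε : ℝ, 0 < ε → ∀ k ∈ K.carrier, ∃ (X : Finset B) (θ : ℝ), (∀ x ∈ X, x ∈ K.carrier) ∧ 0 < θ ∧
    ∀ z : B, ‖z‖ ≤ 1 → (∀ x ∈ X, ‖x * z - z * x‖ ≤ θ) → ‖(α.hom g z - z) * k‖ ≤ ε

end Vale.Agent.P095.NU
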