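import Vale.Agent.P095.NU.Specs
import Vale.Agent.P095.Full.Excision

/-!
# P095, non-unital: excision inside an ideal

The excised state of `Full/Excision.lean`, built below a first plateau lying in the ideal.
-/

noncomputable section

namespace Vale.Agent.P095.NU

universe u

open Vale.Agent.P095.Full Vale.Agent.P095.Full.Excision Vale.Agent.P095.Relative

attribute [local instance] CStarAlgebra.spectralOrder CStarAlgebra.spectralOrderedRing

variable {B : Type u} [CStarAlgebra B]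

theorem isPos_of_nonneg' {a : B} (ha : 0 ≤ a) : IsPos a :=
  ⟨CFC.sqrt a, by
    rw [(IsSelfAdjoint.of_nonneg (CFC.sqrt_nonneg _)).star_eq, CFC.sqrt_mul_sqrt_self _ ha]⟩

/-- Functions supported away from zero of an element of the ideal stay in the ideal. -/
theorem cfc_up_mem (K : TestIdeal B) {x : B} (hx : 0 ≤ x) (hxK : x ∈ K.carrier) {s w : ℝ}
    (hs : 0 < s) (hw : 0 < w) : cfc (up s w) x ∈ K.carrier := by
  have hg : Continuous fun t : ℝ => up s w t * (max s t)⁻¹ :=
    (continuous_up s w).mul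
      (Continuous.inv₀ (by fun_prop) fun t => (lt_of_lt_of_le hs (le_max_left _ _)).ne')
  have h : cfc (up s w) x = x * cfc (fun t => up s w t * (max s t)⁻¹) x := by
    conv_rhs => enter [1]; rw [← cfc_id' ℝ x (IsSelfAdjoint.of_nonneg hx)]
    rw [← cfc_mul (fun t : ℝ => t) _ x (by fun_prop) hg.continuousOn]
    refine cfc_congr fun t _ => ?_
    rcases le_total t s with h | h
    · simp [up_eq_zero hw h]
    · rw [max_eq_right h, mul_comm (up s w t), ← mul_assoc,
        mul_inv_cancel₀ (hs.trans_le h).ne', one_mul]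
  rw [h]
  exact K.mul_right _ _ hxK

/-- A plateau in a non-zero ideal. -/
theorem exists_pair_mem (K : TestIdeal B) [Nontrivial B] (hK : ∃ k ∈ K.carrier, k ≠ 0) :
    ∃ p : Pair B, p.a ∈ K.carrier := by
  obtain ⟨k, hk, hk0⟩ := hK
  have hn : (0 : ℝ) < ‖k‖ := norm_pos_iff.2 hk0
  set x : B := star ((‖k‖⁻¹ : ℝ) • k) * ((‖k‖⁻¹ : ℝ) • k) with hxdef
  have hx : 0 ≤ x := star_mul_self_nonneg _
  have hx1 : ‖x‖ = 1 := by
    rw [hxdef, CStarRing.norm_star_mul_self, norm_smul, Real.norm_eq_abs,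
      abs_of_pos (inv_pos.2 hn), inv_mul_cancel₀ hn.ne', one_mul]
  have hxK : x ∈ K.carrier := by
    refine K.mul_left _ _ ?_
    rw [← one_mul k, ← smul_mul_assoc]
    exact K.mul_left _ _ hk
  exact ⟨⟨cfc (up (1 / 4) (1 / 4)) x, cfc (up (1 / 2) (1 / 4)) x, cfc_up_nonneg _ _ _,
    norm_cfc_up_le _ _ _, cfc_up_nonneg _ _ _, norm_cfc_up hx hx1 (by norm_num) (by norm_num),
    cfc_up_mul (by norm_num) (by norm_num) (by norm_num)⟩,
    cfc_up_mem K hx hxK (by norm_num) (by norm_num)⟩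

/-- Excision of a state on all of `B` by elements of the ideal. -/
theorem excisionStatement : ExcisionStatement.{u} := by
  intro B _ _ K _ hne
  have : Nontrivial B := by
    obtain ⟨k, -, hk⟩ := hne
    exact ⟨k, 0, hk⟩
  obtain ⟨p₀, hp₀⟩ := exists_pair_mem K hne
  obtain ⟨ω, h1, h2, h3⟩ := exists_excised_state B p₀
  refine ⟨ω, ⟨h1, h2, p₀.a, hp₀, fun h0 => ?_⟩, fun X ε hε => ?_⟩
  · obtain ⟨p, hp, hX⟩ := h3 {star p₀.a * p₀.a} (1 / 2) (by norm_num)
    have hp' : p.a * p₀.a = p.a := by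
      have := congrArg star hp
      rwa [star_mul, Pair.a_star, Pair.a_star] at this
    have h := hX _ (Finset.mem_singleton_self _)
    rw [h0, zero_smul, sub_zero, Pair.a_star, ← mul_assoc, hp', mul_assoc, hp, p.norm_sq] at h
    norm_num at h
  · obtain ⟨p, hp, hX⟩ := h3 X ε hε
    have haK : p.a ∈ K.carrier := hp ▸ K.mul_right _ _ hp₀
    have hcK : p.c ∈ K.carrier := p.mul_eq ▸ K.mul_right _ _ haK
    exact ⟨p.a, p.c, ⟨⟨isPos_of_nonneg' p.a_nonneg, p.a_norm⟩, haK⟩,
      ⟨⟨isPos_of_nonneg' p.c_nonneg, p.c_norm.le⟩, hcK⟩, p.c_norm, p.mul_eq, hX⟩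

end Vale.Agent.P095.NU
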