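import Vale.Agent.P095.NU.Specs
import Vale.Agent.P095.Relative.NonUnital
import Mathlib.Analysis.CStarAlgebra.ContinuousLinearMap

/-!
# P095, all amenable groups, non-unital: the statement for `A`

`IsSimpleC` is simplicity in the usual sense, `IsNuclearC` the completely positive contractive
approximation property through matrix algebras.  They give the hypotheses of `AmenableStatement`
for `A` as an ideal of its unitization.
-/

noncomputable section

namespace Vale.Agent.P095.NU

universe u v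

open Filter Topology Vale.Agent.P101
open Vale.Agent.P095.Gamma Vale.Agent.P095.Full Vale.Agent.P095.Relative
open scoped Matrix.Norms.L2Operator

section Defs

variable (A : Type u) [NonUnitalCStarAlgebra A]

/-- No closed two-sided ideals other than `⊥` and `⊤`. -/
def IsSimpleC : Prop :=
  ∀ I : TwoSidedIdeal A, IsClosed (I : Set A) → I = ⊥ ∨ I = ⊤

/-- Completely positive contractive maps into a matrix algebra: `∑ᵢⱼ bᵢ* φ(aᵢ* aⱼ) bⱼ ≥ 0`. -/
def IsCPCTo {n : ℕ} (φ : A →ₗ[ℂ] Matrix (Fin n) (Fin n) ℂ) : Prop :=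
  (∀ (k : ℕ) (a : Fin k → A) (b : Fin k → Matrix (Fin n) (Fin n) ℂ),
    ∃ w : Matrix (Fin n) (Fin n) ℂ,
      ∑ i, ∑ j, star (b i) * φ (star (a i) * a j) * b j = star w * w) ∧
    ∀ a : A, ‖φ a‖ ≤ ‖a‖

/-- Completely positive contractive maps out of a matrix algebra. -/
def IsCPCFrom {n : ℕ} (ψ : Matrix (Fin n) (Fin n) ℂ →ₗ[ℂ] A) : Prop :=
  (∀ (k : ℕ) (a : Fin k → Matrix (Fin n) (Fin n) ℂ) (b : Fin k → A), ∃ w : A,
    ∑ i, ∑ j, star (b i) * ψ (star (a i) * a j) * b j = star w * w) ∧
    ∀ M, ‖ψ M‖ ≤ ‖M‖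

/-- The completely positive approximation property. -/
def IsNuclearC : Prop :=
  ∀ (X : Finset A) (ε : ℝ), 0 < ε →
    ∃ (n : ℕ) (φ : A →ₗ[ℂ] Matrix (Fin n) (Fin n) ℂ) (ψ : Matrix (Fin n) (Fin n) ℂ →ₗ[ℂ] A),
      IsCPCTo A φ ∧ IsCPCFrom A ψ ∧ ∀ x ∈ X, ‖ψ (φ x) - x‖ ≤ ε

end Defs

variable {A : Type u} [NonUnitalCStarAlgebra A]

theorem isClosedIdeal_testIdeal : IsClosedIdeal (testIdeal A) where
  zero_mem := ⟨0, Unitization.inr_zero ℂ⟩
  add_mem := by
    rintro _ ⟨a, rfl⟩ _ ⟨b, rfl⟩
    exact ⟨a + b, Unitization.inr_add ℂ a b⟩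
  smul_mem := by
    rintro c _ ⟨a, rfl⟩
    exact ⟨c • a, Unitization.inr_smul ℂ c a⟩
  closed := (Unitization.isometry_inr (𝕜 := ℂ) (A := A)).isClosedEmbedding.isClosed_range

/-- Sums of `c * b * d`. -/
def sumsAt (b : Unitization ℂ A) : Set A :=
  {x | ∃ (n : ℕ) (c d : Fin n → Unitization ℂ A),
    ((x : A) : Unitization ℂ A) = ∑ i, c i * b * d i}

theorem isSimpleRel_testIdeal (h : IsSimpleC A) : IsSimpleRel (testIdeal A) := by
  rintro _ ⟨b, rfl⟩ hb _ ⟨x, rfl⟩ ε hε
  set S := sumsAt ((b : A) : Unitization ℂ A)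
  have hadd : ∀ {p q : A}, p ∈ S → q ∈ S → p + q ∈ S := by
    rintro p q ⟨n, c, d, hp⟩ ⟨m, c', d', hq⟩
    exact ⟨n + m, Fin.append c c', Fin.append d d', by
      simp [Fin.sum_univ_add, Unitization.inr_add, hp, hq]⟩
  have hneg : ∀ {p : A}, p ∈ S → -p ∈ S := by
    rintro p ⟨n, c, d, hp⟩
    exact ⟨n, -c, d, by simp [Unitization.inr_neg, hp, neg_mul]⟩
  have hl : ∀ (r : A) {p : A}, p ∈ S → r * p ∈ S := by
    rintro r p ⟨n, c, d, hp⟩
    exact ⟨n, fun i => (r : Unitization ℂ A) * c i, d, by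
      simp [Unitization.inr_mul, hp, Finset.mul_sum, mul_assoc]⟩
  have hr : ∀ (r : A) {p : A}, p ∈ S → p * r ∈ S := by
    rintro r p ⟨n, c, d, hp⟩
    exact ⟨n, c, fun i => d i * (r : Unitization ℂ A), by
      simp [Unitization.inr_mul, hp, Finset.sum_mul, mul_assoc]⟩
  let I : TwoSidedIdeal A := .mk' (closure S)
    (subset_closure ⟨0, Fin.elim0, Fin.elim0, by simp⟩)
    (fun {p q} hp hq => map_mem_closure₂ continuous_add hp hq fun _ h _ h' => hadd h h')
    (fun {p} hp => map_mem_closure continuous_neg hp fun _ h' => hneg h')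
    (fun {p q} hq => map_mem_closure (f := (p * ·)) (by fun_prop) hq fun _ h' => hl p h')
    (fun {p q} hp => map_mem_closure (f := (· * q)) (by fun_prop) hp fun _ h' => hr q h')
  have hI : ∀ z, z ∈ I ↔ z ∈ closure S := fun z => TwoSidedIdeal.mem_mk' ..
  have hbI : b ∈ I := (hI b).2 (subset_closure ⟨1, 1, 1, by simp⟩)
  have htop : I = ⊤ := by
    refine (h I ?_).resolve_left fun hbot => hb ?_
    · rw [show (I : Set A) = closure S from Set.ext hI]
      exact isClosed_closure
    · have : b = 0 := by simpa [hbot, TwoSidedIdeal.mem_bot] using hbI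
      simp [this]
  obtain ⟨p, ⟨n, c, d, hp⟩, hxp⟩ := Metric.mem_closure_iff.1
    ((hI x).1 (htop ▸ trivial)) ε hε
  refine ⟨n, c, d, ?_⟩
  rw [← hp, ← Unitization.inr_sub, Unitization.norm_inr, ← dist_eq_norm]
  exact hxp.le

section Nuclear

attribute [local instance] CStarAlgebra.spectralOrder CStarAlgebra.spectralOrderedRing

/-- The embedding in the unitization, as a linear map. -/
def inrLin : A →ₗ[ℂ] Unitization ℂ A where
  toFun a := (a : Unitization ℂ A)
  map_add' := Unitization.inr_add ℂ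
  map_smul' := Unitization.inr_smul ℂ

/-- The unital extension of a map into a matrix algebra. -/
def unitExt {n : ℕ} (φ : A →ₗ[ℂ] Matrix (Fin n) (Fin n) ℂ) :
    (Unitization ℂ A) →ₗ[ℂ] Matrix (Fin n) (Fin n) ℂ where
  toFun x := x.fst • 1 + φ x.snd
  map_add' x y := by simp [add_smul, map_add]; abel
  map_smul' c x := by simp [smul_smul, smul_add, map_smul]

theorem star_mul_self_eq_iff {B : Type u} [CStarAlgebra B] (z : B) :
    (∃ w, z = star w * w) ↔ 0 ≤ z :=
  ⟨fun ⟨_, h⟩ => h ▸ star_mul_self_nonneg _, fun h =>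
    CStarAlgebra.nonneg_iff_eq_star_mul_self.1 h⟩

/-- Conjugation by a linear combination. -/
theorem conj_linearComb {R : Type*} [Ring R] [StarRing R] [Algebra ℂ R] [StarModule ℂ R] {k : ℕ}
    (l : Fin k → ℂ) (b : Fin k → R) (M : R) :
    star (∑ i, l i • b i) * M * (∑ j, l j • b j) =
      ∑ i, ∑ j, star (b i) * ((star (l i) * l j) • M) * b j := by
  simp only [star_sum, Finset.sum_mul, Finset.mul_sum, star_smul]
  rw [Finset.sum_comm]
  refine Finset.sum_congr rfl fun i _ => Finset.sum_congr rfl fun j _ => ?_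
  simp only [smul_mul_assoc, mul_smul_comm, smul_smul]
  rw [mul_comm (l j)]

/-- The unital extension of a completely positive contraction is completely positive. -/
theorem isCPMap_unitExt [TopologicalSpace.SeparableSpace A] {n : ℕ}
    {φ : A →ₗ[ℂ] Matrix (Fin n) (Fin n) ℂ} (hφ : IsCPCTo A φ) : IsCPMap (unitExt φ) := by
  intro k a b
  obtain ⟨e, he, hes, hu⟩ := exists_unitSeq (A := A)
  let q : ℕ → Fin k → A := fun m i => (a i).fst • e m + e m * (a i).snd
  let E : ℕ → A := fun m => star (e m) * e m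
  set B0 : Matrix (Fin n) (Fin n) ℂ := ∑ i, (a i).fst • b i with hB0
  let T : ℕ → Matrix (Fin n) (Fin n) ℂ := fun m =>
    (∑ i, ∑ j, star (b i) * φ (star (q m i) * q m j) * b j) + star B0 * (1 - φ (E m)) * B0
  have hφc : Continuous φ :=
    AddMonoidHomClass.continuous_of_bound φ 1 fun x => by simpa using hφ.2 x
  have hφE : ∀ m, 0 ≤ φ (E m) := fun m => by
    obtain ⟨w, hw⟩ := hφ.1 1 (fun _ => e m) (fun _ => 1)
    exact (star_mul_self_eq_iff _).1 ⟨w, by simpa [E] using hw⟩
  have hT : ∀ m, 0 ≤ T m := fun m => by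
    refine add_nonneg ((star_mul_self_eq_iff _).1 (hφ.1 k (q m) b)) ?_
    refine star_left_conjugate_nonneg (sub_nonneg.2 ?_) _
    refine CStarAlgebra.norm_le_one_iff_of_nonneg _ (hφE m) |>.1 ((hφ.2 _).trans ?_)
    calc ‖star (e m) * e m‖ ≤ ‖star (e m)‖ * ‖e m‖ := norm_mul_le _ _
      _ ≤ 1 * 1 := by rw [norm_star]; exact mul_le_mul (he m) (he m) (norm_nonneg _) zero_le_one
      _ = 1 := one_mul 1
  have hl : ∀ z : A, Tendsto (fun m => e m * z) atTop (𝓝 z) := fun z =>
    tendsto_iff_norm_sub_tendsto_zero.2 (hu z).1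
  have hr : ∀ z : A, Tendsto (fun m => z * e m) atTop (𝓝 z) := fun z =>
    tendsto_iff_norm_sub_tendsto_zero.2 (hu z).2
  have h2l : ∀ z : A, Tendsto (fun m => E m * z) atTop (𝓝 z) := fun z => by
    rw [tendsto_iff_norm_sub_tendsto_zero]
    refine squeeze_zero (fun m => norm_nonneg _) (fun m => ?_)
      (by simpa using (hu z).1.add (hu z).1)
    have h1 : E m * z - z = e m * (e m * z - z) + (e m * z - z) := by
      simp [E, hes m, mul_sub, mul_assoc]
    rw [h1]
    exact (norm_add_le _ _).trans (add_le_add ((norm_mul_le _ _).trans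
      (mul_le_of_le_one_left (norm_nonneg _) (he m))) le_rfl)
  have h2r : ∀ z : A, Tendsto (fun m => z * E m) atTop (𝓝 z) := fun z => by
    have h := (h2l (star z)).star
    simp only [star_mul, star_star] at h
    exact h.congr fun m => by simp [E]
  set lim : Matrix (Fin n) (Fin n) ℂ :=
    ∑ i, ∑ j, star (b i) * unitExt φ (star (a i) * a j) * b j
  have hlim : Tendsto T atTop (𝓝 lim) := by
    let l : Fin k → ℂ := fun i => (a i).fst
    let z : Fin k → A := fun i => (a i).snd
    have hTm : ∀ m, T m = star B0 * B0 + ∑ i, ∑ j, star (b i) *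
        φ (star (l i) • (E m * z j) + l j • (star (z i) * E m) + star (z i) * E m * z j) * b j := by
      intro m
      have hBB : ∀ M : Matrix (Fin n) (Fin n) ℂ, star B0 * M * B0 =
          ∑ i, ∑ j, star (b i) * ((star (l i) * l j) • M) * b j := fun M => by
        rw [hB0]; exact conj_linearComb l b M
      simp only [T, mul_sub, sub_mul, mul_one, hBB (φ (E m))]
      rw [← add_sub_assoc, add_sub_right_comm, ← Finset.sum_sub_distrib, add_comm]
      congr 1
      refine Finset.sum_congr rfl fun i _ => ?_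
      rw [← Finset.sum_sub_distrib]
      refine Finset.sum_congr rfl fun j _ => ?_
      rw [← mul_sub_right_distrib, ← mul_sub]
      congr 2
      rw [← map_smul φ, ← map_sub]
      congr 1
      simp only [q, E, l, z, star_add, star_smul, star_mul, add_mul, mul_add, smul_mul_assoc,
        mul_smul_comm, mul_assoc]
      module
    have hlim' : lim = star B0 * B0 + ∑ i, ∑ j, star (b i) *
        φ (star (l i) • z j + l j • star (z i) + star (z i) * z j) * b j := by
      have h1 : star B0 * B0 = ∑ i, ∑ j,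
          star (b i) * ((star (l i) * l j) • (1 : Matrix (Fin n) (Fin n) ℂ)) * b j := by
        rw [hB0, ← conj_linearComb l b 1, mul_one]
      rw [h1, ← Finset.sum_add_distrib]
      refine Finset.sum_congr rfl fun i _ => ?_
      rw [← Finset.sum_add_distrib]
      refine Finset.sum_congr rfl fun j _ => ?_
      rw [← add_mul, ← mul_add]
      simp [unitExt, l, z, Unitization.fst_mul, Unitization.snd_mul]
    rw [hlim']
    refine (Tendsto.congr (fun m => (hTm m).symm) ?_)
    refine tendsto_const_nhds.add (tendsto_finsetSum _ fun i _ => tendsto_finsetSum _ fun j _ => ?_)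
    refine ((tendsto_const_nhds.mul ((hφc.tendsto _).comp ?_)).mul tendsto_const_nhds)
    exact (((h2l (z j)).const_smul _).add ((h2r (star (z i))).const_smul _)).add
      ((h2r (star (z i))).mul tendsto_const_nhds)
  exact ((star_mul_self_eq_iff _).2 (CStarAlgebra.isClosed_nonneg.mem_of_tendsto hlim
    (Eventually.of_forall hT)))

theorem isNuclearRel_testIdeal [TopologicalSpace.SeparableSpace A] (h : IsNuclearC A) :
    IsNuclearRel (testIdeal A) := by
  classical
  intro X hX ε hε
  obtain ⟨n, φ, ψ, hφ, hψ, happ⟩ := h (X.image fun x => x.snd) ε hε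
  obtain ⟨e, he, hes, hu⟩ := exists_unitSeq (A := A)
  refine ⟨n, unitExt φ, (inrLin (A := A)).comp ψ,
    isCPMap_unitExt hφ, fun k a b => ?_, fun M => ⟨ψ M, rfl⟩, ?_, fun x hx => ?_⟩
  · let T : ℕ → (Unitization ℂ A) := fun m => ∑ i, ∑ j, star ((e m : Unitization ℂ A) * b i) *
      ((ψ (star (a i) * a j) : A) : Unitization ℂ A) * ((e m : Unitization ℂ A) * b j)
    have hmem : ∀ m i, ∃ c : A, ((c : A) : Unitization ℂ A) = (e m : Unitization ℂ A) * b i := fun m i =>
      ⟨((e m : Unitization ℂ A) * b i).snd, fst_zero_eq (by simp)⟩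
    have hT : ∀ m, 0 ≤ T m := fun m => by
      choose c hc using hmem m
      obtain ⟨w, hw⟩ := hψ.1 k a c
      refine (star_mul_self_eq_iff _).1 ⟨(w : Unitization ℂ A), ?_⟩
      rw [← Unitization.inr_star, ← Unitization.inr_mul, ← hw]
      have hs : ∀ (s : Finset (Fin k)) (f : Fin k → A), (((∑ i ∈ s, f i) : A) : Unitization ℂ A) = ∑ i ∈ s, (f i : Unitization ℂ A) :=
        fun s f => map_sum (Unitization.inrNonUnitalStarAlgHom ℂ A) f s
      simp only [hs, Unitization.inr_mul, Unitization.inr_star, hc, T]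
    refine (star_mul_self_eq_iff _).2 ?_
    suffices h : (∑ i, ∑ j, star (b i) * inrLin (ψ (star (a i) * a j)) * b j) ∈ {z : (Unitization ℂ A) | 0 ≤ z}
      from h
    refine CStarAlgebra.isClosed_nonneg.mem_of_tendsto (f := T) (b := atTop) ?_
      (Eventually.of_forall hT)
    refine tendsto_finsetSum _ fun i _ => tendsto_finsetSum _ fun j _ => ?_
    have e1 : ∀ m, star ((e m : Unitization ℂ A) * b i) * ((ψ (star (a i) * a j) : A) : Unitization ℂ A) *
        ((e m : Unitization ℂ A) * b j) = star (b i) * ((e m * ψ (star (a i) * a j) * e m : A) : Unitization ℂ A) * b j :=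
      fun m => by
        rw [star_mul, ← Unitization.inr_star, hes m, Unitization.inr_mul, Unitization.inr_mul]
        simp only [mul_assoc]
    simp only [e1]
    refine (tendsto_const_nhds.mul ((Unitization.isometry_inr.continuous.tendsto _).comp ?_)).mul
      tendsto_const_nhds
    rw [tendsto_iff_norm_sub_tendsto_zero]
    set z := ψ (star (a i) * a j)
    refine squeeze_zero (fun m => norm_nonneg _) (fun m => ?_)
      (by simpa using (hu z).1.add (hu z).2)
    rw [show e m * z * e m - z = (e m * z - z) * e m + (z * e m - z) by rw [sub_mul]; abel]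
    exact (norm_add_le _ _).trans (add_le_add ((norm_mul_le _ _).trans
      (mul_le_of_le_one_right (norm_nonneg _) (he m))) le_rfl)
  · show ‖((ψ 1 : A) : Unitization ℂ A)‖ ≤ 1
    rw [Unitization.norm_inr]
    refine (hψ.2 1).trans ?_
    rcases subsingleton_or_nontrivial (Matrix (Fin n) (Fin n) ℂ) with hs | hs
    · simp [Subsingleton.elim (1 : Matrix (Fin n) (Fin n) ℂ) 0]
    · exact norm_one.le
  · obtain ⟨c, rfl⟩ := hX x hx
    show ‖((ψ (unitExt φ (c : Unitization ℂ A)) : A) : Unitization ℂ A) - (c : Unitization ℂ A)‖ ≤ ε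
    rw [← Unitization.inr_sub, Unitization.norm_inr]
    simpa [unitExt] using happ c (Finset.mem_image.2 ⟨(c : Unitization ℂ A), hx, Unitization.snd_inr _ _⟩)

end Nuclear

/-- The trivial action. -/
def trivAct {B : Type u} [CStarAlgebra B] (K : TestIdeal B) : RelAction PUnit.{v+1} K where
  hom _ := StarAlgHom.id ℂ B
  hom_one _ := rfl
  hom_mul _ _ _ := rfl
  mem _ _ h := h

theorem hasRelDrop_testIdeal [TopologicalSpace.SeparableSpace A]
    (h : ∃ φ, IsDropHomMod A φ) : HasRelDrop (testIdeal A) := by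
  obtain ⟨φ, hφ⟩ := h
  obtain ⟨Φ⟩ := hom_of_mod (α := (1 : PUnit.{1} →* (A ≃⋆ₐ[ℂ] A))) (H := ⊤) hφ
    fun g _ f _ a => by simp
  let K := testIdeal A
  let β := unitAct (1 : PUnit.{1} →* (A ≃⋆ₐ[ℂ] A))
  have hN : IsEmpty (β.fixed atTop (⊤ : Subgroup PUnit.{1}) →⋆ₐ[ℂ] ℂ) := ⟨fun χ => by
    have hx : ∀ i, χ.comp Φ (dropGens i) = 0 := fun i => by
      have := congrArg (χ.comp Φ) (dropGens_sq i)
      rw [map_mul, map_zero] at this
      exact mul_self_eq_zero.1 this
    have h1 := congrArg (χ.comp Φ) dropInv_mul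
    rw [map_one, map_mul, map_sum] at h1
    simp only [map_mul, hx, mul_zero, Finset.sum_const_zero] at h1
    exact zero_ne_one h1⟩
  obtain ⟨y, v, -, -, h1, h2, h3⟩ :=
    exists_gens β (⊤ : Subgroup PUnit.{1}) (fun s => Set.toFinite _) hN
  exact ⟨y, v, h1, h2, h3⟩

/-- **Equivariant Jiang–Su stability for amenable groups**, from the relative statement: for every
separable simple nuclear C*-algebra, unital or not. -/
theorem invariant_mod_of (hmain : AmenableStatement.{u, v}) [TopologicalSpace.SeparableSpace A]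
    (hs : IsSimpleC A) (hn : IsNuclearC A) (hd : ∃ φ, IsDropHomMod A φ)
    {G : Type v} [Group G] [Countable G] [DecidableEq G] (hF : IsFolnerGroup G)
    (α : G →* (A ≃⋆ₐ[ℂ] A)) : ∃ φ, IsInvariantDropHomMod α φ := by
  obtain ⟨y, v, hy, hv, h1, h2, h3⟩ :=
    hmain (Unitization ℂ A) (testIdeal A) isClosedIdeal_testIdeal (isSimpleRel_testIdeal hs)
      (isNuclearRel_testIdeal hn) (hasRelDrop_testIdeal hd) G hF (unitAct α)
  let F := (unitAct α).fixed atTop (⊤ : Subgroup G)
  let _ : PartialOrder F := CStarAlgebra.spectralOrder F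
  let _ : StarOrderedRing F := CStarAlgebra.spectralOrderedRing F
  obtain ⟨T, X, M, M', d⟩ := exists_dropData (B := F)
    ⟨y, (unitAct α).mem_fixed.2 fun g _ => hy g⟩ ⟨v, (unitAct α).mem_fixed.2 fun g _ => hv g⟩
    (Subtype.ext h1) (Subtype.ext (by simpa using h2)) (Subtype.ext h3)
  obtain ⟨Φ⟩ := d.exists_hom
  exact mod_of_hom (Φ.comp (StarSubalgebra.inclusion dropAlg23_le))

end Vale.Agent.P095.NU
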