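import Vale.Agent.P095.NU.Excision
import Vale.Agent.P095.Full.Glimm

/-!
# P095, all amenable groups, non-unital: nuclearity factors through any relative state

As `Full/Glimm.lean`: the separation only ever tests positive elements of the simple ideal, the
columns lie in the ideal by heredity, and the compressed vectors are cut by a local unit.
-/

noncomputable section

namespace Vale.Agent.P095.NU

open Finset Vale.Agent.P095.Gamma Vale.Agent.P095.Full Vale.Agent.P095.Relative
open Vale.Agent.P095.Full.Excision Vale.Agent.P095.Full.Glimm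

universe u

namespace GlimmRel

attribute [local instance] CStarAlgebra.spectralOrder CStarAlgebra.spectralOrderedRing

variable {B : Type u} [CStarAlgebra B] {K : TestIdeal B}

/-- A closed ideal as a subspace. -/
def idealSubmodule (hK : IsClosedIdeal K) : Submodule ℂ B where
  carrier := K.carrier
  zero_mem' := hK.zero_mem
  add_mem' hx hy := hK.add_mem _ hx _ hy
  smul_mem' c _ hx := hK.smul_mem c _ hx

/-- A local unit for everything below a positive element of the ideal. -/
theorem exists_unit_le {p : B} (hp : 0 ≤ p) (hpK : p ∈ K.carrier) {γ : ℝ} (hγ : 0 < γ) :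
    ∃ g : B, g ∈ K.carrier ∧ star g = g ∧ ‖g‖ ≤ 1 ∧
      ∀ c : B, star c * c ≤ p → ‖c - c * g‖ ≤ γ := by
  set δ : ℝ := γ ^ 2 / 2 with hδ
  have hδ0 : 0 < δ := by positivity
  set g := cfc (up δ δ) p
  refine ⟨g, cfc_up_mem K hp hpK hδ0 hδ0, cfc_up_star _ _ _, norm_cfc_up_le _ _ _, fun c hc => ?_⟩
  have hu : Continuous (up δ δ) := continuous_up _ _
  have hs : IsSelfAdjoint p := IsSelfAdjoint.of_nonneg hp
  have hG : cfc (fun t => 1 - up δ δ t) p = 1 - g := by
    rw [cfc_sub (fun _ : ℝ => (1 : ℝ)) (up δ δ) p (by fun_prop) hu.continuousOn,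
      cfc_const_one ℝ p hs]
  have hGs : star (1 - g) = 1 - g := by rw [star_sub, star_one, cfc_up_star]
  have hG0 : 0 ≤ 1 - g := hG ▸ cfc_nonneg fun t _ => sub_nonneg.2 (up_le_one _ _ _)
  have hb : ‖(1 - g) * p * (1 - g)‖ ≤ γ ^ 2 := by
    have e : (1 - g) * p * (1 - g) = cfc (fun t => (1 - up δ δ t) * t * (1 - up δ δ t)) p := by
      rw [cfc_mul (fun t => (1 - up δ δ t) * t) _ p (by fun_prop) (by fun_prop),
        cfc_mul (fun t => 1 - up δ δ t) (fun t => t) p (by fun_prop) (by fun_prop),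
        cfc_id' ℝ p hs, hG]
    rw [e]
    refine norm_cfc_le (sq_nonneg γ) fun t ht => ?_
    have ht0 : 0 ≤ t := spectrum_nonneg_of_nonneg hp ht
    rcases le_total (δ + δ) t with h | h
    · simp [up_eq_one hδ0 h, sq_nonneg γ]
    · have h0 := up_nonneg δ δ t
      have h1 := up_le_one δ δ t
      rw [Real.norm_eq_abs, abs_of_nonneg
        (mul_nonneg (mul_nonneg (sub_nonneg.2 h1) ht0) (sub_nonneg.2 h1))]
      calc (1 - up δ δ t) * t * (1 - up δ δ t) ≤ 1 * t * 1 :=
            mul_le_mul (mul_le_mul_of_nonneg_right (by linarith) ht0) (by linarith) (by linarith)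
              (by linarith)
        _ ≤ γ ^ 2 := by rw [hδ] at h; linarith
  have e2 : c - c * g = c * (1 - g) := by rw [mul_sub, mul_one]
  have h2 : ‖c - c * g‖ ^ 2 ≤ γ ^ 2 := by
    rw [e2, sq, ← CStarRing.norm_star_mul_self, star_mul, hGs]
    refine le_trans ?_ hb
    refine CStarAlgebra.norm_le_norm_of_nonneg_of_le ?_ ?_
    · have := star_mul_self_nonneg (c * (1 - g))
      rwa [star_mul, hGs] at this
    · rw [show (1 - g) * star c * (c * (1 - g)) = (1 - g) * (star c * c) * (1 - g) by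
        simp only [mul_assoc]]
      exact conjugate_le_conjugate_of_nonneg hc hG0
  exact le_of_pow_le_pow_left₀ two_ne_zero hγ.le h2

/-- A closed ideal is hereditary. -/
theorem mem_of_star_mul_le (hK : IsClosedIdeal K) {c p : B} (hp : 0 ≤ p) (hpK : p ∈ K.carrier)
    (h : star c * c ≤ p) : c ∈ K.carrier := by
  refine hK.closed.closure_subset (Metric.mem_closure_iff.2 fun ε hε => ?_)
  obtain ⟨g, hg, -, -, hc⟩ := exists_unit_le hp hpK (half_pos hε)
  refine ⟨c * g, K.mul_left _ _ hg, ?_⟩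
  rw [dist_eq_norm]
  linarith [hc c h]

theorem exists_bound {ω : B →ₗ[ℂ] ℂ} (hpos : ∀ x, ∃ r : ℝ, 0 ≤ r ∧ ω (star x * x) = (r : ℂ)) :
    ∃ C : ℝ, 0 ≤ C ∧ ∀ a, ‖ω a‖ ≤ C * ‖a‖ := by
  open scoped ComplexOrder in
  obtain ⟨C, hC⟩ := PositiveLinearMap.exists_norm_apply_le
    (PositiveLinearMap.mk₀ ω fun x hx => by
      obtain ⟨w, rfl⟩ := CStarAlgebra.nonneg_iff_eq_star_mul_self.1 hx
      obtain ⟨r, hr, he⟩ := hpos w
      rw [he]
      exact_mod_cast hr)
  exact ⟨C, C.coe_nonneg, hC⟩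

/-- In a simple ideal a positive element killed by all compressions of a relative state is zero. -/
theorem eq_zero_of_compressions_rel (hs : IsSimpleRel K) {ω : B →ₗ[ℂ] ℂ} (hω : IsRelState K ω)
    {z : B} (hz : 0 ≤ z) (hzK : z ∈ K.carrier) (h : ∀ b, (ω (star b * z * b)).re ≤ 0) : z = 0 := by
  by_contra hne
  obtain ⟨k, hk, hk0⟩ := hω.ne_zero
  obtain ⟨C, hC0, hC⟩ := exists_bound hω.nonneg
  let w := CFC.sqrt z
  have hw : star w = w := (IsSelfAdjoint.of_nonneg (CFC.sqrt_nonneg z)).star_eq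
  have hww : w * w = z := CFC.sqrt_mul_sqrt_self z hz
  have hzero : ∀ b, ω (star (w * b) * (w * b)) = 0 := by
    intro b
    obtain ⟨r, hr, he⟩ := hω.nonneg (w * b)
    have := h b
    rw [← hww, show star b * (w * w) * b = star (w * b) * (w * b) by
      rw [star_mul, hw]; noncomm_ring, he] at this
    rw [he, le_antisymm (by simpa using this) hr, Complex.ofReal_zero]
  apply hk0
  rw [← norm_eq_zero]
  refine le_antisymm (le_of_forall_pos_le_add fun ε hε => ?_) (norm_nonneg _)
  obtain ⟨n, c, d, hcd⟩ := hs z hzK hne _ (K.mul_left (star k) _ hk) (ε / (C + 1)) (by positivity)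
  have h0 : ω (∑ i, c i * z * d i) = 0 := by
    rw [map_sum]
    refine sum_eq_zero fun i _ => ?_
    rw [show c i * z * d i = star (w * star (c i)) * (w * d i) by
      rw [star_mul, hw, star_star, ← hww]; noncomm_ring]
    exact eq_zero_of_null hω.nonneg (hzero _) _
  have h1 := hC (star k * k - ∑ i, c i * z * d i)
  rw [map_sub, h0, sub_zero] at h1
  rw [zero_add]
  refine h1.trans ((mul_le_mul_of_nonneg_left hcd hC0).trans ?_)
  rw [← mul_div_assoc, div_le_iff₀ (by positivity)]
  nlinarith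

variable {n : ℕ} (hK : IsClosedIdeal K) (hs : IsSimpleRel K) {ω : B →ₗ[ℂ] ℂ}
  (hω : IsRelState K ω)
include hK hs hω

/-- A functional given by a completely positive map is nonnegative on matrices over the ideal
whose compressions by `ω` are. -/
theorem eval_nonneg_rel (φ : B →ₗ[ℂ] Matrix (Fin n) (Fin n) ℂ) (hφ : IsCPMap φ)
    (Z : Fin n → Fin n → B) (hZ : ∀ i j, Z i j ∈ K.carrier)
    (hu : ∀ d : Fin n → B, 0 ≤ (∑ i, ∑ j, ω (star (d i) * Z i j * d j)).re) :
    0 ≤ (∑ i, ∑ j, φ (Z i j) i j).re := by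
  have hpos := hω.nonneg
  let Y : CStarMatrix (Fin n) (Fin n) B :=
    CStarMatrix.ofMatrix fun i j => (1 / 2 : ℂ) • (Z i j + star (Z j i))
  have hYij : ∀ i j, Y i j = (1 / 2 : ℂ) • (Z i j + star (Z j i)) := fun i j => rfl
  have hYK : ∀ i j, Y i j ∈ K.carrier := fun i j => by
    rw [hYij]
    exact hK.smul_mem _ _ (hK.add_mem _ (hZ i j) _ (K.star_mem _ (hZ j i)))
  have hY : IsSelfAdjoint Y := by
    ext i j
    simp [CStarMatrix.star_apply, hYij, star_smul, add_comm]
  have hforms : ∀ d : Fin n → B, 0 ≤ (∑ i, ∑ j, ω (star (d i) * Y i j * d j)).re := by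
    intro d
    have hstar : ∑ i, ∑ j, ω (star (d i) * star (Z j i) * d j) =
        star (∑ i, ∑ j, ω (star (d i) * Z i j * d j)) := by
      rw [star_sum, sum_comm]
      refine sum_congr rfl fun i _ => ?_
      rw [star_sum]
      refine sum_congr rfl fun j _ => ?_
      rw [← Glimm.map_star hpos]
      congr 1
      simp [mul_assoc]
    have e : ∑ i, ∑ j, ω (star (d i) * Y i j * d j) = (1 / 2 : ℂ) *
        (∑ i, ∑ j, ω (star (d i) * Z i j * d j) +
          ∑ i, ∑ j, ω (star (d i) * star (Z j i) * d j)) := by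
      simp [hYij, mul_add, add_mul, sum_add_distrib, mul_sum]
    rw [e, hstar]
    simpa [Complex.mul_re] using hu d
  have hY0 : 0 ≤ Y := nonneg_of_forms Y hY fun N k z hz e => by
    have hzK : z ∈ K.carrier := by
      have hm : -z ∈ idealSubmodule hK := by
        rw [← e, form_apply]
        exact sum_mem fun i _ => sum_mem fun j _ => K.mul_right _ _ (K.mul_left _ _ (hYK i j))
      show z ∈ idealSubmodule hK
      simpa using neg_mem hm
    refine eq_zero_of_compressions_rel hs hω hz hzK fun b => ?_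
    have := hforms fun i => N i k * b
    have e2 : ∑ i, ∑ j, ω (star (N i k * b) * Y i j * (N j k * b)) =
        ω (star b * (-z) * b) := by
      rw [← e, form_apply, mul_sum, sum_mul, map_sum]
      refine sum_congr rfl fun i _ => ?_
      rw [mul_sum, sum_mul, map_sum]
      exact sum_congr rfl fun j _ => by simp [mul_assoc]
    rw [e2] at this
    simpa using this
  obtain ⟨C, hC⟩ := exists_sqrt_columns hY0
  have hnn : 0 ≤ (∑ i, ∑ j, φ (Y i j) i j).re := by
    have e : ∑ i, ∑ j, φ (Y i j) i j = ∑ k, ∑ i, ∑ j, φ (star (C k i) * C k j) i j := by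
      simp only [hC, map_sum, Matrix.sum_apply]
      exact (sum_congr rfl fun i _ => sum_comm).trans sum_comm
    rw [e, Complex.re_sum]
    exact sum_nonneg fun k _ => functional_nonneg φ hφ (C k)
  have hstarφ : ∑ i, ∑ j, φ (star (Z j i)) i j = star (∑ i, ∑ j, φ (Z i j) i j) := by
    rw [star_sum, sum_comm]
    refine sum_congr rfl fun i _ => ?_
    rw [star_sum]
    exact sum_congr rfl fun j _ => by rw [cp_map_star φ hφ]; rfl
  have eY : ∑ i, ∑ j, φ (Y i j) i j = (1 / 2 : ℂ) *
      (∑ i, ∑ j, φ (Z i j) i j + ∑ i, ∑ j, φ (star (Z j i)) i j) := by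
    simp [hYij, mul_add, sum_add_distrib, mul_sum]
  rw [eY, hstarφ] at hnn
  simpa [Complex.mul_re] using hnn

/-- Positive functionals on `M_n(B)` are limits, on finite subsets of the ideal, of sums of
compressions of `ω`. -/
theorem mem_closure_cone_rel (φ : B →ₗ[ℂ] Matrix (Fin n) (Fin n) ℂ) (hφ : IsCPMap φ)
    (X : Finset B) (hX : ∀ x ∈ X, x ∈ K.carrier) :
    (fun p : X × Fin n × Fin n => φ p.1 p.2.1 p.2.2) ∈
      closure {u | ∃ (L : ℕ) (d : Fin L → Fin n → B), u = fun p : X × Fin n × Fin n =>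
        ∑ l, ω (star (d l p.2.1) * (p.1 : B) * d l p.2.2)} := by
  classical
  set V : Set (X × Fin n × Fin n → ℂ) := {u | ∃ (L : ℕ) (d : Fin L → Fin n → B),
    u = fun p : X × Fin n × Fin n => ∑ l, ω (star (d l p.2.1) * (p.1 : B) * d l p.2.2)}
  have hsmul : ∀ u ∈ V, ∀ t : ℝ, 0 ≤ t → t • u ∈ V := by
    rintro _ ⟨L, d, rfl⟩ t ht
    refine ⟨L, fun l i => (Real.sqrt t : ℂ) • d l i, funext fun p => ?_⟩
    simp [star_smul, smul_smul, mul_sum, Real.mul_self_sqrt ht]
  have hadd : ∀ u ∈ V, ∀ v ∈ V, u + v ∈ V := by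
    rintro _ ⟨L, d, rfl⟩ _ ⟨M, e, rfl⟩
    exact ⟨L + M, Fin.append d e, funext fun p => by simp [Fin.sum_univ_add]⟩
  have h0 : (0 : X × Fin n × Fin n → ℂ) ∈ V := ⟨0, finZeroElim, funext fun p => by simp⟩
  have hconv : Convex ℝ V := fun u hu v hv s t hs ht _ =>
    hadd _ (hsmul u hu s hs) _ (hsmul v hv t ht)
  by_contra hv
  obtain ⟨f, c, hfv, hfK⟩ := geometric_hahn_banach_point_closed hconv.closure isClosed_closure hv
  have hc : c < 0 := by simpa using hfK 0 (subset_closure h0)
  have hfnn : ∀ u ∈ V, 0 ≤ f u := by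
    intro u hu
    by_contra hlt
    rw [not_le] at hlt
    have := hfK _ (subset_closure (hsmul u hu (c / f u) (div_nonneg_of_nonpos hc.le hlt.le)))
    rw [map_smul, smul_eq_mul, div_mul_cancel₀ _ hlt.ne] at this
    exact lt_irrefl _ this
  obtain ⟨y, hf⟩ := dual_repr f
  let Z : Fin n → Fin n → B := fun i j => ∑ x : X, y (x, i, j) • (x : B)
  have hZ : ∀ i j, Z i j ∈ idealSubmodule hK := fun i j =>
    sum_mem fun x _ => Submodule.smul_mem _ _ (hX _ x.2)
  have hg : ∀ g : Fin n → Fin n → B →ₗ[ℂ] ℂ,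
      ∑ p : X × Fin n × Fin n, y p * g p.2.1 p.2.2 p.1 = ∑ i, ∑ j, g i j (Z i j) := fun g => by
    rw [Fintype.sum_prod_type, sum_comm]
    simp only [Z, Fintype.sum_prod_type, map_sum, map_smul, smul_eq_mul]
  have hφ0 : 0 ≤ (∑ i, ∑ j, φ (Z i j) i j).re := eval_nonneg_rel hK hs hω φ hφ Z hZ fun d => by
    have hu := hfnn _ ⟨1, fun _ => d, rfl⟩
    rw [hf] at hu
    simp only [univ_unique, sum_singleton] at hu
    have := hg fun i j => ω ∘ₗ LinearMap.mulLeftRight ℂ (star (d i), d j)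
    simp only [LinearMap.comp_apply, LinearMap.mulLeftRight_apply] at this
    rwa [this] at hu
  have := hg fun i j => Matrix.entryLinearMap ℂ ℂ i j ∘ₗ φ
  simp only [LinearMap.comp_apply, Matrix.entryLinearMap_apply] at this
  rw [hf, this] at hfv
  linarith

end GlimmRel

open GlimmRel in
attribute [local instance] CStarAlgebra.spectralOrder CStarAlgebra.spectralOrderedRing in
/-- Nuclearity factors through any state not vanishing on the simple ideal. -/
theorem glimmStatement : NU.GlimmStatement.{u} := by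
  intro B _ K hK hs hN ω hω X hXK ε hε
  classical
  obtain ⟨n, φ, ψ, hφ, hψ, hψK, -, happ⟩ := hN X hXK (ε / 3) (by linarith)
  obtain ⟨C, hC⟩ := exists_columns ψ hψ
  have hCK : ∀ k i, C k i ∈ K.carrier := fun k i =>
    mem_of_star_mul_le hK (p := ψ (Matrix.single i i 1))
      (hC i i ▸ sum_nonneg fun l _ => star_mul_self_nonneg _) (hψK _)
      (hC i i ▸ single_le_sum (f := fun l => star (C l i) * C l i)
        (fun l _ => star_mul_self_nonneg _) (mem_univ k))
  set M : ℝ := ∑ i, ∑ j, ‖ψ (Matrix.single i j 1)‖ with hM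
  have hM0 : 0 ≤ M := by positivity
  obtain ⟨u, ⟨L, d, rfl⟩, hu⟩ := Metric.mem_closure_iff.1
    (mem_closure_cone_rel hK hs hω φ hφ X hXK) (ε / 3 / (M + 1)) (by positivity)
  obtain ⟨Cω, hCω0, hCω⟩ := exists_bound hω.nonneg
  set D : ℝ := ∑ l, ∑ i, ‖d l i‖ with hD
  have hD0 : 0 ≤ D := by positivity
  have hdD : ∀ l i, ‖d l i‖ ≤ D := fun l i =>
    (single_le_sum (f := fun i => ‖d l i‖) (fun i _ => norm_nonneg _) (mem_univ i)).trans
      (single_le_sum (f := fun l => ∑ i, ‖d l i‖) (fun l _ => by positivity) (mem_univ l))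
  set p : B := ∑ x ∈ X, (star x * x + x * star x) with hp
  have hp0 : 0 ≤ p := sum_nonneg fun x _ => add_nonneg (star_mul_self_nonneg x) (mul_star_self_nonneg x)
  have hpK : p ∈ idealSubmodule hK := sum_mem fun x hx =>
    add_mem (K.mul_left _ _ (hXK x hx)) (K.mul_right _ _ (hXK x hx))
  obtain ⟨γ, hγ, hγb⟩ : ∃ γ : ℝ, 0 < γ ∧ L * (Cω * (D * (2 * γ) * D)) ≤ ε / 3 / (M + 1) := by
    refine ⟨ε / 3 / (M + 1) / (L * (Cω * (D * 2 * D)) + 1), by positivity, ?_⟩
    rw [show (L : ℝ) * (Cω * (D * (2 * (ε / 3 / (M + 1) / (L * (Cω * (D * 2 * D)) + 1))) * D)) =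
      L * (Cω * (D * 2 * D)) * (ε / 3 / (M + 1)) / (L * (Cω * (D * 2 * D)) + 1) by ring,
      div_le_iff₀ (by positivity)]
    nlinarith [show 0 ≤ ε / 3 / (M + 1) by positivity]
  obtain ⟨g, hgK, hgs, hg1, hg⟩ := exists_unit_le hp0 hpK hγ
  have hgx : ∀ x ∈ X, ‖g * x * g - x‖ ≤ 2 * γ := by
    intro x hx
    have hle : star x * x + x * star x ≤ p := single_le_sum
      (f := fun x => star x * x + x * star x)
      (fun y _ => add_nonneg (star_mul_self_nonneg y) (mul_star_self_nonneg y)) hx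
    have h1 := hg x ((le_add_of_nonneg_right (mul_star_self_nonneg x)).trans hle)
    have h2 := hg (star x)
      (by rw [star_star]; exact (le_add_of_nonneg_left (star_mul_self_nonneg x)).trans hle)
    rw [← norm_star, star_sub, star_mul, star_star, hgs] at h2
    rw [norm_sub_rev] at h1 h2
    have e : g * x * g - x = (g * x - x) * g + (x * g - x) := by noncomm_ring
    rw [e]
    refine (norm_add_le _ _).trans ?_
    have h3 : ‖(g * x - x) * g‖ ≤ γ * 1 :=
      (norm_mul_le _ _).trans (mul_le_mul h2 hg1 (norm_nonneg _) hγ.le)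
    linarith
  let e : Fin (L * n) ≃ Fin L × Fin n := finProdFinEquiv.symm
  refine ⟨L * n, n, fun l i => C (e l).2 i, fun l i => g * d (e l).1 i,
    fun l i => ⟨hCK _ _, K.mul_right _ _ hgK⟩, fun x hx => ?_⟩
  have hsum : ∑ l : Fin (L * n), ∑ i, ∑ j,
      ω (star (g * d (e l).1 i) * x * (g * d (e l).1 j)) •
      (star (C (e l).2 i) * C (e l).2 j) =
        ∑ i, ∑ j, (∑ l, ω (star (g * d l i) * x * (g * d l j))) • ψ (Matrix.single i j 1) := by
    rw [e.sum_comp fun p : Fin L × Fin n => ∑ i, ∑ j,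
      ω (star (g * d p.1 i) * x * (g * d p.1 j)) • (star (C p.2 i) * C p.2 j)]
    rw [Fintype.sum_prod_type]
    simp only [hC, sum_smul, smul_sum]
    exact (sum_congr rfl fun l _ => sum_comm.trans (sum_congr rfl fun i _ => sum_comm)).trans
      (sum_comm.trans (sum_congr rfl fun i _ => sum_comm.trans (sum_congr rfl fun j _ => sum_comm)))
  have hψx : ψ (φ x) = ∑ i, ∑ j, φ x i j • ψ (Matrix.single i j 1) := by
    conv_lhs => rw [Matrix.matrix_eq_sum_single (φ x)]
    simp only [map_sum, ← map_smul, Matrix.smul_single, smul_eq_mul, mul_one]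
  have hcoef : ∀ i j, ‖φ x i j - ∑ l, ω (star (g * d l i) * x * (g * d l j))‖ ≤
      ε / 3 / (M + 1) + ε / 3 / (M + 1) := by
    intro i j
    rw [dist_eq_norm] at hu
    refine (norm_sub_le_norm_sub_add_norm_sub _ (∑ l, ω (star (d l i) * x * d l j)) _).trans
      (add_le_add ((norm_le_pi_norm _ (⟨x, hx⟩, i, j)).trans hu.le) ?_)
    rw [← sum_sub_distrib]
    refine ((norm_sum_le _ _).trans (sum_le_sum fun l _ => ?_)).trans
      (le_trans (le_of_eq (by rw [Finset.sum_const, card_univ, Fintype.card_fin, nsmul_eq_mul])) hγb)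
    · rw [← map_sub, show star (d l i) * x * d l j - star (g * d l i) * x * (g * d l j) =
        star (d l i) * (x - g * x * g) * d l j by rw [star_mul, hgs]; noncomm_ring]
      refine (hCω _).trans (mul_le_mul_of_nonneg_left ?_ hCω0)
      refine (norm_mul_le _ _).trans (mul_le_mul ?_ (hdD l j) (norm_nonneg _) (by positivity))
      refine (norm_mul_le _ _).trans (mul_le_mul ?_ ?_ (norm_nonneg _) hD0)
      · rw [norm_star]; exact hdD l i
      · rw [norm_sub_rev]; exact hgx x hx
  rw [hsum]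
  have h2 : ‖ψ (φ x) - ∑ i, ∑ j, (∑ l, ω (star (g * d l i) * x * (g * d l j))) •
      ψ (Matrix.single i j 1)‖ ≤ (ε / 3 / (M + 1) + ε / 3 / (M + 1)) * M := by
    rw [hψx, ← sum_sub_distrib, hM, mul_sum]
    refine (norm_sum_le _ _).trans (sum_le_sum fun i _ => ?_)
    rw [← sum_sub_distrib, mul_sum]
    refine (norm_sum_le _ _).trans (sum_le_sum fun j _ => ?_)
    rw [← sub_smul, norm_smul]
    exact mul_le_mul_of_nonneg_right (hcoef i j) (norm_nonneg _)
  have h3 : (ε / 3 / (M + 1) + ε / 3 / (M + 1)) * M ≤ 2 * (ε / 3) := by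
    rw [← add_div, div_mul_eq_mul_div, div_le_iff₀ (by positivity)]
    nlinarith
  calc ‖x - _‖ ≤ ‖x - ψ (φ x)‖ + ‖ψ (φ x) - _‖ := norm_sub_le_norm_sub_add_norm_sub _ _ _
    _ ≤ ε / 3 + 2 * (ε / 3) := add_le_add (by rw [norm_sub_rev]; exact happ x hx) (h2.trans h3)
    _ = ε := by ring

end Vale.Agent.P095.NU
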