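import Vale.Agent.P095.NU.Specs
import Vale.Agent.P095.NU.AmplifyTools
import Vale.Agent.P095.NU.CombineTools
import Vale.Agent.P095.Full.Pair
import Vale.Agent.P095.Relative.Reindex

/-!
# P095, all amenable groups, non-unital: the locally null invariant element

The sequences which are null in the traces over all translates of the members of a unit sequence
form a closed two-sided invariant ideal of the algebra of relative central sequences: on the right
because a central sequence almost lies in the algebra around each translate.  Modulo this ideal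
the argument is that of the unital case.
-/

noncomputable section

namespace Vale.Agent.P095.NU

open Filter Topology BoundedContinuousFunction Vale.Agent.P101
open Vale.Agent.P095.Gamma Vale.Agent.P095.Full Vale.Agent.P095.Relative

universe u v

open scoped ComplexOrder

variable {B : Type u} [CStarAlgebra B]

section Local

theorem coe_locElem (h x : B) : ((locElem h x : locAlg h) : B) = h * x * h := rfl

theorem locElem_add (h x y : B) : locElem h (x + y) = locElem h x + locElem h y :=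
  Subtype.ext (show h * (x + y) * h = h * x * h + h * y * h by rw [mul_add, add_mul])

theorem locElem_sub (h x y : B) : locElem h (x - y) = locElem h x - locElem h y :=
  Subtype.ext (show h * (x - y) * h = h * x * h - h * y * h by rw [mul_sub, sub_mul])

theorem locLE_mono_bound {h x : B} {θ θ' : ℝ} (hx : LocLE h x θ) (hle : θ ≤ θ') :
    LocLE h x θ' :=
  fun τ hτ => (hx τ hτ).trans hle

theorem locLE_add {h x y : B} {θ θ' : ℝ} (hx : LocLE h x θ) (hy : LocLE h y θ') :
    LocLE h (x + y) (θ + θ') := fun τ hτ => by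
  rw [locElem_add, map_add, Complex.add_re]
  exact add_le_add (hx τ hτ) (hy τ hτ)

theorem locLE_of_norm {h x : B} {θ : ℝ} (hx : ‖h * x * h‖ ≤ θ) : LocLE h x θ := fun τ hτ =>
  ((Complex.re_le_norm _).trans (hτ.norm_map_le_norm (locElem h x))).trans hx

variable [PartialOrder B] [StarOrderedRing B]

theorem locLE_of_le {h x y : B} (hh : 0 ≤ h) (hxy : x ≤ y) {θ : ℝ} (hy : LocLE h y θ) :
    LocLE h x θ := fun τ hτ => by
  have h0 : 0 ≤ ((locElem h (y - x) : locAlg h) : B) :=
    conjugate_nonneg_of_nonneg (sub_nonneg.2 hxy) hh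
  obtain ⟨w, hw⟩ := isPos_locAlg h0
  have h1 := hτ.re_nonneg w
  rw [← hw, locElem_sub, map_sub, Complex.sub_re] at h1
  linarith [hy τ hτ]

theorem sq_add_le (a b : B) :
    star (a + b) * (a + b) ≤ star a * a + star a * a + (star b * b + star b * b) := by
  have h := star_mul_self_nonneg (a - b)
  have e : star a * a + star a * a + (star b * b + star b * b) - star (a + b) * (a + b) =
      star (a - b) * (a - b) := by
    simp only [star_add, star_sub, add_mul, mul_add, sub_mul, mul_sub]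
    abel
  rw [← e] at h
  exact sub_nonneg.1 h

/-- The trace of a conjugate, when the conjugating element almost commutes with `a`. -/
theorem locLE_conj {a c F : B} (ha : 0 ≤ a) (hF : 0 ≤ F) {θ δ : ℝ} (hδ : 0 < δ)
    (h : LocLE a F θ) :
    LocLE a (star c * F * c) (‖c‖ ^ 2 * θ +
      ‖F‖ * (2 * (‖a‖ * ‖c‖)) * (3 * ‖c * a - a * c‖ + 2 * δ * ‖c‖)) := by
  intro τ hτ
  have has : IsSelfAdjoint a := IsSelfAdjoint.of_nonneg ha
  set g := cfc (fun s : ℝ => (max s δ)⁻¹) a with hg
  have hgs : star g = g := (cfc_predicate (fun s : ℝ => (max s δ)⁻¹) a : IsSelfAdjoint _).star_eq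
  set e := unitCut δ a with he
  have he1 : a * g = e := rfl
  have he2 : g * a = e := by
    have h1 := star_unitCut hδ has
    rw [← he, ← he1, star_mul, hgs, has.star_eq] at h1
    exact h1.trans he1
  have hea : e * a = a * e := by
    conv_lhs => rw [← he1]
    conv_rhs => rw [← he2]
    rw [mul_assoc]
  obtain ⟨hne, hne'⟩ := norm_unitCut_le hδ ha
  rw [← he] at hne hne'
  set d : locAlg a := locElem a (g * c * g) with hd
  have hdc : (d : B) = e * c * e :=
    calc (d : B) = a * g * c * (g * a) := by rw [hd, coe_locElem]; simp only [mul_assoc]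
      _ = e * c * e := by rw [he1, he2]
  have hdn : ‖(d : B)‖ ≤ ‖c‖ := by
    rw [hdc]
    calc ‖e * c * e‖ ≤ ‖e‖ * ‖c‖ * ‖e‖ :=
          (norm_mul_le _ _).trans (mul_le_mul_of_nonneg_right (norm_mul_le _ _) (norm_nonneg _))
      _ ≤ 1 * ‖c‖ * 1 := by gcongr
      _ = ‖c‖ := by ring
  set q := ‖c * a - a * c‖ with hq
  set z := c * a with hz
  set w := a * (d : B) with hw
  have hzw : ‖z - w‖ ≤ 3 * q + 2 * δ * ‖c‖ := by
    have e0 : z - w = (c * a - a * c) + (a - e * a) * c + e * (a * c - c * a)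
        - e * (a * c - c * a) * e + e * c * (a - e * a) := by
      rw [hz, hw, hdc, hea]
      have h1 : e * (a * c) = a * e * c := by rw [← mul_assoc, hea]
      have h2 : e * (a * c) * e = a * e * c * e := by rw [h1]
      simp only [mul_sub, sub_mul]
      rw [h1]
      simp only [mul_assoc]
      abel
    have hq' : ‖a * c - c * a‖ = q := norm_sub_rev _ _
    have hae : ‖a - e * a‖ ≤ δ := by rw [norm_sub_rev]; exact hne'
    have k1 : ‖(a - e * a) * c‖ ≤ δ * ‖c‖ :=
      (norm_mul_le _ _).trans (mul_le_mul_of_nonneg_right hae (norm_nonneg _))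
    have k2 : ‖e * (a * c - c * a)‖ ≤ q := by
      refine (norm_mul_le _ _).trans ?_
      rw [hq']
      exact mul_le_of_le_one_left (norm_nonneg _) hne
    have k3 : ‖e * (a * c - c * a) * e‖ ≤ q :=
      (norm_mul_le _ _).trans ((mul_le_of_le_one_right (norm_nonneg _) hne).trans k2)
    have k4 : ‖e * c * (a - e * a)‖ ≤ ‖c‖ * δ :=
      (norm_mul_le _ _).trans (mul_le_mul ((norm_mul_le _ _).trans
        (mul_le_of_le_one_left (norm_nonneg _) hne)) hae (norm_nonneg _) (norm_nonneg _))
    rw [e0]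
    have t1 := norm_add_le ((c * a - a * c) + (a - e * a) * c + e * (a * c - c * a)
        - e * (a * c - c * a) * e) (e * c * (a - e * a))
    have t2 := norm_sub_le ((c * a - a * c) + (a - e * a) * c + e * (a * c - c * a))
      (e * (a * c - c * a) * e)
    have t3 := norm_add_le ((c * a - a * c) + (a - e * a) * c) (e * (a * c - c * a))
    have t4 := norm_add_le (c * a - a * c) ((a - e * a) * c)
    linarith
  set X := locElem a F with hX
  obtain ⟨y, hy⟩ := isPos_locAlg (show 0 ≤ (X : B) from conjugate_nonneg_of_nonneg hF ha)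
  have hmain : (τ (star d * X * d)).re ≤ ‖c‖ ^ 2 * θ := by
    have h1 : τ (star d * X * d) = τ (star (y * d) * (y * d)) := by
      rw [hy, star_mul]
      simp only [mul_assoc]
    rw [h1, ← hτ.l2_sq]
    have h2 : l2 τ (y * d) ≤ l2 τ y * ‖c‖ :=
      (hτ.l2_mul_le' y d).trans (mul_le_mul_of_nonneg_left hdn (hτ.l2_nonneg _))
    have h3 : l2 τ y ^ 2 ≤ θ := by rw [hτ.l2_sq, ← hy]; exact h τ hτ
    calc l2 τ (y * d) ^ 2 ≤ (l2 τ y * ‖c‖) ^ 2 := pow_le_pow_left₀ (hτ.l2_nonneg _) h2 2
      _ = ‖c‖ ^ 2 * l2 τ y ^ 2 := by ring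
      _ ≤ ‖c‖ ^ 2 * θ := mul_le_mul_of_nonneg_left h3 (sq_nonneg _)
  have hdiff : ‖locElem a (star c * F * c) - star d * X * d‖ ≤
      ‖F‖ * (2 * (‖a‖ * ‖c‖)) * (3 * q + 2 * δ * ‖c‖) := by
    show ‖a * (star c * F * c) * a - star (d : B) * (a * F * a) * (d : B)‖ ≤ _
    have e1 : a * (star c * F * c) * a - star (d : B) * (a * F * a) * (d : B) =
        star (z - w) * F * z + star w * F * (z - w) := by
      simp only [hz, hw, star_sub, star_mul, has.star_eq, sub_mul, mul_sub, mul_assoc]
      abel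
    rw [e1]
    have hzn : ‖z‖ ≤ ‖a‖ * ‖c‖ := (norm_mul_le _ _).trans_eq (mul_comm _ _)
    have hwn : ‖w‖ ≤ ‖a‖ * ‖c‖ :=
      (norm_mul_le _ _).trans (mul_le_mul_of_nonneg_left hdn (norm_nonneg _))
    calc ‖star (z - w) * F * z + star w * F * (z - w)‖
        ≤ ‖z - w‖ * ‖F‖ * ‖z‖ + ‖w‖ * ‖F‖ * ‖z - w‖ := by
          refine (norm_add_le _ _).trans (add_le_add ?_ ?_)
          all_goals
            refine (norm_mul_le _ _).trans (mul_le_mul_of_nonneg_right ?_ (norm_nonneg _))
            exact (norm_mul_le _ _).trans_eq (by rw [norm_star])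
      _ ≤ ‖z - w‖ * ‖F‖ * (‖a‖ * ‖c‖) + ‖a‖ * ‖c‖ * ‖F‖ * ‖z - w‖ := by gcongr
      _ = ‖F‖ * (2 * (‖a‖ * ‖c‖)) * ‖z - w‖ := by ring
      _ ≤ _ := mul_le_mul_of_nonneg_left hzw (by positivity)
  have h2 := (Complex.re_le_norm _).trans
    (hτ.norm_map_le_norm (locElem a (star c * F * c) - star d * X * d))
  rw [map_sub, Complex.sub_re] at h2
  linarith

end Local

/-- A star endomorphism maps the algebra around `h` into that around the image of `h`. -/
theorem hom_mem_locAlg (φ : B →⋆ₐ[ℂ] B) (h : B) {x : B} (hx : x ∈ locAlg h) :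
    φ x ∈ locAlg (φ h) := by
  suffices H : locAlg h ≤ (locAlg (φ h)).comap φ from H hx
  refine StarSubalgebra.topologicalClosure_minimal (StarAlgebra.adjoin_le ?_) ?_
  · rintro _ ⟨y, rfl⟩
    show φ (h * y * h) ∈ locAlg (φ h)
    rw [map_mul, map_mul]
    exact (locElem (φ h) (φ y)).2
  · exact (locAlg.isClosed (φ h)).preimage (continuous_starAlgHom φ)

/-- Local traces do not see star endomorphisms. -/
theorem locLE_hom (φ : B →⋆ₐ[ℂ] B) {h x : B} {θ : ℝ} (hx : LocLE h x θ) :
    LocLE (φ h) (φ x) θ := by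
  intro τ hτ
  let ψ : locAlg h →⋆ₐ[ℂ] locAlg (φ h) :=
    StarAlgHom.codRestrict (φ.comp (locAlg h).subtype) (locAlg (φ h))
      fun z => hom_mem_locAlg φ h z.2
  have hσ : IsTrace (locAlg h) (τ.comp ψ.toAlgHom.toLinearMap) :=
    ⟨fun a => by
      show 0 ≤ τ (ψ (star a * a))
      rw [map_mul ψ, map_star ψ]
      exact hτ.nonneg (ψ a),
    by show τ (ψ 1) = 1; rw [map_one ψ]; exact hτ.map_one,
    fun a b => by
      show τ (ψ (a * b)) = τ (ψ (b * a))
      rw [map_mul ψ, map_mul ψ]
      exact hτ.comm _ _⟩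
  have e : ψ (locElem h x) = locElem (φ h) (φ x) :=
    Subtype.ext (show φ (h * x * h) = φ h * φ x * φ h by rw [map_mul, map_mul])
  rw [← e]
  exact hx _ hσ

section Seq

variable (K : TestIdeal B)

/-- The relatively central sequences. -/
def pairSeq : StarSubalgebra ℂ (ℕ →ᵇ B) := (relCent K atTop).comap (seqMk B atTop)

instance pairSeq.isClosed : IsClosed (pairSeq K : Set (ℕ →ᵇ B)) :=
  (relCent.isClosed K atTop).preimage (continuous_starAlgHom (seqMk B atTop))

instance pairSeq.instCStarAlgebra : CStarAlgebra (pairSeq K) := StarSubalgebra.cstarAlgebra _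

/-- The class of a relatively central sequence. -/
def relClass : pairSeq K →⋆ₐ[ℂ] RelQuot K atTop :=
  (relMk K atTop).comp
    (StarAlgHom.codRestrict ((seqMk B atTop).comp (pairSeq K).subtype) (relCent K atTop)
      fun x => x.2)

/-- The value at an index. -/
def relEval (n : ℕ) : pairSeq K →⋆ₐ[ℂ] B := (evalAt n).comp (pairSeq K).subtype

variable {K}

theorem relClass_eq (f : pairSeq K) : relClass K f = cls (f : ℕ →ᵇ B) f.2 := rfl

theorem relClass_congr {f g : pairSeq K}
    (h : seqMk B atTop (f : ℕ →ᵇ B) = seqMk B atTop (g : ℕ →ᵇ B)) :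
    relClass K f = relClass K g :=
  congrArg (relMk K atTop) (Subtype.ext h)

theorem relEval_apply (n : ℕ) (f : pairSeq K) : relEval K n f = (f : ℕ →ᵇ B) n := rfl

theorem norm_relEval_le (n : ℕ) (f : pairSeq K) : ‖relEval K n f‖ ≤ ‖f‖ :=
  (f : ℕ →ᵇ B).norm_coe_le_norm n

variable {G : Type v} [Group G] (α : RelAction G K) (u : ℕ → B)

/-- The action on relatively central sequences. -/
def relSeqAct (g : G) : pairSeq K →⋆ₐ[ℂ] pairSeq K :=
  StarAlgHom.codRestrict ((seqComp (α.hom g)).comp (pairSeq K).subtype) (pairSeq K)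
    fun x => α.isRel g x.2

theorem relEval_act (g : G) (n : ℕ) (f : pairSeq K) :
    relEval K n (relSeqAct α g f) = α.hom g (relEval K n f) := rfl

theorem act_relClass (g : G) (f : pairSeq K) :
    α.act g (relClass K f) = relClass K (relSeqAct α g f) := rfl

/-- Null in the traces over all translates of the positive contractions of `u` in the ideal. -/
def LocNullSeq (f : pairSeq K) : Prop :=
  ∀ (g : G) (m : ℕ), InPosBall K (u m) → ∀ θ : ℝ, 0 < θ → ∀ᶠ n in atTop,
    LocLE (α.hom g (u m) * α.hom g (u m)) (star (relEval K n f) * relEval K n f) θ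

theorem inPosBall_hom (g : G) {x : B} (hx : InPosBall K x) : InPosBall K (α.hom g x) := by
  obtain ⟨⟨⟨w, hw⟩, hn⟩, hm⟩ := hx
  exact ⟨⟨⟨α.hom g w, by rw [hw, map_mul, map_star]⟩, by rw [norm_hom]; exact hn⟩, α.mem g x hm⟩

theorem sq_nonneg_of [PartialOrder B] [StarOrderedRing B] {h : B} (hh : InPosBall K h) :
    0 ≤ h * h := by
  have := star_mul_self_nonneg h
  rwa [(IsPos.isSelfAdjoint hh.1.1).star_eq] at this

/-- The locally null sequences. -/
def nullI : Ideal (pairSeq K) where
  carrier := {f | LocNullSeq α u f}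
  zero_mem' g m _ θ hθ := Eventually.of_forall fun n => locLE_of_norm (by simp [hθ.le])
  add_mem' {f₁ f₂} h₁ h₂ g m hm θ hθ := by
    let _ : PartialOrder B := CStarAlgebra.spectralOrder B
    let _ : StarOrderedRing B := CStarAlgebra.spectralOrderedRing B
    filter_upwards [h₁ g m hm (θ / 4) (by positivity), h₂ g m hm (θ / 4) (by positivity)]
      with n k₁ k₂
    rw [map_add]
    exact locLE_of_le (sq_nonneg_of (inPosBall_hom α g hm)) (sq_add_le _ _)
      (locLE_mono_bound (locLE_add (locLE_add k₁ k₁) (locLE_add k₂ k₂)) (by linarith))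
  smul_mem' c f hf g m hm θ hθ := by
    let _ : PartialOrder B := CStarAlgebra.spectralOrder B
    let _ : StarOrderedRing B := CStarAlgebra.spectralOrderedRing B
    have hC : 0 < ‖c‖ ^ 2 + 1 := by positivity
    have ha := sq_nonneg_of (inPosBall_hom α g hm)
    filter_upwards [hf g m hm (θ / (‖c‖ ^ 2 + 1)) (div_pos hθ hC)] with n k τ hτ
    rw [smul_eq_mul, map_mul]
    set x := relEval K n f
    set cn := relEval K n c with hcn
    have hle : star (cn * x) * (cn * x) ≤ (‖c‖ ^ 2) • (star x * x) := by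
      have h1 : star x * (star cn * cn) * x ≤ ‖star cn * cn‖ • (star x * x) :=
        CStarAlgebra.star_left_conjugate_le_norm_smul
      rw [star_mul, show star x * star cn * (cn * x) = star x * (star cn * cn) * x by
        simp only [mul_assoc]]
      refine h1.trans (smul_le_smul_of_nonneg_right ?_ (star_mul_self_nonneg x))
      rw [CStarRing.norm_star_mul_self, sq]
      exact mul_le_mul (norm_relEval_le n c) (norm_relEval_le n c) (norm_nonneg _) (norm_nonneg _)
    refine (locLE_of_le ha hle (θ := θ) ?_) τ hτ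
    intro σ hσ
    have e : locElem (α.hom g (u m) * α.hom g (u m)) ((‖c‖ ^ 2) • (star x * x)) =
        ((‖c‖ ^ 2 : ℝ) : ℂ) • locElem (α.hom g (u m) * α.hom g (u m)) (star x * x) := by
      refine Subtype.ext ?_
      show _ * ((‖c‖ ^ 2) • (star x * x)) * _ = ((‖c‖ ^ 2 : ℝ) : ℂ) • (_ * (star x * x) * _)
      rw [← Complex.coe_smul, mul_smul_comm, smul_mul_assoc]
    rw [e, map_smul, smul_eq_mul, Complex.re_ofReal_mul]
    calc ‖c‖ ^ 2 * _ ≤ ‖c‖ ^ 2 * (θ / (‖c‖ ^ 2 + 1)) :=
          mul_le_mul_of_nonneg_left (k σ hσ) (sq_nonneg _)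
      _ ≤ (‖c‖ ^ 2 + 1) * (θ / (‖c‖ ^ 2 + 1)) :=
          mul_le_mul_of_nonneg_right (le_add_of_nonneg_right zero_le_one) (div_pos hθ hC).le
      _ = θ := mul_div_cancel₀ θ hC.ne'

instance nullI.isTwoSided : (nullI α u).IsTwoSided where
  mul_mem_of_left {f} c hf := by
    intro g m hm θ hθ
    let _ : PartialOrder B := CStarAlgebra.spectralOrder B
    let _ : StarOrderedRing B := CStarAlgebra.spectralOrderedRing B
    have hh := inPosBall_hom α g hm
    set a := α.hom g (u m) * α.hom g (u m) with hadef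
    have ha : 0 ≤ a := sq_nonneg_of hh
    have haK : a ∈ K.carrier := K.mul_left _ _ hh.2
    set C := ‖c‖ with hC
    set M := ‖f‖ ^ 2 * (2 * (‖a‖ * C)) with hM
    have hM0 : 0 ≤ M := by positivity
    set δ := θ / (3 * (2 * M * C + 1)) with hδ
    have hδ0 : 0 < δ := by positivity
    have hcomm : Tendsto (fun n => ‖a * relEval K n c - relEval K n c * a‖) atTop (𝓝 0) :=
      mem_relCent.1 c.2 a haK
    filter_upwards [hf g m hm (θ / (3 * (C ^ 2 + 1))) (by positivity),
      hcomm.eventually (Iic_mem_nhds (show (0 : ℝ) < θ / (3 * (3 * M + 1)) by positivity))]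
      with n k hn
    set x := relEval K n f
    set cn := relEval K n c with hcn
    rw [map_mul, star_mul, show star cn * star x * (x * cn) = star cn * (star x * x) * cn by
      simp only [mul_assoc]]
    refine locLE_mono_bound (locLE_conj ha (star_mul_self_nonneg x) hδ0 k) ?_
    have hcC : ‖cn‖ ≤ C := norm_relEval_le n c
    have hxn : ‖star x * x‖ ≤ ‖f‖ ^ 2 := by
      rw [CStarRing.norm_star_mul_self, sq]
      exact mul_le_mul (norm_relEval_le n f) (norm_relEval_le n f) (norm_nonneg _) (norm_nonneg _)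
    have hq : ‖cn * a - a * cn‖ ≤ θ / (3 * (3 * M + 1)) := by
      rw [norm_sub_rev]
      exact hn
    have e1 : ‖cn‖ ^ 2 * (θ / (3 * (C ^ 2 + 1))) ≤ θ / 3 := by
      calc ‖cn‖ ^ 2 * (θ / (3 * (C ^ 2 + 1))) ≤ (C ^ 2 + 1) * (θ / (3 * (C ^ 2 + 1))) := by
            refine mul_le_mul_of_nonneg_right ?_ (by positivity)
            nlinarith [norm_nonneg cn]
        _ = θ / 3 := by field_simp
    have e2 : M * (3 * (θ / (3 * (3 * M + 1)))) ≤ θ / 3 := by
      calc M * (3 * (θ / (3 * (3 * M + 1)))) = 3 * M * (θ / (3 * (3 * M + 1))) := by ring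
        _ ≤ (3 * M + 1) * (θ / (3 * (3 * M + 1))) :=
            mul_le_mul_of_nonneg_right (by linarith) (by positivity)
        _ = θ / 3 := by field_simp
    have e3 : M * (2 * δ * C) ≤ θ / 3 := by
      calc M * (2 * δ * C) = 2 * M * C * δ := by ring
        _ ≤ (2 * M * C + 1) * δ := mul_le_mul_of_nonneg_right (by linarith) hδ0.le
        _ = θ / 3 := by
          rw [hδ, mul_div_assoc', mul_comm (3 : ℝ) (2 * M * C + 1),
            mul_div_mul_left _ _ (by positivity)]
    have e4 : ‖star x * x‖ * (2 * (‖a‖ * ‖cn‖)) * (3 * ‖cn * a - a * cn‖ + 2 * δ * ‖cn‖) ≤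
        M * (3 * (θ / (3 * (3 * M + 1))) + 2 * δ * C) := by
      rw [hM]
      gcongr
    rw [mul_add] at e4
    linarith

theorem sq_le_add_norm [PartialOrder B] [StarOrderedRing B] (a b : B) :
    star a * a ≤ star b * b + star b * b +
      (algebraMap ℝ B (‖a - b‖ ^ 2) + algebraMap ℝ B (‖a - b‖ ^ 2)) := by
  have h := sq_add_le b (a - b)
  rw [add_sub_cancel] at h
  have h1 : star (a - b) * (a - b) ≤ algebraMap ℝ B (‖a - b‖ ^ 2) := by
    rw [sq, ← CStarRing.norm_star_mul_self]
    exact IsSelfAdjoint.le_algebraMap_norm_self (IsSelfAdjoint.star_mul_self _)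
  exact h.trans (add_le_add le_rfl (add_le_add h1 h1))

instance nullI.isClosed : IsClosed (nullI α u : Set (pairSeq K)) := by
  rw [← closure_subset_iff_isClosed]
  intro f hf g m hm θ hθ
  let _ : PartialOrder B := CStarAlgebra.spectralOrder B
  let _ : StarOrderedRing B := CStarAlgebra.spectralOrderedRing B
  have hh := inPosBall_hom α g hm
  set a := α.hom g (u m) * α.hom g (u m) with hadef
  set r := min 1 (θ / 8) with hr
  have hr0 : 0 < r := lt_min one_pos (by positivity)
  obtain ⟨f', hf', hff⟩ := Metric.mem_closure_iff.1 hf r hr0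
  rw [dist_eq_norm] at hff
  have hf'' : LocNullSeq α u f' := hf'
  filter_upwards [hf'' g m hm (θ / 4) (by positivity)] with n hn
  have hd : ‖relEval K n f - relEval K n f'‖ ^ 2 ≤ θ / 8 := by
    rw [← map_sub]
    have h1 := (norm_relEval_le n (f - f')).trans hff.le
    nlinarith [norm_nonneg (relEval K n (f - f')), min_le_left 1 (θ / 8), min_le_right 1 (θ / 8)]
  have hconst : LocLE a (algebraMap ℝ B (‖relEval K n f - relEval K n f'‖ ^ 2)) (θ / 8) := by
    refine locLE_of_norm ?_
    have ha1 : ‖a‖ ≤ 1 :=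
      (norm_mul_le _ _).trans (mul_le_one₀ hh.1.2 (norm_nonneg _) hh.1.2)
    have e : a * algebraMap ℝ B (‖relEval K n f - relEval K n f'‖ ^ 2) * a =
        (‖relEval K n f - relEval K n f'‖ ^ 2) • (a * a) := by
      rw [Algebra.algebraMap_eq_smul_one, mul_smul_comm, mul_one, smul_mul_assoc]
    rw [e, norm_smul, Real.norm_eq_abs, abs_of_nonneg (sq_nonneg _)]
    exact (mul_le_of_le_one_right (sq_nonneg _)
      ((norm_mul_le _ _).trans (mul_le_one₀ ha1 (norm_nonneg _) ha1))).trans hd
  exact locLE_of_le (sq_nonneg_of hh) (sq_le_add_norm _ _)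
    (locLE_mono_bound (locLE_add (locLE_add hn hn) (locLE_add hconst hconst)) (by linarith))

/-- Relatively central sequences modulo the locally null ones. -/
abbrev nullQ : pairSeq K →⋆ₐ[ℂ] pairSeq K ⧸ nullI α u := quotStar (nullI α u)

theorem nullQ_eq_zero {f : pairSeq K} : nullQ α u f = 0 ↔ LocNullSeq α u f :=
  quotStar_eq_zero (nullI α u)

variable {α u}

/-- Translates of locally null sequences are locally null. -/
theorem LocNullSeq.act {f : pairSeq K} (hf : LocNullSeq α u f) (g : G) :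
    LocNullSeq α u (relSeqAct α g f) := fun g' m hm θ hθ =>
  (hf (g⁻¹ * g') m hm θ hθ).mono fun n hn => by
    have h := locLE_hom (α.hom g) hn
    rw [map_mul, map_mul, map_star, ← α.hom_mul, mul_inv_cancel_left] at h
    rw [relEval_act]
    exact h

theorem relEval_rcfc {f : ℝ → ℝ} (hf : Continuous f) {W : pairSeq K} (hW : IsSelfAdjoint W)
    (n : ℕ) : relEval K n (rcfc f W) = rcfc f (relEval K n W) :=
  map_rcfc (relEval K n) f hf hW

/-- One stage: an almost invariant locally null contraction whose complement almost annihilates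
the differences `α g Y - Y`. -/
theorem exists_stage [DecidableEq G] (hG : IsFolnerGroup G) {Y : pairSeq K}
    (hYinv : ∀ g, LocNullSeq α u (relSeqAct α g Y - Y)) (T : Finset G) {ε : ℝ} (hε : 0 < ε) :
    ∃ E : pairSeq K, LocNullSeq α u E ∧
      (∀ n, IsPosContraction (relEval K n E)) ∧
      (∀ g ∈ T, ∀ n, ‖α.hom g (relEval K n E) - relEval K n E‖ ≤ ε) ∧
      ∀ g ∈ T, ∀ n,
        ‖(1 - relEval K n E) * (α.hom g (relEval K n Y) - relEval K n Y)‖ ≤ ε := by
  classical
  let _ : PartialOrder B := CStarAlgebra.spectralOrder B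
  let _ : StarOrderedRing B := CStarAlgebra.spectralOrderedRing B
  obtain ⟨F, hFne, hF⟩ := hG T ε hε
  set η : ℝ := (ε / 2) ^ 2 with hη
  have hη0 : 0 < η := by positivity
  let P : Finset G := ((F ×ˢ insert 1 T)).image fun p => p.1⁻¹ * p.2
  let d : G → pairSeq K := fun k => relSeqAct α k Y - Y
  let W : pairSeq K := ∑ k ∈ P, d k * star (d k)
  have hWs : IsSelfAdjoint W := isSelfAdjoint_sum _ fun k _ => IsSelfAdjoint.mul_star_self _
  let R : pairSeq K := rcfc (Full.ramp η) W
  have hRn : ∀ n, relEval K n R = rcfc (Full.ramp η) (relEval K n W) :=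
    relEval_rcfc (Full.continuous_ramp η) hWs
  have hRnull : LocNullSeq α u R := by
    rw [← nullQ_eq_zero, map_rcfc (nullQ α u) _ (Full.continuous_ramp η) hWs]
    have h0 : nullQ α u W = 0 := by
      rw [map_sum]
      refine Finset.sum_eq_zero fun k _ => ?_
      rw [map_mul, (nullQ_eq_zero α u).2 (hYinv k), zero_mul]
    rw [h0, rcfc, cfc_apply_zero]
    simp [Full.ramp]
  have hR01 : ∀ n, 0 ≤ relEval K n R ∧ relEval K n R ≤ 1 := fun n => by
    rw [hRn n]
    exact ⟨cfc_nonneg fun t _ => Full.ramp_nonneg η t, cfc_le_one _ _ fun t _ => Full.ramp_le_one η t⟩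
  have hR1 : ∀ n, ‖relEval K n R‖ ≤ 1 := fun n =>
    (CStarAlgebra.norm_le_one_iff_of_nonneg _ (hR01 n).1).2 (hR01 n).2
  have hd : ∀ k ∈ P, ∀ n, ‖(1 - relEval K n R) * relEval K n (d k)‖ ≤ ε / 2 := fun k hk n => by
    rw [hRn n]
    refine (Full.norm_compl_ramp_mul_le hη0 ?_).trans (le_of_eq ?_)
    · show relEval K n (d k) * star (relEval K n (d k)) ≤ relEval K n W
      rw [map_sum]
      simp only [map_mul, map_star]
      exact Finset.single_le_sum (f := fun k => relEval K n (d k) * star (relEval K n (d k)))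
        (fun j _ => mul_star_self_nonneg _) hk
    · rw [hη, Real.sqrt_sq (by positivity)]
  have hcard : (0 : ℝ) < F.card := by exact_mod_cast Finset.card_pos.2 hFne
  let E : pairSeq K := ((F.card : ℝ)⁻¹ : ℂ) • ∑ h ∈ F, relSeqAct α h R
  have hEn : ∀ n, relEval K n E = (F.card : ℝ)⁻¹ • ∑ h ∈ F, α.hom h (relEval K n R) := fun n => by
    rw [map_smul, map_sum, ← Complex.ofReal_inv, Complex.coe_smul]
    rfl
  have havg : ∀ (f : G → B) (b : ℝ), (∀ h ∈ F, ‖f h‖ ≤ b) →
      ‖(F.card : ℝ)⁻¹ • ∑ h ∈ F, f h‖ ≤ b := fun f b hf => by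
    rw [norm_smul, Real.norm_eq_abs, abs_of_nonneg (by positivity), inv_mul_le_iff₀ hcard]
    calc ‖∑ h ∈ F, f h‖ ≤ ∑ h ∈ F, ‖f h‖ := norm_sum_le _ _
      _ ≤ ∑ _h ∈ F, b := Finset.sum_le_sum hf
      _ = F.card * b := by simp
  have hRh : ∀ n h, ‖α.hom h (relEval K n R)‖ ≤ 1 := fun n h => by
    rw [norm_hom]
    exact hR1 n
  refine ⟨E, ?_, fun n => ?_, fun g hg n => ?_, fun g hg n => ?_⟩
  · rw [← nullQ_eq_zero, map_smul, map_sum, Finset.sum_eq_zero fun h _ =>
      (nullQ_eq_zero α u).2 (hRnull.act h), smul_zero]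
  · rw [hEn]
    refine ⟨CStarAlgebra.nonneg_iff_eq_star_mul_self.1 (smul_nonneg (by positivity)
      (Finset.sum_nonneg fun h _ => ?_)), havg _ 1 fun h _ => hRh n h⟩
    obtain ⟨w, hw⟩ := CStarAlgebra.nonneg_iff_eq_star_mul_self.1 (hR01 n).1
    rw [hw, map_mul, map_star]
    exact star_mul_self_nonneg _
  · rw [hEn, hom_real_smul, ← smul_sub, map_sum]
    have e : ∑ h ∈ F, α.hom g (α.hom h (relEval K n R)) =
        ∑ h ∈ F.image (g * ·), α.hom h (relEval K n R) := by
      rw [Finset.sum_image fun a _ b _ hab => mul_left_cancel hab]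
      exact Finset.sum_congr rfl fun h _ => (α.hom_mul _ _ _).symm
    rw [e, ← Finset.sum_sdiff_sub_sum_sdiff, norm_smul, Real.norm_eq_abs,
      abs_of_nonneg (by positivity), inv_mul_le_iff₀ hcard]
    calc ‖∑ h ∈ F.image (g * ·) \ F, α.hom h (relEval K n R) -
          ∑ h ∈ F \ F.image (g * ·), α.hom h (relEval K n R)‖
        ≤ ‖∑ h ∈ F.image (g * ·) \ F, α.hom h (relEval K n R)‖ +
            ‖∑ h ∈ F \ F.image (g * ·), α.hom h (relEval K n R)‖ :=
          norm_sub_le _ _
      _ ≤ ∑ _h ∈ F.image (g * ·) \ F, (1 : ℝ) + ∑ _h ∈ F \ F.image (g * ·), (1 : ℝ) :=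
          add_le_add (norm_sum_le_of_le _ fun h _ => hRh n h)
            (norm_sum_le_of_le _ fun h _ => hRh n h)
      _ = ((symmDiff (F.image (g * ·)) F).card : ℝ) := by
          rw [symmDiff_def, Finset.sup_eq_union,
            Finset.card_union_of_disjoint disjoint_sdiff_sdiff]
          simp
      _ ≤ F.card * ε := (hF g hg).trans_eq (mul_comm _ _)
  · rw [hEn]
    have e : (1 - (F.card : ℝ)⁻¹ • ∑ h ∈ F, α.hom h (relEval K n R)) *
          (α.hom g (relEval K n Y) - relEval K n Y) =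
        (F.card : ℝ)⁻¹ • ∑ h ∈ F, α.hom h ((1 - relEval K n R) *
          (relEval K n (d (h⁻¹ * g)) - relEval K n (d (h⁻¹ * 1)))) := by
      have e1 : ∀ h, α.hom h ((1 - relEval K n R) *
          (relEval K n (d (h⁻¹ * g)) - relEval K n (d (h⁻¹ * 1)))) =
          (1 - α.hom h (relEval K n R)) * (α.hom g (relEval K n Y) - relEval K n Y) := fun h => by
        have e2 : relEval K n (d (h⁻¹ * g)) - relEval K n (d (h⁻¹ * 1)) =
            α.hom h⁻¹ (α.hom g (relEval K n Y)) - α.hom h⁻¹ (relEval K n Y) := by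
          simp only [d, map_sub, relEval_act, mul_one, α.hom_mul]
          abel
        rw [e2, map_mul, map_sub, map_one, map_sub, α.hom_inv, α.hom_inv]
      simp only [e1, ← Finset.sum_mul, Finset.sum_sub_distrib, Finset.sum_const,
        ← smul_mul_assoc, smul_sub]
      rw [← Nat.cast_smul_eq_nsmul ℝ, smul_smul, inv_mul_cancel₀ hcard.ne', one_smul]
    rw [e]
    refine havg _ ε fun h hh => ?_
    rw [norm_hom, mul_sub]
    have k1 := hd (h⁻¹ * g) (Finset.mem_image.2
      ⟨(h, g), Finset.mem_product.2 ⟨hh, Finset.mem_insert_of_mem hg⟩, rfl⟩) n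
    have k2 := hd (h⁻¹ * 1) (Finset.mem_image.2
      ⟨(h, 1), Finset.mem_product.2 ⟨hh, Finset.mem_insert_self _ _⟩, rfl⟩) n
    linarith [norm_sub_le ((1 - relEval K n R) * relEval K n (d (h⁻¹ * g)))
      ((1 - relEval K n R) * relEval K n (d (h⁻¹ * 1)))]

variable [TopologicalSpace.SeparableSpace B]

omit [TopologicalSpace.SeparableSpace B] in
/-- Bounded sequences commuting asymptotically with a dense sequence of the ideal are relatively
central. -/
theorem isRel_of_dense {a : ℕ → B} (ha : ∀ k ∈ K.carrier, k ∈ closure (Set.range a)) (f : ℕ →ᵇ B)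
    (h : ∀ p, Tendsto (fun n => ‖a p * f n - f n * a p‖) atTop (𝓝 0)) : IsRel K atTop f :=
  mem_relCent.2 fun k hk => tendsto_dense (fun n x => x * f n - f n * x) (2 * ‖f‖)
    (fun n => lip_comm _ (f.norm_coe_le_norm n)) h (ha k hk)

/-- A dense sequence of the ideal. -/
theorem exists_dense_ideal (hK : IsClosedIdeal K) :
    ∃ a : ℕ → B, (∀ p, a p ∈ K.carrier) ∧ ∀ k ∈ K.carrier, k ∈ closure (Set.range a) := by
  have : Nonempty K.carrier := ⟨⟨0, hK.zero_mem⟩⟩
  obtain ⟨b, hb⟩ := TopologicalSpace.exists_dense_seq K.carrier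
  exact ⟨fun p => (b p : B), fun p => (b p).2, fun k hk =>
    map_mem_closure (f := fun x : K.carrier => (x : B)) continuous_subtype_val
      (hb (⟨k, hk⟩ : K.carrier)) (by rintro _ ⟨p, rfl⟩; exact ⟨p, rfl⟩)⟩

variable [Countable G] [DecidableEq G]

/-- The elements of `TracialStatement`, diagonalised. -/
theorem exists_tracial_seq (htr : TracialStatement.{u, v}) (hK : IsClosedIdeal K)
    (hdd : HasRelDrop K) (hG : IsFolnerGroup G) (α : RelAction G K) (hu : IsUnitSeq K u) :
    ∃ (δ : ℝ) (Y : Fin 6 → pairSeq K), 0 < δ ∧ δ ≤ 1 ∧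
      (∀ i g, LocNullSeq α u (relSeqAct α g (Y i) - Y i)) ∧
      (∀ i, nullQ α u (Y i) * nullQ α u (Y i) = 0) ∧
      nullQ α u (rcfc (fun t => max (δ - t) 0)
        (∑ i, (star (Y i) * Y i + Y i * star (Y i)))) = 0 := by
  classical
  obtain ⟨δ, hδ0, hδ1, htr⟩ := htr
  obtain ⟨enum, henum⟩ := exists_surjective_nat G
  obtain ⟨a, haK, hden⟩ := exists_dense_ideal hK
  let X : ℕ → Finset B := fun n => (Finset.range (n + 1)).image a
  have hXK : ∀ n, ∀ x ∈ X n, x ∈ K.carrier := fun n x hx => by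
    obtain ⟨p, -, rfl⟩ := Finset.mem_image.1 hx
    exact haK p
  let T : ℕ → Finset G := fun n => (Finset.range (n + 1)).image enum
  let H : ℕ → Finset B := fun n =>
    (T n ×ˢ Finset.range (n + 1)).image fun p => α.hom p.1 (u p.2)
  have hHK : ∀ n, ∀ h ∈ H n, InPosBall K h := fun n h hh => by
    obtain ⟨p, -, rfl⟩ := Finset.mem_image.1 hh
    exact inPosBall_hom α p.1 (hu.mem p.2)
  have hT : ∀ g, ∀ᶠ n in atTop, g ∈ T n := fun g => by
    obtain ⟨i, rfl⟩ := henum g
    filter_upwards [eventually_ge_atTop i] with n hn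
    exact Finset.mem_image.2 ⟨i, Finset.mem_range.2 (by omega), rfl⟩
  have hH : ∀ g m, ∀ᶠ n in atTop, α.hom g (u m) ∈ H n := fun g m => by
    filter_upwards [hT g, eventually_ge_atTop m] with n hn hm
    exact Finset.mem_image.2 ⟨(g, m), Finset.mem_product.2 ⟨hn, Finset.mem_range.2 (by omega)⟩, rfl⟩
  have hsmall : ∀ c : ℝ, 0 < c → ∀ᶠ n : ℕ in atTop, (1 : ℝ) / (n + 1) ≤ c := fun c hc =>
    (tendsto_one_div_add_atTop_nhds_zero_nat.eventually (gt_mem_nhds hc)).mono fun _ h => h.le
  choose y hy1 hycent hytr using fun n : ℕ => htr B K hK hdd G hG α (T n) (X n) (hXK n) (H n)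
    (hHK n) (1 / (n + 1)) (by positivity)
  let Y₀ : Fin 6 → ℕ →ᵇ B := fun j => bseq (fun n => y n j) 1 fun n => hy1 n j
  have hYc : ∀ j, IsRel K atTop (Y₀ j) := fun j => isRel_of_dense hden _ fun p => by
    refine squeeze_zero' (Eventually.of_forall fun n => norm_nonneg _) ?_
      tendsto_one_div_add_atTop_nhds_zero_nat
    filter_upwards [eventually_ge_atTop p] with n hn
    exact (hycent n j (a p) (Finset.mem_image.2 ⟨p, Finset.mem_range.2 (by omega), rfl⟩)).1
  let Y : Fin 6 → pairSeq K := fun j => ⟨Y₀ j, hYc j⟩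
  have hYinv : ∀ j g, LocNullSeq α u (relSeqAct α g (Y j) - Y j) := by
    intro j g g' m _ θ hθ
    filter_upwards [hT g, hH g' m, hsmall θ hθ] with n hn hn' hn''
    rw [map_sub, relEval_act]
    exact locLE_mono_bound ((hytr n _ hn').1 j g hn) hn''
  have hYsq : ∀ j, nullQ α u (Y j) * nullQ α u (Y j) = 0 := by
    intro j
    rw [← map_mul, nullQ_eq_zero]
    intro g' m _ θ hθ
    filter_upwards [hH g' m, hsmall θ hθ] with n hn hn'
    rw [map_mul]
    exact locLE_mono_bound ((hytr n _ hn).2.1 j) hn'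
  let U₀ : pairSeq K := ∑ j, (star (Y j) * Y j + Y j * star (Y j))
  have hU₀ : IsSelfAdjoint U₀ := isSelfAdjoint_sum _ fun j _ =>
    (IsSelfAdjoint.star_mul_self _).add (IsSelfAdjoint.mul_star_self _)
  have hU₀n : ∀ n, relEval K n U₀ = ∑ j, (star (y n j) * y n j + y n j * star (y n j)) := fun n =>
    map_sum_spread (relEval K n) Y
  let cut : ℝ → ℝ := fun t => max (δ - t) 0
  have hcut : Continuous cut := by fun_prop
  have hYfull : nullQ α u (rcfc cut U₀) = 0 := by
    rw [nullQ_eq_zero]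
    intro g' m _ θ hθ
    filter_upwards [hH g' m, hsmall θ hθ] with n hn hn'
    let _ : PartialOrder B := CStarAlgebra.spectralOrder B
    let _ : StarOrderedRing B := CStarAlgebra.spectralOrderedRing B
    rw [relEval_rcfc hcut hU₀ n]
    set w := relEval K n U₀ with hw
    have hws : IsSelfAdjoint w := hU₀.map (relEval K n)
    have hw0 : 0 ≤ w := by
      rw [hw, hU₀n]
      exact Finset.sum_nonneg fun j _ =>
        add_nonneg (star_mul_self_nonneg _) (mul_star_self_nonneg _)
    have hle : star (rcfc cut w) * rcfc cut w ≤ rcfc cut w := by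
      rw [(isSelfAdjoint_rcfc cut w).star_eq, rcfc, ← cfc_mul _ _ w hcut.continuousOn
        hcut.continuousOn]
      refine cfc_mono (fun t ht => ?_) (hcut.mul hcut).continuousOn hcut.continuousOn
      exact mul_le_of_le_one_left (le_max_right _ _)
        (max_le (by linarith [spectrum_nonneg_of_nonneg hw0 ht]) zero_le_one)
    refine locLE_of_le (sq_nonneg_of (hHK n _ hn)) hle (locLE_mono_bound ?_ hn')
    have e : rcfc cut w = cfc (posCut 0)
        (algebraMap ℝ B δ - ∑ j, (star (y n j) * y n j + y n j * star (y n j))) := by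
      rw [← hU₀n, ← hw, rcfc, show algebraMap ℝ B δ - w = cfc (fun t => δ - t) w by
        rw [cfc_sub (fun _ => δ) (fun t => t) w continuousOn_const continuousOn_id,
          cfc_const δ w hws, cfc_id' ℝ w hws],
        ← cfc_comp' (posCut 0) (fun t => δ - t) w (by unfold posCut; fun_prop) (by fun_prop)]
      exact cfc_congr fun t _ => by simp [cut, posCut]
    rw [e]
    exact (hytr n _ hn).2.2
  exact ⟨δ, Y, hδ0, hδ1, hYinv, hYsq, hYfull⟩

/-- The invariant null element and the exactly invariant compression of `Y`. -/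
theorem exists_fixed_compression (hK : IsClosedIdeal K) (hG : IsFolnerGroup G) (hu : IsUnitSeq K u)
    {Y : pairSeq K} (hYinv : ∀ g, LocNullSeq α u (relSeqAct α g Y - Y)) :
    ∃ (y₁ : α.fixed atTop (⊤ : Subgroup G)) (Y₁ : pairSeq K),
      (y₁ : RelQuot K atTop) = relClass K Y₁ ∧ nullQ α u Y₁ = nullQ α u Y := by
  classical
  obtain ⟨enum, henum⟩ := exists_surjective_nat G
  obtain ⟨a, haK, hden⟩ := exists_dense_ideal hK
  let T : ℕ → Finset G := fun n => (Finset.range (n + 1)).image enum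
  have hT : ∀ g, ∀ᶠ n in atTop, g ∈ T n := fun g => by
    obtain ⟨i, rfl⟩ := henum g
    filter_upwards [eventually_ge_atTop i] with n hn
    exact Finset.mem_image.2 ⟨i, Finset.mem_range.2 (by omega), rfl⟩
  have hsmall : ∀ c : ℝ, 0 < c → ∀ᶠ m : ℕ in atTop, (1 : ℝ) / (m + 1) ≤ c := fun c hc =>
    (tendsto_one_div_add_atTop_nhds_zero_nat.eventually (gt_mem_nhds hc)).mono fun _ h => h.le
  choose Em hEnull hEpc hEinv hEann using fun m : ℕ =>
    exists_stage hG hYinv (T m) (show (0 : ℝ) < 1 / (m + 1) by positivity)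
  let P : ℕ → ℕ → Prop := fun m n =>
    (∀ p ∈ Finset.range (m + 1),
      ‖a p * relEval K n (Em m) - relEval K n (Em m) * a p‖ ≤ 1 / (m + 1)) ∧
      ∀ g ∈ T m, ∀ j ∈ Finset.range (m + 1),
        LocLE (α.hom g (u j) * α.hom g (u j))
          (star (relEval K n (Em m)) * relEval K n (Em m)) (1 / (m + 1))
  have hP : ∀ m, ∀ᶠ n in atTop, P m n := fun m =>
    ((Finset.range (m + 1)).eventually_all.2 fun p _ =>
      (mem_relCent.1 (Em m).2 (a p) (haK p)).eventually
        (Iic_mem_nhds (show (0 : ℝ) < 1 / (m + 1) by positivity))).and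
      ((T m).eventually_all.2 fun g _ => (Finset.range (m + 1)).eventually_all.2 fun j _ =>
        hEnull m g j (hu.mem j) _ (by positivity))
  obtain ⟨m, hm, hPm⟩ := exists_diagonal hP
  let E₀ : ℕ →ᵇ B := bseq (fun n => relEval K n (Em (m n))) 1 fun n => (hEpc (m n) n).2
  have hm0 : Tendsto (fun n => (1 : ℝ) / (m n + 1)) atTop (𝓝 0) :=
    tendsto_one_div_add_atTop_nhds_zero_nat.comp hm
  have hEc : IsRel K atTop E₀ := isRel_of_dense hden _ fun p => by
    refine squeeze_zero' (Eventually.of_forall fun n => norm_nonneg _) ?_ hm0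
    filter_upwards [hPm, hm.eventually (eventually_ge_atTop p)] with n hn hn'
    exact hn.1 p (Finset.mem_range.2 (by omega))
  let E : pairSeq K := ⟨E₀, hEc⟩
  have hEnull' : nullQ α u E = 0 := by
    rw [nullQ_eq_zero]
    intro g j _ θ hθ
    filter_upwards [hPm, hm.eventually (hT g), hm.eventually (eventually_ge_atTop j),
      hm.eventually (hsmall θ hθ)] with n hn h1 h2 h3
    exact locLE_mono_bound (hn.2 g h1 j (Finset.mem_range.2 (by omega))) h3
  have hEfix : ∀ g, seqMk B atTop (seqComp (α.hom g) E₀) = seqMk B atTop E₀ := fun g => by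
    rw [seqMk_eq_iff]
    refine squeeze_zero' (Eventually.of_forall fun n => norm_nonneg _) ?_ hm0
    filter_upwards [hm.eventually (hT g)] with n hn
    exact hEinv (m n) g hn n
  have hEd : ∀ g, seqMk B atTop ((1 - E₀) * (seqComp (α.hom g) (Y : ℕ →ᵇ B) - Y)) = 0 := fun g => by
    rw [seqMk_eq_zero]
    refine squeeze_zero' (Eventually.of_forall fun n => norm_nonneg _) ?_ hm0
    filter_upwards [hm.eventually (hT g)] with n hn
    exact hEann (m n) g hn n
  let Y₁ : pairSeq K := (1 - E) * Y * (1 - E)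
  refine ⟨⟨relClass K Y₁, α.mem_fixed.2 fun g _ => ?_⟩, Y₁, rfl, ?_⟩
  · rw [act_relClass]
    refine relClass_congr ?_
    show seqMk B atTop (seqComp (α.hom g) ((1 - E₀) * (Y : ℕ →ᵇ B) * (1 - E₀))) =
      seqMk B atTop ((1 - E₀) * (Y : ℕ →ᵇ B) * (1 - E₀))
    have h1 := hEd g
    simp only [map_mul, map_sub, map_one] at h1
    simp only [map_mul, map_sub, map_one, hEfix g]
    rw [← sub_eq_zero, ← sub_mul, ← mul_sub, h1, zero_mul]
  · simp [Y₁, hEnull']

end Seq

section Main

variable {M N : Type u} [CStarAlgebra M] [CStarAlgebra N]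

/-- The square-zero element built from an almost square-zero one. -/
def sqz (y : M) : M :=
  rcfc posF (y * star y - star y * y) * y * rcfc negF (y * star y - star y * y)

theorem map_sqz (φ : M →⋆ₐ[ℂ] N) (y : M) : φ (sqz y) = sqz (φ y) := by
  have hD : IsSelfAdjoint (y * star y - star y * y) :=
    (IsSelfAdjoint.mul_star_self y).sub (IsSelfAdjoint.star_mul_self y)
  simp only [sqz, map_mul, map_rcfc φ _ continuous_posF hD, map_rcfc φ _ continuous_negF hD,
    map_sub, map_star]

theorem sqz_mul_sqz (y : M) : sqz y * sqz y = 0 := by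
  set D := y * star y - star y * y
  have h : rcfc negF D * rcfc posF D = 0 := by
    rw [rcfc, rcfc, ← cfc_mul _ _ D continuous_negF.continuousOn continuous_posF.continuousOn,
      ← cfc_const_zero ℝ D]
    exact cfc_congr fun t _ => by
      simp only [posF, negF]
      rcases le_total 0 t with ht | ht <;> simp [ht]
  show rcfc posF D * y * rcfc negF D * (rcfc posF D * y * rcfc negF D) = 0
  simp only [mul_assoc]
  rw [← mul_assoc (rcfc negF D) (rcfc posF D), h]
  simp

/-- The sum of the spreads. -/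
def spreadSum (y : Fin 6 → M) : M := ∑ i, (star (y i) * y i + y i * star (y i))

theorem isSelfAdjoint_spreadSum (y : Fin 6 → M) : IsSelfAdjoint (spreadSum y) :=
  isSelfAdjoint_sum _ fun i _ =>
    (IsSelfAdjoint.star_mul_self _).add (IsSelfAdjoint.mul_star_self _)

theorem map_spreadSum (φ : M →⋆ₐ[ℂ] N) (y : Fin 6 → M) :
    φ (spreadSum y) = spreadSum fun i => φ (y i) :=
  map_sum_spread φ y

theorem isSelfAdjoint_spreadSqz (y : Fin 6 → M) : IsSelfAdjoint (spreadSum fun i => sqz (y i)) :=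
  isSelfAdjoint_spreadSum _

theorem map_rcfc_spread (φ : M →⋆ₐ[ℂ] N) {g : ℝ → ℝ} (hg : Continuous g) (y : Fin 6 → M) :
    φ (rcfc g (spreadSum fun i => sqz (y i))) = rcfc g (spreadSum fun i => sqz (φ (y i))) := by
  rw [map_rcfc φ g hg (isSelfAdjoint_spreadSqz y), map_spreadSum]
  simp only [map_sqz]

/-- A character on the calculus of a spread sum of square-zero elements. -/
theorem char_rcfc_spread (χ : M →⋆ₐ[ℂ] ℂ) {g : ℝ → ℝ} (hg : Continuous g) (y : Fin 6 → M) :
    χ (rcfc g (spreadSum fun i => sqz (y i))) = (g 0 : ℂ) := by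
  have h0 : ∀ i, χ (sqz (y i)) = 0 := fun i => by
    have h := congrArg χ (sqz_mul_sqz (y i))
    rw [map_mul, map_zero] at h
    exact mul_self_eq_zero.1 h
  have hup := isSelfAdjoint_spreadSqz y
  have hu : χ (spreadSum fun i => sqz (y i)) = 0 := by
    rw [spreadSum, map_sum_spread χ]
    simp [h0]
  have hcont : Continuous χ := AddMonoidHomClass.continuous_of_bound χ 1 fun z => by
    simpa only [one_mul] using NonUnitalStarAlgHom.norm_apply_le χ z
  have h := StarAlgHom.map_cfc (χ.restrictScalars ℝ) g _ hg.continuousOn hcont hup (hup.map _)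
  refine h.trans ?_
  rw [show (χ.restrictScalars ℝ) (spreadSum fun i => sqz (y i)) = 0 from hu, cfc_apply_zero]
  rfl

/-- The calculus of a spread sum modulo an ideal in which the family is square zero and full. -/
theorem map_rcfc_spread_eq_zero {δ : ℝ} (hδ0 : 0 < δ) (φ : M →⋆ₐ[ℂ] N) (Y₁ Y : Fin 6 → M)
    (heq : ∀ i, φ (Y₁ i) = φ (Y i)) (hsq : ∀ i, φ (Y i) * φ (Y i) = 0)
    (hfull : φ (rcfc (fun t => max (δ - t) 0) (∑ i, (star (Y i) * Y i + Y i * star (Y i)))) = 0)
    {g : ℝ → ℝ} (hg : Continuous g) (hg0 : ∀ t, (δ / 6) ^ 4 * δ ≤ t → g t = 0) :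
    φ (rcfc g (spreadSum fun i => sqz (Y₁ i))) = 0 := by
  rw [map_rcfc_spread φ hg Y₁]
  simp only [heq]
  have hcut : Continuous fun t => max (δ - t) 0 := by fun_prop
  have hs : IsSelfAdjoint (∑ i, (star (Y i) * Y i + Y i * star (Y i))) := isSelfAdjoint_spreadSum Y
  rw [map_rcfc φ _ hcut hs, map_sum_spread] at hfull
  have hq : (spreadSum fun i => sqz (φ (Y i))) =
      ∑ i, (star (φ (Y i)) * φ (Y i) + φ (Y i) * star (φ (Y i))) ^ 5 :=
    Finset.sum_congr rfl fun i _ => spread_eq (hsq i)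
  rw [hq, rcfc_sum_pow_eq hδ0 _ hfull g 0 hg0, map_zero]

end Main

/-- A character of the fixed relative algebra sees an invariant element null in all local
traces. -/
theorem pairStatement : PairStatement.{u, v} := by
  intro htr B _ _ K hK hdd G _ _ _ hG α u hu χ
  obtain ⟨δ, Y, hδ0, hδ1, hYinv, hYsq, hYfull⟩ := exists_tracial_seq htr hK hdd hG α hu
  choose y₁ Y₁ hι hY₁ using fun i => exists_fixed_compression hK hG hu (hYinv i)
  let ι : α.fixed atTop (⊤ : Subgroup G) →⋆ₐ[ℂ] RelQuot K atTop :=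
    (α.fixed atTop (⊤ : Subgroup G)).subtype
  set c : ℝ := (δ / 6) ^ 4 * δ with hc
  have hc0 : 0 < c := by positivity
  have hc1 : c ≤ 1 := mul_le_one₀ (pow_le_one₀ (by positivity) (by linarith)) hδ0.le hδ1
  let g : ℝ → ℝ := fun t => √(lowPiece c t)
  have hgc : Continuous g := (continuous_lowPiece c).sqrt
  let U : pairSeq K := spreadSum fun i => sqz (Y₁ i)
  have hU : IsSelfAdjoint U := isSelfAdjoint_spreadSqz Y₁
  let W : pairSeq K := rcfc g U
  have hW : IsSelfAdjoint W := isSelfAdjoint_rcfc g U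
  let w : α.fixed atTop (⊤ : Subgroup G) := rcfc g (spreadSum fun i => sqz (y₁ i))
  have hι' : (fun i => ι (y₁ i)) = fun i => relClass K (Y₁ i) := funext hι
  have hιw : ι w = relClass K W :=
    (map_rcfc_spread ι hgc y₁).trans ((congrArg (fun f : Fin 6 → RelQuot K atTop =>
      rcfc g (spreadSum fun i => sqz (f i))) hι').trans
      (map_rcfc_spread (relClass K) hgc Y₁).symm)
  have hχg : χ w = (g 0 : ℂ) := char_rcfc_spread χ hgc y₁
  have hWnull : LocNullSeq α u W := by
    rw [← nullQ_eq_zero]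
    refine map_rcfc_spread_eq_zero hδ0 (nullQ α u) Y₁ Y hY₁ hYsq hYfull hgc fun t ht => ?_
    simp only [g]
    rw [lowPiece, max_eq_left ((min_le_right _ _).trans (by linarith)), Real.sqrt_zero]
  refine ⟨w * w, ((W * W : pairSeq K) : ℕ →ᵇ B), (W * W).2, ?_, fun n => ?_, ?_,
    fun m θ hθ => ?_⟩
  · show relClass K (W * W) = ι (w * w)
    rw [map_mul, map_mul, hιw]
  · show IsPosContraction (relEval K n (W * W))
    refine ⟨⟨relEval K n W, ?_⟩, (norm_relEval_le n (W * W)).trans
      ((norm_mul_le _ _).trans ?_)⟩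
    · rw [map_mul, (hW.map (relEval K n)).star_eq]
    · have hW1 : ‖W‖ ≤ 1 := norm_cfc_le zero_le_one fun t _ => by
        rw [Real.norm_eq_abs, abs_of_nonneg (Real.sqrt_nonneg _), Real.sqrt_le_one]
        exact lowPiece_le_one c t
      exact mul_le_one₀ hW1 (norm_nonneg _) hW1
  · rw [map_mul, hχg]
    have h0 : g 0 = √c := by simp [g, lowPiece, hc1, hc0.le]
    rw [h0, ← Complex.ofReal_mul, Real.mul_self_sqrt hc0.le]
    exact Complex.ofReal_ne_zero.2 hc0.ne'
  · filter_upwards [hWnull 1 m (hu.mem m) θ hθ] with n hn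
    rw [α.hom_one, (hW.map (relEval K n)).star_eq, ← map_mul] at hn
    exact hn

end Vale.Agent.P095.NU
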