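import Vale.Agent.P095.NU.Specs
import Vale.Agent.P095.Full.Prepared

/-!
# P095, all amenable groups, non-unital: prepared excising elements

As `Full/Prepared.lean`, with every plateau inside the ideal; bumps only almost commute with, and
are only almost orthogonal against, elements of the ideal.
-/

noncomputable section

namespace Vale.Agent.P095.NU

universe u v

open Vale.Agent.P095.Gamma Vale.Agent.P095.Full Vale.Agent.P095.Relative
open Vale.Agent.P095.Full.Excision Vale.Agent.P095.Full.Prepared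

namespace PreparedRel

attribute [local instance] CStarAlgebra.spectralOrder CStarAlgebra.spectralOrderedRing

variable {B : Type u} [CStarAlgebra B]

/-- As `norm_factor_le`, with the product of the bumps only tested at `c z d`. -/
theorem norm_factor_le' {c P d Q k k' z : B} {θ : ℝ} (hk : ‖k‖ ≤ 2) (hk' : ‖k'‖ ≤ 2)
    (hc : ‖c‖ ≤ 1) (hd : ‖d‖ ≤ 1) (hQ : ‖Q‖ ≤ 1)
    (hw : ‖(c * z * d) * P - P * (c * z * d)‖ ≤ θ) (hPQ : ‖(c * z * d) * (P * Q)‖ ≤ θ) :
    ‖k * (c * P * c) * z * (d * Q * d * k')‖ ≤ 8 * θ := by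
  have h0 : 0 ≤ θ := (norm_nonneg _).trans hPQ
  set w := c * z * d with hwdef
  have hPwQ : ‖P * w * Q‖ ≤ 2 * θ := by
    rw [show P * w * Q = w * (P * Q) - (w * P - P * w) * Q by noncomm_ring]
    refine (norm_sub_le _ _).trans ?_
    have h2 : ‖(w * P - P * w) * Q‖ ≤ θ * 1 :=
      (norm_mul_le _ _).trans (mul_le_mul hw hQ (norm_nonneg _) h0)
    linarith
  rw [show k * (c * P * c) * z * (d * Q * d * k') = k * (c * (P * w * Q) * d) * k' by
    simp only [hwdef, mul_assoc]]
  calc ‖k * (c * (P * w * Q) * d) * k'‖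
      ≤ ‖k‖ * (‖c‖ * ‖P * w * Q‖ * ‖d‖) * ‖k'‖ := by
        refine (norm_mul_le _ _).trans (mul_le_mul_of_nonneg_right ?_ (norm_nonneg _))
        refine (norm_mul_le _ _).trans (mul_le_mul_of_nonneg_left ?_ (norm_nonneg _))
        exact (norm_mul_le _ _).trans
          (mul_le_mul_of_nonneg_right (norm_mul_le _ _) (norm_nonneg _))
    _ ≤ 2 * (1 * (2 * θ) * 1) * 2 := by gcongr
    _ = 8 * θ := by ring

variable {K : TestIdeal B}

/-- A plateau pair inside the ideal. -/
structure IsRelPlateau (K : TestIdeal B) (a c : B) : Prop where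
  plateau : IsPlateau a c
  mem_left : a ∈ K.carrier
  mem_right : c ∈ K.carrier

theorem IsRelPlateau.ball_left {a c : B} (h : IsRelPlateau K a c) : InPosBall K a :=
  ⟨h.plateau.contraction, h.mem_left⟩

theorem IsRelPlateau.ball_right {a c : B} (h : IsRelPlateau K a c) : InPosBall K c :=
  ⟨⟨h.plateau.pos, h.plateau.norm_eq.le⟩, h.mem_right⟩

/-- `exists_refine` stays inside the ideal. -/
theorem exists_refineRel [Nontrivial B] {a c P : B} (h : IsRelPlateau K a c) (hP : IsPos P)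
    (hP1 : ‖P‖ ≤ 1) (hn : 7 / 8 ≤ ‖c * P * c‖) :
    ∃ a' c' k : B, IsRelPlateau K a' c' ∧ a * a' = a' ∧ a' * a = a' ∧ ‖k‖ ≤ 2 ∧
      a' = k * (c * P * c) ∧ a' = c * P * c * k := by
  obtain ⟨a', c', k, h', h1, h2, hk, hl, hr⟩ := exists_refine h.plateau hP hP1 hn
  have ha : a' ∈ K.carrier := hl ▸ K.mul_left _ _ (K.mul_left _ _ h.mem_right)
  exact ⟨a', c', k, ⟨h', ha, h'.fix ▸ K.mul_right _ _ ha⟩, h1, h2, hk, hl, hr⟩

variable {G : Type v} [Group G] (α : RelAction G K)

theorem norm_hom_le (g : G) (x : B) : ‖α.hom g x‖ ≤ ‖x‖ :=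
  NonUnitalStarAlgHom.norm_apply_le (α.hom g) x

/-- Excision of `ω` on `Z` and orthogonality to the translates by `S`. -/
def GoodRel (ω : B →ₗ[ℂ] ℂ) (Z : Finset B) (S : Finset G) (ε : ℝ) (a : B) : Prop :=
  ∀ z ∈ Z, ‖a * z * a - ω z • (a * a)‖ ≤ ε ∧ ∀ g ∈ S, ‖a * z * α.hom g a‖ ≤ ε

variable {α}

theorem GoodRel.refine {ω : B →ₗ[ℂ] ℂ} {Z : Finset B} {S : Finset G} {ε : ℝ} {a b : B}
    (h : GoodRel α ω Z S ε a) (hb : ‖b‖ ≤ 1) (hab : a * b = b) (hba : b * a = b) :
    GoodRel α ω Z S ε b := by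
  refine fun z hz => ⟨?_, fun g hg => ?_⟩
  · have e : b * z * b - ω z • (b * b) = b * (a * z * a - ω z • (a * a)) * b := by
      rw [mul_sub, sub_mul, mul_smul_comm, smul_mul_assoc]
      congr 1
      · calc b * z * b = (b * a) * z * (a * b) := by rw [hba, hab]
          _ = _ := by simp only [mul_assoc]
      · congr 1
        calc b * b = (b * a) * (a * b) := by rw [hba, hab]
          _ = _ := by simp only [mul_assoc]
    rw [e]
    exact (norm_conj_le _ hb).trans (h z hz).1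
  · have hgb : α.hom g a * α.hom g b = α.hom g b := by rw [← map_mul, hab]
    have e : b * z * α.hom g b = b * (a * z * α.hom g a) * α.hom g b := by
      calc b * z * α.hom g b = (b * a) * z * (α.hom g a * α.hom g b) := by rw [hba, hgb]
        _ = _ := by simp only [mul_assoc]
    rw [e]
    have hz2 := (h z hz).2 g hg
    calc ‖b * (a * z * α.hom g a) * α.hom g b‖
        ≤ ‖b‖ * ‖a * z * α.hom g a‖ * ‖α.hom g b‖ :=
          (norm_mul_le _ _).trans (mul_le_mul_of_nonneg_right (norm_mul_le _ _) (norm_nonneg _))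
      _ ≤ 1 * ε * 1 := mul_le_mul (mul_le_mul hb hz2 (norm_nonneg _) zero_le_one)
          ((norm_hom_le α g b).trans hb) (norm_nonneg _)
          (by have := (norm_nonneg _).trans hz2; linarith)
      _ = ε := by ring

variable [TopologicalSpace.SeparableSpace B] [Nontrivial B]

/-- One more non-trivially acting element. -/
theorem exists_good (hnp : NU.NormProdStatement.{u}) (hsep : NU.SeparationStatement.{u, v})
    (hK : IsClosedIdeal K) (hsimp : IsSimpleRel K) {ω : B →ₗ[ℂ] ℂ} {Z : Finset B} {ε : ℝ}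
    (hε : 0 < ε) {a c : B} (hac : IsRelPlateau K a c) (h0 : GoodRel α ω Z ∅ ε a) (S : Finset G)
    (hS : ∀ g ∈ S, ¬ActsTriviallyRel α g) :
    ∃ a' c', IsRelPlateau K a' c' ∧ GoodRel α ω Z S ε a' := by
  classical
  induction S using Finset.induction_on with
  | empty => exact ⟨a, c, hac, h0⟩
  | @insert g S _ ih =>
    obtain ⟨a₁, c₁, h₁, hgood⟩ := ih fun x hx => hS x (Finset.mem_insert_of_mem hx)
    obtain ⟨X₀, θ₀, hX₀K, hθ₀, hX₀⟩ := hnp B K hK hsimp c₁ h₁.ball_right h₁.plateau.norm_eq c₁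
      h₁.ball_right h₁.plateau.norm_eq (1 / 8) (by norm_num)
    set θ := min θ₀ (ε / 8) with hθdef
    have hθ : 0 < θ := lt_min hθ₀ (by positivity)
    set X := X₀ ∪ Z.image fun z => c₁ * z * α.hom g c₁ with hXdef
    have hXK : ∀ x ∈ X, x ∈ K.carrier := fun x hx => by
      rcases Finset.mem_union.1 hx with hx | hx
      · exact hX₀K x hx
      · obtain ⟨z, -, rfl⟩ := Finset.mem_image.1 hx
        exact K.mul_left _ _ (α.mem g _ h₁.mem_right)
    obtain ⟨P, ⟨hP, hPn, hPc⟩, hPg⟩ := hsep B K hK hsimp G α g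
      (hS g (Finset.mem_insert_self _ _)) c₁ h₁.ball_right h₁.plateau.norm_eq X hXK θ hθ
    have hn := hX₀ P ⟨hP, by linarith [min_le_left θ₀ (ε / 8)],
      fun x hx => (hPc x (Finset.mem_union_left _ hx)).trans (min_le_left _ _)⟩
    obtain ⟨a₂, c₂, k, h₂, hl₁, hl₂, hk, hl, hr⟩ :=
      exists_refineRel h₁ hP.1 hP.2 (by linarith)
    refine ⟨a₂, c₂, h₂, fun z hz => ⟨((hgood.refine h₂.plateau.contraction.2 hl₁ hl₂) z hz).1,
      fun x hx => ?_⟩⟩
    rcases Finset.mem_insert.1 hx with rfl | hxS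
    · have e : α.hom x a₂ = α.hom x c₁ * α.hom x P * α.hom x c₁ * α.hom x k := by
        rw [hr, map_mul, map_mul, map_mul]
      have hmem : c₁ * z * α.hom x c₁ ∈ X :=
        Finset.mem_union_right _ (Finset.mem_image_of_mem _ hz)
      have hb := norm_factor_le' (c := c₁) (P := P) (d := α.hom x c₁) (Q := α.hom x P) (k := k)
        (k' := α.hom x k) (z := z) (θ := θ) hk ((norm_hom_le α x k).trans hk)
        h₁.plateau.norm_eq.le ((norm_hom_le α x c₁).trans h₁.plateau.norm_eq.le)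
        ((norm_hom_le α x P).trans hP.2) (hPc _ hmem) (hPg _ hmem)
      rw [← hl, ← e] at hb
      exact hb.trans (by linarith [min_le_right θ₀ (ε / 8)])
    · exact ((hgood.refine h₂.plateau.contraction.2 hl₁ hl₂) z hz).2 x hxS

end PreparedRel

open PreparedRel in
/-- Orthogonal excising elements inside the ideal, also orthogonal to their translates. -/
theorem preparedStatement_of (hnp : NU.NormProdStatement.{u})
    (hsep : NU.SeparationStatement.{u, v}) (hob : NU.OrthBumpStatement.{u}) :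
    NU.PreparedStatement.{u, v} := by
  intro B _ _ K hK hsimp hdd ω hω hexc G _ α L Z T ε hε
  classical
  have : Nontrivial B := by
    obtain ⟨k, -, hk⟩ := hω.ne_zero
    exact ⟨star k * k, 0, fun h => hk (by rw [h, map_zero])⟩
  obtain ⟨a₀, c₀, ha₀, hc₀, hc₀n, hfix, hex⟩ := hexc Z ε hε
  obtain ⟨a₁, c₁, h₁, hgood⟩ := exists_good (α := α) hnp hsep hK hsimp hε
    ⟨⟨ha₀.1, hc₀.1.1, hc₀n, hfix⟩, ha₀.2, hc₀.2⟩
    (fun z hz => ⟨hex z hz, fun g hg => absurd hg (Finset.notMem_empty g)⟩)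
    (T.filter fun g => ¬ActsTriviallyRel α g) (fun g hg => (Finset.mem_filter.1 hg).2)
  obtain ⟨X₀, θ₀, hX₀K, hθ₀, hX₀⟩ := hnp B K hK hsimp c₁ h₁.ball_right h₁.plateau.norm_eq c₁
    h₁.ball_right h₁.plateau.norm_eq (1 / 8) (by norm_num)
  set θ := min θ₀ (ε / 8) with hθdef
  have hθ : 0 < θ := lt_min hθ₀ (by positivity)
  have hXK : ∀ x ∈ X₀ ∪ Z.image fun z => c₁ * z * c₁, x ∈ K.carrier := fun x hx => by
    rcases Finset.mem_union.1 hx with hx | hx
    · exact hX₀K x hx
    · obtain ⟨z, -, rfl⟩ := Finset.mem_image.1 hx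
      exact K.mul_left _ _ h₁.mem_right
  obtain ⟨P, hP, hPP⟩ := hob B K hK hsimp hdd c₁ h₁.ball_right h₁.plateau.norm_eq L
    (X₀ ∪ Z.image fun z => c₁ * z * c₁) hXK θ hθ
  have hn : ∀ l, 1 - 1 / 8 ≤ ‖c₁ * P l * c₁‖ := fun l => hX₀ (P l) ⟨(hP l).1,
    by linarith [(hP l).2.1, min_le_left θ₀ (ε / 8)],
    fun x hx => ((hP l).2.2 x (Finset.mem_union_left _ hx)).trans (min_le_left _ _)⟩
  choose b a k hpl hl₁ hl₂ hk hl hr using fun l =>
    exists_refineRel h₁ (hP l).1.1 (hP l).1.2 (by linarith [hn l])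
  have hgl : ∀ l, GoodRel α ω Z (T.filter fun g => ¬ActsTriviallyRel α g) ε (b l) :=
    fun l => hgood.refine (hpl l).plateau.contraction.2 (hl₁ l) (hl₂ l)
  refine ⟨a, b, fun l => ⟨(hpl l).ball_right, (hpl l).plateau.norm_eq, (hpl l).ball_left,
    (hpl l).plateau.fix⟩, fun l l' z hz => ?_, fun g hg hna l l' z hz => ?_⟩
  · rcases eq_or_ne l l' with rfl | hne
    · rw [if_pos rfl]
      exact (hgl l z hz).1
    · have hmem : c₁ * z * c₁ ∈ X₀ ∪ Z.image fun z => c₁ * z * c₁ :=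
        Finset.mem_union_right _ (Finset.mem_image_of_mem _ hz)
      rw [if_neg hne, sub_zero, hl l, hr l']
      refine (norm_factor_le' (θ := θ) (hk l) (hk l') h₁.plateau.norm_eq.le
        h₁.plateau.norm_eq.le (hP l').1.2 ((hP l).2.2 _ hmem) (hPP l l' hne _ hmem)).trans ?_
      linarith [min_le_right θ₀ (ε / 8)]
  · have hmem : g ∈ T.filter fun g => ¬ActsTriviallyRel α g := Finset.mem_filter.2 ⟨hg, hna⟩
    have h2 := (hgood z hz).2 g hmem
    have hgb : α.hom g a₁ * α.hom g (b l') = α.hom g (b l') := by rw [← map_mul, hl₁ l']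
    calc ‖b l * z * α.hom g (b l')‖ = ‖b l * (a₁ * z * α.hom g a₁) * α.hom g (b l')‖ := by
          congr 1
          calc b l * z * α.hom g (b l') = (b l * a₁) * z * (α.hom g a₁ * α.hom g (b l')) := by
                rw [hl₂ l, hgb]
            _ = _ := by simp only [mul_assoc]
      _ ≤ ‖b l‖ * ‖a₁ * z * α.hom g a₁‖ * ‖α.hom g (b l')‖ :=
          (norm_mul_le _ _).trans (mul_le_mul_of_nonneg_right (norm_mul_le _ _) (norm_nonneg _))
      _ ≤ 1 * ε * 1 := mul_le_mul
          (mul_le_mul (hpl l).plateau.contraction.2 h2 (norm_nonneg _) zero_le_one)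
          ((norm_hom_le α g (b l')).trans (hpl l').plateau.contraction.2) (norm_nonneg _)
          (by linarith)
      _ = ε := by ring

end Vale.Agent.P095.NU
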