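import Vale.Agent.P095.NU.Defs
import Vale.Agent.P095.Relative.LocallyFinite

/-!
# P095, all amenable groups, non-unital: statements of the modules

See notes/P095_nonunital_helper67.md.  Each statement is proved in the file named in its docstring.
-/

noncomputable section

namespace Vale.Agent.P095.NU

universe u v

open Filter Topology BoundedContinuousFunction
open Vale.Agent.P095.Gamma Vale.Agent.P095.Full Vale.Agent.P095.Relative

/-- `Glimm.lean`: nuclearity factors through any state that does not vanish on the ideal. -/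
def GlimmStatement : Prop :=
  ∀ (B : Type u) [CStarAlgebra B] (K : TestIdeal B), IsClosedIdeal K → IsSimpleRel K →
    IsNuclearRel K → ∀ ω : B →ₗ[ℂ] ℂ, IsRelState K ω →
      ∀ (X : Finset B), (∀ x ∈ X, x ∈ K.carrier) → ∀ ε : ℝ, 0 < ε →
        ∃ (L N : ℕ) (c d : Fin L → Fin N → B),
          (∀ l i, c l i ∈ K.carrier ∧ d l i ∈ K.carrier) ∧ ∀ x ∈ X,
            ‖x - ∑ l, ∑ i, ∑ j, ω (star (d l i) * x * d l j) • (star (c l i) * c l j)‖ ≤ ε

/-- `Excision.lean`: a state excised inside the ideal, on all of `B`. -/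
def ExcisionStatement : Prop :=
  ∀ (B : Type u) [CStarAlgebra B] [TopologicalSpace.SeparableSpace B] (K : TestIdeal B),
    IsClosedIdeal K → (∃ k ∈ K.carrier, k ≠ 0) →
      ∃ ω : B →ₗ[ℂ] ℂ, IsRelState K ω ∧
        ∀ (X : Finset B) (ε : ℝ), 0 < ε → ∃ a c : B, InPosBall K a ∧ InPosBall K c ∧ ‖c‖ = 1 ∧
          a * c = c ∧ ∀ x ∈ X, ‖a * x * a - ω x • (a * a)‖ ≤ ε

/-- `Bumps.lean`: in a simple ideal the norm of a relative class is attained over every element. -/
def NormClassStatement : Prop :=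
  ∀ (B : Type u) [CStarAlgebra B] [TopologicalSpace.SeparableSpace B] (K : TestIdeal B),
    IsClosedIdeal K → IsSimpleRel K → ∀ (f : ℕ →ᵇ B) (hf : IsRel K atTop f),
      IsPos (cls f hf) → ‖cls f hf‖ = 1 → ∀ a : B, InPosBall K a → ‖a‖ = 1 →
        ∀ ε : ℝ, 0 < ε → ∃ᶠ n in atTop, 1 - ε ≤ ‖a * f n * a‖

/-- `Bumps.lean`: bumps over one element of norm one are bumps over any other. -/
def NormProdStatement : Prop :=
  ∀ (B : Type u) [CStarAlgebra B] [TopologicalSpace.SeparableSpace B] (K : TestIdeal B),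
    IsClosedIdeal K → IsSimpleRel K → ∀ u : B, InPosBall K u → ‖u‖ = 1 →
      ∀ a : B, InPosBall K a → ‖a‖ = 1 → ∀ ε : ℝ, 0 < ε →
        ∃ (X : Finset B) (θ : ℝ), (∀ x ∈ X, x ∈ K.carrier) ∧ 0 < θ ∧
          ∀ P : B, IsRelBump u X θ P → 1 - ε ≤ ‖a * P * a‖

/-- `Bumps.lean`: almost orthogonal bumps. -/
def OrthBumpStatement : Prop :=
  ∀ (B : Type u) [CStarAlgebra B] [TopologicalSpace.SeparableSpace B] (K : TestIdeal B),
    IsClosedIdeal K → IsSimpleRel K → HasRelDrop K → ∀ u : B, InPosBall K u → ‖u‖ = 1 →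
      ∀ (n : ℕ) (X : Finset B), (∀ x ∈ X, x ∈ K.carrier) → ∀ θ : ℝ, 0 < θ →
        ∃ P : Fin n → B, (∀ l, IsRelBump u X θ (P l)) ∧
          ∀ l l', l ≠ l' → ∀ x ∈ X, ‖x * (P l * P l')‖ ≤ θ

/-- `Separation.lean`: a non-trivially acting element moves some bump off itself. -/
def SeparationStatement : Prop :=
  ∀ (B : Type u) [CStarAlgebra B] [TopologicalSpace.SeparableSpace B] (K : TestIdeal B),
    IsClosedIdeal K → IsSimpleRel K → ∀ (G : Type v) [Group G] (α : RelAction G K) (g : G),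
      ¬ActsTriviallyRel α g → ∀ u : B, InPosBall K u → ‖u‖ = 1 →
        ∀ (X : Finset B), (∀ x ∈ X, x ∈ K.carrier) → ∀ θ : ℝ, 0 < θ →
          ∃ P : B, IsRelBump u X θ P ∧ ∀ x ∈ X, ‖x * (P * α.hom g P)‖ ≤ θ

/-- `Prepared.lean`: orthogonal excising elements, also orthogonal to their translates. -/
def PreparedStatement : Prop :=
  ∀ (B : Type u) [CStarAlgebra B] [TopologicalSpace.SeparableSpace B] (K : TestIdeal B),
    IsClosedIdeal K → IsSimpleRel K → HasRelDrop K →
      ∀ ω : B →ₗ[ℂ] ℂ, IsRelState K ω →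
        (∀ (X : Finset B) (ε : ℝ), 0 < ε → ∃ a c : B, InPosBall K a ∧ InPosBall K c ∧ ‖c‖ = 1 ∧
          a * c = c ∧ ∀ x ∈ X, ‖a * x * a - ω x • (a * a)‖ ≤ ε) →
        ∀ (G : Type v) [Group G] (α : RelAction G K) (L : ℕ) (Z : Finset B) (T : Finset G)
          (ε : ℝ), 0 < ε → ∃ a b : Fin L → B,
            (∀ l, InPosBall K (a l) ∧ ‖a l‖ = 1 ∧ InPosBall K (b l) ∧ b l * a l = a l) ∧
            (∀ l l', ∀ z ∈ Z,
              ‖b l * z * b l' - (if l = l' then ω z • (b l * b l) else 0)‖ ≤ ε) ∧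
            ∀ g ∈ T, ¬ActsTriviallyRel α g → ∀ l l', ∀ z ∈ Z, ‖b l * z * α.hom g (b l')‖ ≤ ε

/-- `Amplify.lean`: `p * N` copies of an element small in local traces lie below `2 * N` copies of
a local unit. -/
def AmplifyStatement : Prop :=
  ∀ (B : Type u) [CStarAlgebra B] (K : TestIdeal B), IsClosedIdeal K → IsNuclearRel K →
    ∀ h w w₁ : B, IsLocUnit K h w w₁ → ∀ ε : ℝ, 0 < ε → ∀ p : ℕ, 2 ≤ p →
      ∃ t : ℝ, 0 < t ∧ ∀ e : B, IsPosContraction e → LocLE h e t →
        ∃ (N : ℕ) (Z : Fin (2 * N) → Fin (p * N) → B), 0 < N ∧ (∀ q c, w * Z q c = Z q c) ∧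
          ∀ c c', ∑ q, star (Z q c) * Z q c' =
            if c = c' then cfc (posCut ε) (h * e * h) else 0

/-- `Absorb.lean`: colours and orthogonal full elements absorb a bounded ratio of copies of a
fixed element of the ideal. -/
def AbsorbStatement : Prop :=
  ∀ (B : Type u) [CStarAlgebra B] [TopologicalSpace.SeparableSpace B] (K : TestIdeal B),
    IsClosedIdeal K → IsSimpleRel K → HasRelDrop K →
      ∀ k k₁ : B, InPosBall K k → InPosBall K k₁ → k₁ * k = k →
        ∀ b : B, IsPos b → b ∈ K.carrier → b ≠ 0 →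
          ∃ p : ℕ, 2 ≤ p ∧ ∀ a : B, InPosBall K a → ∀ (N : ℕ), 0 < N →
            ∀ Z : Fin (2 * N) → Fin (p * N) → B, (∀ q c, k * Z q c = Z q c) →
              (∀ c c', ∑ q, star (Z q c) * Z q c' = if c = c' then a else 0) →
                ∀ ε : ℝ, 0 < ε → ∃ x c : B, x = b * c ∧ star x * x = cfc (posCut ε) a

/-- `Compare.lean`: comparison of elements small in local traces with a fixed non-zero element. -/
def CompareStatement : Prop :=
  ∀ (B : Type u) [CStarAlgebra B] [TopologicalSpace.SeparableSpace B] (K : TestIdeal B),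
    IsClosedIdeal K → IsSimpleRel K → IsNuclearRel K → HasRelDrop K →
      ∀ h w w₁ : B, IsLocUnit K h w w₁ → ∀ b : B, IsPos b → b ∈ K.carrier → b ≠ 0 →
        ∀ ε : ℝ, 0 < ε → ∃ θ : ℝ, 0 < θ ∧ ∀ e : B, IsPosContraction e → LocLE h e θ →
          ∃ x c : B, x = b * c ∧ star x * x = cfc (posCut ε) (h * e * h)

/-- `Combine.lean`: equivariant property (SI) relative to the ideal, with two orthogonal copies. -/
def SIStatement : Prop :=
  ∀ (B : Type u) [CStarAlgebra B] [TopologicalSpace.SeparableSpace B] (K : TestIdeal B),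
    IsClosedIdeal K → IsSimpleRel K → IsNuclearRel K → HasRelDrop K →
      ∀ (G : Type v) [Group G] [DecidableEq G], IsFolnerGroup G →
        ∀ (α : RelAction G K) (u : ℕ → B), IsUnitSeq K u →
          ∀ (T : Finset G) (X : Finset B), (∀ x ∈ X, x ∈ K.carrier) → ∀ η : ℝ, 0 < η →
            ∀ ε : ℝ, 0 < ε → ∃ (m : ℕ) (θ : ℝ) (T' : Finset G) (X' : Finset B),
              (∀ x ∈ X', x ∈ K.carrier) ∧ 0 < θ ∧
              ∀ e : B, IsPosContraction e → (∀ x ∈ X', ‖x * e - e * x‖ ≤ θ) →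
                (∀ g ∈ T', ∀ x ∈ X', ‖(α.hom g e - e) * x‖ ≤ θ) →
                LocLE (u m * u m) e θ →
                ∃ s : Fin 2 → B, (∀ i, ‖s i‖ ≤ 2) ∧
                  (∀ i, ∀ x ∈ X, ‖x * s i - s i * x‖ ≤ ε ∧
                    ‖x * star (s i) - star (s i) * x‖ ≤ ε) ∧
                  (∀ i, ∀ g ∈ T, ∀ x ∈ X, ‖(α.hom g (s i) - s i) * x‖ ≤ ε) ∧
                  ∀ i j, ∀ x ∈ X,
                    ‖(star (s i) * s j - (if i = j then cfc (posCut η) e else 0)) * x‖ ≤ ε

/-- `Tracial.lean`: almost central, almost invariant families that are almost square-zero and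
uniformly large in the traces over finitely many elements of the ideal. -/
def TracialStatement : Prop :=
  ∃ δ : ℝ, 0 < δ ∧ δ ≤ 1 ∧
    ∀ (B : Type u) [CStarAlgebra B] [TopologicalSpace.SeparableSpace B] (K : TestIdeal B),
      IsClosedIdeal K → HasRelDrop K → ∀ (G : Type v) [Group G] [Countable G] [DecidableEq G],
        IsFolnerGroup G → ∀ (α : RelAction G K) (T : Finset G) (X : Finset B),
          (∀ x ∈ X, x ∈ K.carrier) → ∀ (H : Finset B), (∀ h ∈ H, InPosBall K h) →
            ∀ ε : ℝ, 0 < ε → ∃ y : Fin 6 → B, (∀ i, ‖y i‖ ≤ 1) ∧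
              (∀ i, ∀ x ∈ X, ‖x * y i - y i * x‖ ≤ ε ∧
                ‖x * star (y i) - star (y i) * x‖ ≤ ε) ∧
              ∀ h ∈ H,
                (∀ i, ∀ g ∈ T,
                  LocLE (h * h) (star (α.hom g (y i) - y i) * (α.hom g (y i) - y i)) ε) ∧
                (∀ i, LocLE (h * h) (star (y i * y i) * (y i * y i)) ε) ∧
                LocLE (h * h) (cfc (posCut 0) (algebraMap ℝ B δ -
                  ∑ i, (star (y i) * y i + y i * star (y i)))) ε

/-- `Pair.lean`: a character of the fixed relative algebra sees an invariant element which is null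
in all local traces. -/
def PairStatement : Prop :=
  TracialStatement.{u, v} →
    ∀ (B : Type u) [CStarAlgebra B] [TopologicalSpace.SeparableSpace B] (K : TestIdeal B),
      IsClosedIdeal K → HasRelDrop K → ∀ (G : Type v) [Group G] [Countable G] [DecidableEq G],
        IsFolnerGroup G → ∀ (α : RelAction G K) (u : ℕ → B), IsUnitSeq K u →
          ∀ χ : α.fixed atTop (⊤ : Subgroup G) →⋆ₐ[ℂ] ℂ,
            ∃ (e : α.fixed atTop (⊤ : Subgroup G)) (E : ℕ →ᵇ B) (hE : IsRel K atTop E),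
              cls E hE = (e : RelQuot K atTop) ∧ (∀ n, IsPosContraction (E n)) ∧ χ e ≠ 0 ∧
              ∀ (m : ℕ) (θ : ℝ), 0 < θ → ∀ᶠ n in atTop, LocLE (u m * u m) (E n) θ

/-- `Assembly.lean`: equivariant Jiang–Su stability of the ideal. -/
def AmenableStatement : Prop :=
  ∀ (B : Type u) [CStarAlgebra B] [TopologicalSpace.SeparableSpace B] (K : TestIdeal B),
    IsClosedIdeal K → IsSimpleRel K → IsNuclearRel K → HasRelDrop K →
      ∀ (G : Type v) [Group G] [Countable G] [DecidableEq G], IsFolnerGroup G →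
        ∀ α : RelAction G K, ∃ y v : RelQuot K atTop, (∀ g, α.act g y = y) ∧ (∀ g, α.act g v = v) ∧
          y * y = 0 ∧ star v * v = 1 - star y * y - y * star y ∧ y * star y * v = v

end Vale.Agent.P095.NU
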