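import Vale.Agent.P095.Full.Separation
import Vale.Agent.P095.NU.Specs

/-!
# P095, all amenable groups, non-unital: separation

A group element moving relative central sequences moves some bump off itself: the excising element
`q` of the unital argument lives in the relative central sequence algebra, and products of far
apart copies of it are measured against finitely many elements of the ideal.
-/

noncomputable section

namespace Vale.Agent.P095.NU

universe u v

open Filter Topology BoundedContinuousFunction Vale.Agent.P101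
open Vale.Agent.P095.Gamma Vale.Agent.P095.Full Vale.Agent.P095.Relative

variable {B : Type u} [CStarAlgebra B] {K : TestIdeal B}

theorem isSelfAdjoint_of_isPos {a : B} (h : IsPos a) : IsSelfAdjoint a := by
  obtain ⟨w, rfl⟩ := h
  exact IsSelfAdjoint.star_mul_self w

/-- A relative class moved by a non-trivially acting element. -/
theorem exists_rel_moved [TopologicalSpace.SeparableSpace B] (hK : IsClosedIdeal K) {G : Type v}
    [Group G] (α : RelAction G K) {g : G} (hg : ¬ActsTriviallyRel α g) :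
    ∃ c : RelQuot K atTop, IsSelfAdjoint c ∧ α.act g c ≠ c := by
  classical
  unfold ActsTriviallyRel at hg
  push Not at hg
  obtain ⟨ε, hε, k₀, hk₀, hbad⟩ := hg
  have : Nonempty K.carrier := ⟨⟨0, hK.zero_mem⟩⟩
  set d : ℕ → K.carrier := TopologicalSpace.denseSeq K.carrier with hd
  have hz : ∀ n : ℕ, ∃ z : B, ‖z‖ ≤ 1 ∧
      (∀ i ≤ n, ‖(d i : B) * z - z * d i‖ ≤ 1 / (n + 1)) ∧
      ε < ‖(α.hom g z - z) * k₀‖ := fun n => by
    obtain ⟨z, hz1, hz2, hz3⟩ := hbad ((Finset.range (n + 1)).image fun i => (d i : B))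
      (1 / (n + 1)) (fun x hx => by
        obtain ⟨i, -, rfl⟩ := Finset.mem_image.1 hx
        exact (d i).2) (by positivity)
    exact ⟨z, hz1, fun i hi =>
      hz2 _ (Finset.mem_image_of_mem _ (Finset.mem_range.2 (Nat.lt_succ_of_le hi))), hz3⟩
  choose z hz1 hz2 hz3 using hz
  set f := bseq z 1 hz1 with hf
  have hrel : IsRel K atTop f := by
    rw [IsRel, mem_relCent]
    intro a ha
    rw [Metric.tendsto_nhds]
    intro r hr
    obtain ⟨b, ⟨i, rfl⟩, hb⟩ := Metric.mem_closure_iff.1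
      ((TopologicalSpace.denseRange_denseSeq K.carrier) ⟨a, ha⟩) (r / 4) (by positivity)
    obtain ⟨N, hN⟩ := exists_nat_one_div_lt (show (0 : ℝ) < r / 4 by positivity)
    refine eventually_atTop.2 ⟨max i N, fun n hn => ?_⟩
    rw [Subtype.dist_eq, dist_eq_norm] at hb
    rw [dist_zero_right, norm_norm, bseq_apply]
    have h1 : ‖(d i : B) * z n - z n * d i‖ ≤ 1 / ((n : ℝ) + 1) :=
      hz2 n i ((le_max_left _ _).trans hn)
    have h2 : (1 : ℝ) / (n + 1) ≤ 1 / (N + 1) := by
      refine one_div_le_one_div_of_le (by positivity) ?_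
      exact_mod_cast Nat.succ_le_succ ((le_max_right i N).trans hn)
    have e : a * z n - z n * a =
        (a - d i) * z n - z n * (a - d i) + ((d i : B) * z n - z n * d i) := by noncomm_ring
    rw [e]
    have h3 : ‖(a - (d i : B)) * z n‖ ≤ r / 4 * 1 := norm_mul_le_of_le hb.le (hz1 n)
    have h4 : ‖z n * (a - (d i : B))‖ ≤ 1 * (r / 4) := norm_mul_le_of_le (hz1 n) hb.le
    have h5 := norm_sub_le ((a - (d i : B)) * z n) (z n * (a - (d i : B)))
    have h6 := norm_add_le ((a - (d i : B)) * z n - z n * (a - (d i : B)))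
      ((d i : B) * z n - z n * d i)
    linarith
  set w := cls f hrel with hw
  have hne : α.act g w ≠ w := by
    intro h
    rw [hw, α.act_cls, cls_eq_iff] at h
    obtain ⟨n, hn⟩ := ((h k₀ hk₀).eventually (gt_mem_nhds hε)).exists
    exact absurd hn (not_lt.2 (le_of_lt (by simpa [hf] using hz3 n)))
  by_contra hno
  push Not at hno
  have hre : α.act g (w + star w) = w + star w := hno _ (IsSelfAdjoint.add_star_self w)
  have him : α.act g (Complex.I • (w - star w)) = Complex.I • (w - star w) := by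
    refine hno _ ?_
    rw [isSelfAdjoint_iff, star_smul, star_sub, star_star, Complex.star_def, Complex.conj_I,
      neg_smul, ← smul_neg, neg_sub]
  rw [map_smul] at him
  have him' : α.act g (w - star w) = w - star w := smul_right_injective _ Complex.I_ne_zero him
  refine hne ?_
  have e : w = (1 / 2 : ℂ) • ((w + star w) + (w - star w)) := by
    rw [add_add_sub_cancel, ← two_smul ℂ w, smul_smul]; norm_num
  conv_lhs => rw [e]
  rw [map_smul, map_add, hre, him', ← e]

/-- The classes of bounded sequences bound their products with elements of the ideal. -/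
theorem eventually_norm_mul_le {f : ℕ →ᵇ B} (hf : IsRel K atTop f) {r : ℝ}
    (hr : ‖cls f hf‖ < r) {x : B} (hx : x ∈ K.carrier) {θ : ℝ} (hθ : 0 < θ) :
    ∀ᶠ n in atTop, ‖x * f n‖ ≤ r * ‖x‖ + θ := by
  obtain ⟨w, hw, hwf, hwn⟩ := exists_cls_bound (cls f hf) hr
  have h1 := cls_eq_iff.1 hwf.symm x hx
  have h2 := mem_relCent.1 hf x hx
  filter_upwards [h1.eventually (eventually_le_nhds (half_pos hθ)),
    h2.eventually (eventually_le_nhds (half_pos hθ))] with n hn1 hn2
  have h3 : ‖w n * x‖ ≤ r * ‖x‖ :=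
    norm_mul_le_of_le ((w.norm_coe_le_norm n).trans hwn.le) le_rfl
  have e : x * f n = (x * f n - f n * x) + (f n - w n) * x + w n * x := by noncomm_ring
  rw [e]
  refine (norm_add₃_le).trans ?_
  linarith

/-- Bumps over `u` whose overlap with their translates is bounded away from one. -/
theorem exists_rel_bump_overlap [TopologicalSpace.SeparableSpace B] (hnc : NormClassStatement.{u})
    (hK : IsClosedIdeal K) (hs : IsSimpleRel K) {G : Type v} [Group G] (α : RelAction G K) {g : G}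
    (hg : ¬ActsTriviallyRel α g) {u₀ : B} (hu : InPosBall K u₀) (hun : ‖u₀‖ = 1) :
    ∃ κ : ℝ, 0 ≤ κ ∧ κ < 1 ∧ ∀ (X : Finset B), (∀ x ∈ X, x ∈ K.carrier) → ∀ θ : ℝ, 0 < θ →
      ∃ P : B, IsRelBump u₀ X θ P ∧ ∀ x ∈ X, ‖x * (P * α.hom g P)‖ ≤ κ * ‖x‖ + θ := by
  obtain ⟨c, hcsa, hne⟩ := exists_rel_moved hK α hg
  let _ : PartialOrder (RelQuot K (atTop : Filter ℕ)) := CStarAlgebra.spectralOrder _
  let _ : StarOrderedRing (RelQuot K (atTop : Filter ℕ)) := CStarAlgebra.spectralOrderedRing _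
  have : Nontrivial (RelQuot K (atTop : Filter ℕ)) := nontrivial_of_ne _ _ hne
  have : IsClosed ((⊤ : StarSubalgebra ℂ (RelQuot K (atTop : Filter ℕ))) :
      Set (RelQuot K (atTop : Filter ℕ))) := by
    simp only [StarSubalgebra.coe_top]; exact isClosed_univ
  obtain ⟨q, -, hq0, hqn, hlt⟩ := exists_norm_mul_map_lt_one (α.act g) ⊤ hcsa
    StarSubalgebra.mem_top StarSubalgebra.mem_top hne
  obtain ⟨s, hs'⟩ := CStarAlgebra.nonneg_iff_eq_star_mul_self.1 hq0
  set m := ‖q * α.act g q‖ with hm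
  have hsn : ‖s‖ = 1 := by
    have h : ‖s‖ * ‖s‖ = 1 := by rw [← CStarRing.norm_star_mul_self, ← hs', hqn]
    nlinarith [norm_nonneg s]
  refine ⟨(m + 1) / 2, by positivity, by linarith, fun X hX θ hθ => ?_⟩
  set ζ := min (θ / 4) (1 / 4) with hζ
  have hζ0 : 0 < ζ := lt_min (by positivity) (by norm_num)
  have hζ1 : ζ ≤ θ / 4 := min_le_left _ _
  have hζ2 : ζ ≤ 1 / 4 := min_le_right _ _
  obtain ⟨f, hf, hfs, hfn⟩ := exists_cls_bound s (show ‖s‖ < 1 + ζ by linarith)
  set P := star f * f with hP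
  have hPrel : IsRel K atTop P := hf.star.mul hf
  have hPq : cls P hPrel = q := (cls_mul hf.star hf).trans (by rw [cls_star hf, hfs, hs'])
  have hgrel := α.isRel g hPrel
  have hov : ‖cls (P * seqComp (α.hom g) P) (hPrel.mul hgrel)‖ < (m + 1) / 2 := by
    rw [cls_mul hPrel hgrel, ← α.act_cls g hPrel, hPq]; linarith
  have hev : ∀ᶠ n in atTop, ∀ x ∈ X, ‖x * P n - P n * x‖ ≤ θ ∧
      ‖x * (P n * α.hom g (P n))‖ ≤ (m + 1) / 2 * ‖x‖ + θ := by
    rw [Filter.eventually_all_finset]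
    intro x hx
    filter_upwards [(mem_relCent.1 hPrel x (hX x hx)).eventually (eventually_le_nhds hθ),
      eventually_norm_mul_le (hPrel.mul hgrel) hov (hX x hx) hθ] with n h1 h2
    exact ⟨h1, by simpa using h2⟩
  have hpos : IsPos (cls P hPrel) := ⟨s, by rw [hPq, hs']⟩
  have hbig := hnc B K hK hs P hPrel hpos (by rw [hPq, hqn]) u₀ hu hun ζ hζ0
  obtain ⟨n, hn1, hn2⟩ := (hbig.and_eventually hev).exists
  have hr : 0 < 1 + ζ := by linarith
  set t : ℂ := ((((1 + ζ) * (1 + ζ))⁻¹ : ℝ) : ℂ) with ht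
  have htn : ‖t‖ = ((1 + ζ) * (1 + ζ))⁻¹ := by
    rw [ht, Complex.norm_real, Real.norm_eq_abs, abs_of_pos (by positivity)]
  have ht1 : ‖t‖ ≤ 1 := by
    rw [htn]; exact inv_le_one_of_one_le₀ (by nlinarith)
  have hfn' : ‖f n‖ ≤ 1 + ζ := (f.norm_coe_le_norm n).trans hfn.le
  refine ⟨t • P n, ⟨⟨⟨(((1 + ζ)⁻¹ : ℝ) : ℂ) • f n, ?_⟩, ?_⟩, ?_, fun x hx => ?_⟩, fun x hx => ?_⟩
  · rw [star_smul, smul_mul_smul_comm, Complex.star_def, Complex.conj_ofReal,
      ← Complex.ofReal_mul, ← mul_inv]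
    rfl
  · have h : ‖P n‖ ≤ (1 + ζ) * (1 + ζ) := by
      show ‖star (f n) * f n‖ ≤ _
      rw [CStarRing.norm_star_mul_self]
      exact mul_le_mul hfn' hfn' (norm_nonneg _) hr.le
    rw [norm_smul, htn, inv_mul_le_iff₀ (by positivity)]
    linarith
  · rw [mul_smul_comm, smul_mul_assoc, norm_smul, htn,
      le_inv_mul_iff₀ (by positivity)]
    rcases le_or_gt (1 - θ) 0 with h | h
    · exact (mul_nonpos_of_nonneg_of_nonpos (by positivity) h).trans (norm_nonneg _)
    · refine le_trans ?_ hn1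
      have h1 : (1 + ζ) * (1 + ζ) * (1 - θ) ≤ (1 + 3 * ζ) * (1 - θ) :=
        mul_le_mul_of_nonneg_right (by nlinarith) h.le
      nlinarith
  · rw [mul_smul_comm, smul_mul_assoc, ← smul_sub, norm_smul]
    exact (mul_le_of_le_one_left (norm_nonneg _) ht1).trans (hn2 x hx).1
  · rw [map_smul, smul_mul_smul_comm, mul_smul_comm, norm_smul, norm_mul]
    exact (mul_le_of_le_one_left (norm_nonneg _)
      (mul_le_one₀ ht1 (norm_nonneg _) ht1)).trans (hn2 x hx).2

/-- Overlaps of products of almost commuting contractions multiply, over an element of the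
ideal. -/
theorem norm_rel_product_overlap_le {x R S P T : B} {a t r κ : ℝ} (hκ0 : 0 ≤ κ) (hκ1 : κ ≤ 1)
    (ha : 0 ≤ a) (hR : ‖R‖ ≤ 1) (hS : ‖S‖ ≤ 1) (hT : ‖T‖ ≤ 1)
    (hxR : ‖x * R - R * x‖ ≤ a) (hxRS : ‖x * (R * S)‖ ≤ r)
    (h₁ : ‖x * R * P - P * (x * R)‖ ≤ t)
    (h₂ : ‖x * R * R * S * P - P * (x * R * R * S)‖ ≤ t)
    (h₃ : ‖x * R * R * S * (P * T)‖ ≤ κ * ‖x * R * R * S‖ + t) :
    ‖x * (R * P * R * (S * T * S))‖ ≤ κ * r + a + 3 * t := by
  have e : x * (R * P * R * (S * T * S)) = (x * R * P - P * (x * R)) * (R * (S * T * S))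
      - (x * R * R * S * P - P * (x * R * R * S)) * (T * S)
      + x * R * R * S * (P * T) * S := by noncomm_ring
  have hy : ‖x * R * R * S‖ ≤ a + r := by
    have e' : x * R * R * S = (x * R - R * x) * R * S + R * (x * (R * S)) := by noncomm_ring
    rw [e']
    refine (norm_add_le_of_le (norm_mul_le_of_le (norm_mul_le_of_le hxR hR) hS)
      (norm_mul_le_of_le hR hxRS)).trans ?_
    linarith
  rw [e]
  refine (norm_add_le_of_le ((norm_sub_le _ _).trans (add_le_add
    (norm_mul_le_of_le h₁ (norm_mul_le_of_le hR (norm_mul_le_of_le (norm_mul_le_of_le hS hT) hS)))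
    (norm_mul_le_of_le h₂ (norm_mul_le_of_le hT hS)))) (norm_mul_le_of_le h₃ hS)).trans ?_
  have h4 := mul_le_mul_of_nonneg_left hy hκ0
  have h5 : κ * a ≤ a := mul_le_of_le_one_left ha hκ1
  linarith

/-- Non-triviality over `u` passes to products. -/
theorem norm_conj_product_ge {u₀ R P : B} {ε : ℝ} (hus : IsSelfAdjoint u₀) (hRs : IsSelfAdjoint R)
    (hc : 0 < ‖u₀ * R‖)
    (h : 1 - ε ≤ ‖((((‖u₀ * R‖ * ‖u₀ * R‖)⁻¹ : ℝ)) : ℂ) • (R * u₀ * (u₀ * R)) * P *
      (((((‖u₀ * R‖ * ‖u₀ * R‖)⁻¹ : ℝ)) : ℂ) • (R * u₀ * (u₀ * R)))‖) :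
    (1 - ε) * (‖u₀ * R‖ * ‖u₀ * R‖) ≤ ‖u₀ * (R * P * R) * u₀‖ := by
  set c := ‖u₀ * R‖ with hcdef
  have hc' : ‖R * u₀‖ = c := by rw [← norm_star, star_mul, hus.star_eq, hRs.star_eq]
  rw [smul_mul_assoc, smul_mul_smul_comm, norm_smul, norm_mul, Complex.norm_real,
    Real.norm_eq_abs, abs_of_pos (by positivity), ← mul_inv, le_inv_mul_iff₀ (by positivity),
    show R * u₀ * (u₀ * R) * P * (R * u₀ * (u₀ * R)) =
      R * u₀ * (u₀ * (R * P * R) * u₀) * (u₀ * R) by noncomm_ring] at h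
  have h2 : ‖R * u₀ * (u₀ * (R * P * R) * u₀) * (u₀ * R)‖ ≤
      c * ‖u₀ * (R * P * R) * u₀‖ * c :=
    norm_mul_le_of_le (norm_mul_le_of_le hc'.le le_rfl) le_rfl
  by_contra hlt
  push Not at hlt
  nlinarith [mul_pos hc hc]

/-- The separation of a non-trivially acting element. -/
theorem separationStatement_of (hnc : NormClassStatement.{u}) (hnp : NormProdStatement.{u}) :
    SeparationStatement.{u, v} := by
  intro B _ _ K hK hs G _ α g hg u₀ hu hun X hX θ hθ
  classical
  obtain ⟨κ, hκ0, hκ1, hbump⟩ := exists_rel_bump_overlap hnc hK hs α hg hu hun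
  have main : ∀ (j : ℕ) (X : Finset B), (∀ x ∈ X, x ∈ K.carrier) → ∀ θ : ℝ, 0 < θ →
      ∃ R : B, IsRelBump u₀ X θ R ∧ ∀ x ∈ X, ‖x * (R * α.hom g R)‖ ≤ κ ^ j * ‖x‖ + θ := by
    intro j
    induction j with
    | zero =>
      intro X _ θ hθ
      have h1 : ‖(1 : B)‖ ≤ 1 := by
        have : Nontrivial B := nontrivial_of_ne u₀ 0 (by rintro rfl; simp at hun)
        exact CStarRing.norm_one.le
      refine ⟨1, ⟨⟨⟨1, by simp⟩, h1⟩, ?_, fun x _ => by simp [hθ.le]⟩, fun x _ => by simp [hθ.le]⟩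
      have h2 : ‖u₀ * u₀‖ = 1 := by
        nth_rewrite 1 [← (isSelfAdjoint_of_isPos hu.1.1).star_eq]
        rw [CStarRing.norm_star_mul_self, hun, mul_one]
      rw [mul_one, h2]; linarith
    | succ j ih =>
      intro X hX θ hθ
      set σ := min (θ / 16) (1 / 4) with hσ
      have hσ0 : 0 < σ := lt_min (by positivity) (by norm_num)
      have hσ1 : σ ≤ θ / 16 := min_le_left _ _
      have hσ2 : σ ≤ 1 / 4 := min_le_right _ _
      obtain ⟨R, ⟨⟨hRp, hRn⟩, hRu, hRX⟩, hRg⟩ := ih X hX σ hσ0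
      have hus := isSelfAdjoint_of_isPos hu.1.1
      have hRs := isSelfAdjoint_of_isPos hRp
      set c := ‖u₀ * R‖ with hcdef
      have hc1 : c ≤ 1 := (norm_mul_le _ _).trans (by rw [hun, one_mul]; exact hRn)
      have hcl : 1 - σ ≤ c := hRu.trans ((norm_mul_le _ _).trans (by rw [hun, mul_one]))
      have hc : 0 < c := by linarith
      set a := ((((c * c)⁻¹ : ℝ)) : ℂ) • (R * u₀ * (u₀ * R)) with ha
      have haK : InPosBall K a ∧ ‖a‖ = 1 := by
        have hn : ‖R * u₀ * (u₀ * R)‖ = c * c := by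
          rw [show R * u₀ * (u₀ * R) = star (u₀ * R) * (u₀ * R) by
            rw [star_mul, hus.star_eq, hRs.star_eq], CStarRing.norm_star_mul_self]
        have hna : ‖a‖ = 1 := by
          rw [ha, norm_smul, hn, Complex.norm_real, Real.norm_eq_abs, abs_of_pos (by positivity),
            inv_mul_cancel₀ (by positivity)]
        refine ⟨⟨⟨⟨((c⁻¹ : ℝ) : ℂ) • (u₀ * R), ?_⟩, hna.le⟩, ?_⟩, hna⟩
        · rw [star_smul, smul_mul_smul_comm, Complex.star_def, Complex.conj_ofReal,
            ← Complex.ofReal_mul, ← mul_inv, star_mul, hus.star_eq, hRs.star_eq]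
        · refine hK.smul_mem _ _ ?_
          exact K.mul_right _ _ (K.mul_left R _ hu.2)
      obtain ⟨Y, θ₁, hYK, hθ₁, hY⟩ := hnp B K hK hs u₀ hu hun a haK.1 haK.2 σ hσ0
      set S := α.hom g R with hS
      set t := min θ₁ σ with ht
      have ht0 : 0 < t := lt_min hθ₁ hσ0
      have ht1 : t ≤ σ := min_le_right _ _
      set Z := X ∪ Y ∪ X.image (fun x => x * R) ∪ X.image (fun x => x * R * R * S) with hZ
      have hZK : ∀ z ∈ Z, z ∈ K.carrier := by
        intro z hz
        simp only [hZ, Finset.mem_union, Finset.mem_image] at hz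
        rcases hz with ((hz | hz) | ⟨x, hx, rfl⟩) | ⟨x, hx, rfl⟩
        · exact hX z hz
        · exact hYK z hz
        · exact K.mul_right _ _ (hX x hx)
        · exact K.mul_right _ _ (K.mul_right _ _ (K.mul_right _ _ (hX x hx)))
      obtain ⟨P, ⟨⟨hPp, hPn⟩, hPu, hPZ⟩, hPg⟩ := hbump Z hZK t ht0
      have hN := hY P ⟨⟨hPp, hPn⟩, by linarith [min_le_left θ₁ σ], fun y hy =>
        (hPZ y (by simp [hZ, hy])).trans (min_le_left _ _)⟩
      have hSn : ‖S‖ ≤ 1 := (NonUnitalStarAlgHom.norm_apply_le (α.hom g) R).trans hRn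
      have hTn : ‖α.hom g P‖ ≤ 1 := (NonUnitalStarAlgHom.norm_apply_le (α.hom g) P).trans hPn
      refine ⟨R * P * R, ⟨⟨?_, ?_⟩, ?_, fun x hx => ?_⟩, fun x hx => ?_⟩
      · obtain ⟨p, hp⟩ := hPp
        exact ⟨p * R, by rw [hp, star_mul, hRs.star_eq]; simp only [mul_assoc]⟩
      · exact (norm_mul_le_of_le (norm_mul_le_of_le hRn hPn) hRn).trans_eq (by ring)
      · have h := norm_conj_product_ge (P := P) (ε := σ) hus hRs hc hN
        have h' : (1 - σ) * ((1 - σ) * (1 - σ)) ≤ (1 - σ) * (c * c) :=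
          mul_le_mul_of_nonneg_left (mul_le_mul hcl hcl (by linarith) hc.le) (by linarith)
        have h3 : 1 - 3 * σ ≤ (1 - σ) * ((1 - σ) * (1 - σ)) := by
          nlinarith [mul_nonneg (sq_nonneg σ) (by linarith : (0 : ℝ) ≤ 3 - σ)]
        linarith [hcdef]
      · refine (norm_comm_product_le hRn hPn (hRX x hx) (hPZ x (by simp [hZ, hx]))).trans ?_
        linarith
      · rw [map_mul, map_mul]
        have hpow : κ ^ (j + 1) = κ * κ ^ j := pow_succ' κ j
        refine (norm_rel_product_overlap_le hκ0 hκ1.le hσ0.le hRn hSn hTn (hRX x hx) (hRg x hx)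
          (hPZ _ (by simp only [hZ, Finset.mem_union, Finset.mem_image]
                     exact Or.inl (Or.inr ⟨x, hx, rfl⟩)))
          (hPZ _ (by simp only [hZ, Finset.mem_union, Finset.mem_image]
                     exact Or.inr ⟨x, hx, rfl⟩))
          (hPg _ (by simp only [hZ, Finset.mem_union, Finset.mem_image]
                     exact Or.inr ⟨x, hx, rfl⟩))).trans ?_
        have hκσ : κ * σ ≤ σ := mul_le_of_le_one_left hσ0.le hκ1.le
        rw [hpow, mul_add]
        linarith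
  set M := ∑ x ∈ X, ‖x‖ + 1 with hM
  have hM0 : 0 < M := add_pos_of_nonneg_of_pos (Finset.sum_nonneg fun x _ => norm_nonneg x) one_pos
  obtain ⟨j, hj⟩ := exists_pow_lt_of_lt_one (show (0 : ℝ) < θ / 2 / M by positivity) hκ1
  obtain ⟨R, ⟨hR1, hR2, hR3⟩, hRg⟩ := main j X hX (θ / 2) (by positivity)
  refine ⟨R, ⟨hR1, by linarith, fun x hx => (hR3 x hx).trans (by linarith)⟩, fun x hx => ?_⟩
  refine (hRg x hx).trans ?_
  have h1 : ‖x‖ ≤ M := by
    have := Finset.single_le_sum (f := fun y : B => ‖y‖) (fun y _ => norm_nonneg y) hx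
    linarith
  have h2 : κ ^ j * ‖x‖ ≤ θ / 2 / M * M :=
    mul_le_mul hj.le h1 (norm_nonneg x) (by positivity)
  rw [div_mul_cancel₀ _ hM0.ne'] at h2
  linarith

end Vale.Agent.P095.NU
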