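import Vale.Agent.P095.NU.TracialSystem

/-!
# P095, all amenable groups, non-unital: the tracial half

Commuting reindexed copies of the classes of a site in the relative central sequence algebra give
an almost invariant, almost square-zero, almost full family with small error in all traces of that
algebra; the limit functionals of local traces carry the bounds to late levels.
-/

noncomputable section

namespace Vale.Agent.P095.NU

universe u v w

open Filter Topology BoundedContinuousFunction Vale.Agent.P101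
open Vale.Agent.P095.Gamma Vale.Agent.P095.Full Vale.Agent.P095.Full.Tracial
open Vale.Agent.P095.Relative

attribute [local instance] CStarAlgebra.spectralOrder CStarAlgebra.spectralOrderedRing

/-- Star homomorphisms commute with `rcalc`. -/
theorem hom_rcalc {C : Type u} [CStarAlgebra C] {D : Type w} [CStarAlgebra D] (φ : C →⋆ₐ[ℂ] D)
    {f : ℝ → ℝ} (hf : Continuous f) {a : C} (ha : IsSelfAdjoint a) :
    φ (rcalc f a) = rcalc f (φ a) :=
  hom_cfc φ hf ha

/-- A class of norm at most one lifts to a contraction. -/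
theorem exists_contraction_lift {C : Type u} [CStarAlgebra C] {D : Type w} [CStarAlgebra D]
    (π : C →⋆ₐ[ℂ] D) {s : C} (h : ‖π s‖ ≤ 1) : ∃ t : C, ‖t‖ ≤ 1 ∧ π t = π s := by
  set f : ℝ → ℝ := fun t => (Real.sqrt (max t 1))⁻¹ with hf
  have hfc : Continuous f := (Real.continuous_sqrt.comp (continuous_id.max continuous_const)).inv₀
    fun t => (Real.sqrt_pos.2 (lt_max_of_lt_right one_pos)).ne'
  have hsa : IsSelfAdjoint (star s * s) := IsSelfAdjoint.star_mul_self s
  set φ : C := cfc f (star s * s) with hφ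
  have hφsa : star φ = φ := (cfc_predicate f (star s * s) : IsSelfAdjoint _).star_eq
  refine ⟨s * φ, ?_, ?_⟩
  · have e : star (s * φ) * (s * φ) = cfc (fun t => f t * t * f t) (star s * s) := by
      rw [star_mul, hφsa, show φ * star s * (s * φ) = φ * (star s * s) * φ by
          simp only [mul_assoc],
        cfc_mul (fun t => f t * t) f _ (hfc.mul continuous_id).continuousOn hfc.continuousOn,
        cfc_mul f (fun t => t) _ hfc.continuousOn continuousOn_id, cfc_id' ℝ (star s * s) hsa]
    have hb : ‖star (s * φ) * (s * φ)‖ ≤ 1 := by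
      rw [e]
      refine norm_cfc_le zero_le_one fun t ht => ?_
      have ht0 : 0 ≤ t := spectrum_nonneg_of_nonneg (star_mul_self_nonneg s) ht
      have hm : 0 < max t 1 := lt_max_of_lt_right one_pos
      have e2 : f t * t * f t = t / max t 1 := by
        simp only [hf]
        rw [mul_right_comm, ← mul_inv, Real.mul_self_sqrt hm.le, inv_mul_eq_div]
      rw [e2, Real.norm_eq_abs, abs_of_nonneg (div_nonneg ht0 hm.le), div_le_one hm]
      exact le_max_left _ _
    rw [CStarRing.norm_star_mul_self] at hb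
    nlinarith [norm_nonneg (s * φ)]
  · rw [map_mul, hφ, hom_cfc π hfc hsa]
    have hone : cfc f (π (star s * s)) = 1 := by
      refine (cfc_congr fun t ht => ?_).trans (cfc_const_one ℝ _ (hsa.map π))
      rcases subsingleton_or_nontrivial D with hD | hD
      · simp [spectrum.of_subsingleton] at ht
      have h1 := (spectrum.norm_le_norm_of_mem ht)
      rw [map_mul, map_star, CStarRing.norm_star_mul_self] at h1
      have : t ≤ 1 := (le_abs_self t).trans (h1.trans (mul_le_one₀ h (norm_nonneg _) h))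
      simp [hf, max_eq_right this]
    rw [hone, mul_one]

/-- Precomposition with a map of the levels. -/
def compLevels {B : Type u} [CStarAlgebra B] (k : C(ℕ, ℕ)) : (ℕ →ᵇ B) →⋆ₐ[ℂ] (ℕ →ᵇ B) where
  toFun f := f.compContinuous k
  map_one' := rfl
  map_mul' _ _ := rfl
  map_zero' := rfl
  map_add' _ _ := rfl
  commutes' _ := rfl
  map_star' _ := rfl

/-- The action on the sequences commuting asymptotically with the ideal. -/
def seqRelAct {B : Type u} [CStarAlgebra B] {K : TestIdeal B} {G : Type v} [Group G]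
    (α : RelAction G K) (g : G) : relSeq K →⋆ₐ[ℂ] relSeq K :=
  StarAlgHom.codRestrict ((seqComp (α.hom g)).comp (relSeq K).subtype) (relSeq K)
    fun s => α.isRel g s.2

theorem clsHom_seqRelAct {B : Type u} [CStarAlgebra B] {K : TestIdeal B} {G : Type v} [Group G]
    (α : RelAction G K) (g : G) (s : relSeq K) :
    clsHom K (seqRelAct α g s) = α.act g (clsHom K s) := rfl

theorem evRel_seqRelAct {B : Type u} [CStarAlgebra B] {K : TestIdeal B} {G : Type v} [Group G]
    (α : RelAction G K) (g : G) (n : ℕ) (s : relSeq K) :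
    evRel K n (seqRelAct α g s) = α.hom g (evRel K n s) := rfl

/-- A trace is monotone. -/
theorem trace_re_mono {C : Type u} [CStarAlgebra C] {σ : C →ₗ[ℂ] ℂ} (hσ : IsTrace C σ) {a b : C}
    (h : a ≤ b) : (σ a).re ≤ (σ b).re := by
  obtain ⟨w, hw⟩ := CStarAlgebra.nonneg_iff_eq_star_mul_self.1 (sub_nonneg.2 h)
  have := hσ.re_nonneg w
  rw [← hw, map_sub, Complex.sub_re] at this
  linarith

/-- The summands of the error lie below it. -/
theorem summands_le_errElem {C : Type u} [CStarAlgebra C] {G : Type v} [Group G]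
    (β : G → C →⋆ₐ[ℂ] C) (T : Finset G) (Y : Fin 6 → C) :
    (∀ g ∈ T, ∀ i, star (β g (Y i) - Y i) * (β g (Y i) - Y i) ≤ errElem β T Y) ∧
      (∀ i, star (Y i * Y i) * (Y i * Y i) ≤ errElem β T Y) ∧
      rcalc (posCut 0) (algebraMap ℝ C (1 / 4) -
        ∑ i, (star (Y i) * Y i + Y i * star (Y i))) ≤ errElem β T Y ∧
      0 ≤ rcalc (posCut 0) (algebraMap ℝ C (1 / 4) -
        ∑ i, (star (Y i) * Y i + Y i * star (Y i))) := by
  set c := rcalc (posCut 0) (algebraMap ℝ C (1 / 4) -
    ∑ i, (star (Y i) * Y i + Y i * star (Y i))) with hc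
  have h3 : 0 ≤ c := cfc_nonneg fun t _ => le_max_right _ _
  set a := ∑ g ∈ T, ∑ i, star (β g (Y i) - Y i) * (β g (Y i) - Y i) with ha
  set b := ∑ i, star (Y i * Y i) * (Y i * Y i) with hb
  have h1 : 0 ≤ a := Finset.sum_nonneg fun g _ => Finset.sum_nonneg fun i _ => star_mul_self_nonneg _
  have h2 : 0 ≤ b := Finset.sum_nonneg fun i _ => star_mul_self_nonneg _
  have e : errElem β T Y = a + b + c := rfl
  rw [e]
  refine ⟨fun g hg i => ?_, fun i => ?_, le_add_of_nonneg_left (add_nonneg h1 h2), h3⟩
  · refine le_trans ?_ ((le_add_of_nonneg_right h2).trans (le_add_of_nonneg_right h3))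
    refine le_trans (Finset.single_le_sum
      (f := fun j => star (β g (Y j) - Y j) * (β g (Y j) - Y j))
      (fun j _ => star_mul_self_nonneg _) (Finset.mem_univ i)) ?_
    exact Finset.single_le_sum (f := fun k => ∑ j, star (β k (Y j) - Y j) * (β k (Y j) - Y j))
      (fun k _ => Finset.sum_nonneg fun j _ => star_mul_self_nonneg _) hg
  · refine le_trans ?_ ((le_add_of_nonneg_left h1).trans (le_add_of_nonneg_right h3))
    exact Finset.single_le_sum (f := fun j => star (Y j * Y j) * (Y j * Y j))
      (fun j _ => star_mul_self_nonneg _) (Finset.mem_univ i)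

/-- The invariant family in the relative central sequence algebra. -/
theorem exists_rel_family {B : Type u} [CStarAlgebra B] [TopologicalSpace.SeparableSpace B]
    {K : TestIdeal B} (hK : IsClosedIdeal K) (hdd : HasRelDrop K) {G : Type v} [Group G]
    [Countable G] [DecidableEq G] (hG : IsFolnerGroup G) (α : RelAction G K) (T : Finset G)
    {ε : ℝ} (hε : 0 < ε) :
    ∃ Y : Fin 6 → RelQuot K atTop, (∀ i, ‖Y i‖ ≤ 1) ∧
      ∀ σ : RelQuot K atTop →ₗ[ℂ] ℂ, IsTrace _ σ →
        ‖σ (errElem (fun g => α.act g) T Y)‖ ≤ ε := by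
  obtain ⟨c, hcn, hcr⟩ := exists_siteClasses hdd
  have hlift : ∀ i, ∃ s : relSeq K, clsHom K s = c i ∧ ∀ j, i = .inl j → ‖s‖ ≤ 1 := fun i => by
    obtain ⟨s, hs⟩ := clsHom_surjective K (c i)
    rcases i with j | j
    · obtain ⟨t, ht1, ht⟩ := exists_contraction_lift (clsHom K) (s := s) (hs ▸ hcn j)
      exact ⟨t, ht.trans hs, fun _ _ => ht1⟩
    · exact ⟨s, hs, fun j h => absurd h Sum.inr_ne_inl⟩
  choose srep hsrep hsn using hlift
  let F : G × SiteGen → ℕ →ᵇ B := fun p => seqComp (α.hom p.1) (srep p.2 : ℕ →ᵇ B)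
  let R : Fin 6 ⊕ Fin 4 → ℕ →ᵇ B := fun p => ((siteRel srep p : relSeq K) : ℕ →ᵇ B)
  have hR : ∀ p, ∀ k ∈ K.carrier, Tendsto (fun n => ‖R p n * k‖) atTop (𝓝 0) := fun p => by
    refine (cls_eq_zero_iff (hf := (siteRel srep p).2)).1 ?_
    rw [← clsHom_apply, map_siteRel]
    simp only [hsrep]
    exact hcr p
  obtain ⟨ks, hrel, hnull, hkc⟩ :=
    exists_reindex_rel hK.zero_mem F (fun p => α.isRel p.1 (srep p.2).2) R hR
  let sk : Site → SiteGen → relSeq K := fun s i =>
    ⟨(F (1, i)).compContinuous (ks (Encodable.encode s)), hrel _ _⟩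
  have hsk : ∀ s i, (sk s i : ℕ →ᵇ B) = compLevels (ks (Encodable.encode s)) (srep i : ℕ →ᵇ B) :=
    fun s i => DFunLike.ext _ _ fun n => α.hom_one _
  refine exists_invariant_family (fun g => α.act g) α.act_one α.act_mul
    (fun s i => clsHom K (sk s i)) (fun s i => ?_) (fun s p => ?_)
    (fun s t hst g k i j => ?_) hG T hε
  · refine (NonUnitalStarAlgHom.norm_apply_le (clsHom K) _).trans ?_
    show ‖(sk s (.inl i) : ℕ →ᵇ B)‖ ≤ 1
    refine (BoundedContinuousFunction.norm_le zero_le_one).2 fun n => ?_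
    rw [hsk]
    exact ((srep (.inl i) : ℕ →ᵇ B).norm_coe_le_norm _).trans (hsn _ i rfl)
  · rw [← map_siteRel (clsHom K) (sk s) p]
    refine (cls_eq_zero_iff (hf := (siteRel (sk s) p).2)).2 fun k hk => ?_
    have e : ((siteRel (sk s) p : relSeq K) : ℕ →ᵇ B) =
        compLevels (ks (Encodable.encode s)) (R p) := by
      show (relSeq K).subtype (siteRel (sk s) p) =
        compLevels (ks (Encodable.encode s)) ((relSeq K).subtype (siteRel srep p))
      rw [map_siteRel, map_siteRel, map_siteRel]
      exact congrArg (fun a => siteRel a p) (funext fun i => hsk s i)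
    rw [e]
    exact hnull _ p k hk
  · have hact : ∀ g s i, α.act g (clsHom K (sk s i)) =
        cls _ (hrel (Encodable.encode s) (g, i)) := fun g s i => by
      rw [← clsHom_seqRelAct, clsHom_apply]
      exact cls_congr (DFunLike.ext _ _ fun n => congrArg (α.hom g) (α.hom_one _)) _
    show StarCommute (α.act g (clsHom K (sk s i))) (α.act k (clsHom K (sk t j)))
    rw [hact, hact]
    exact hkc _ _ (fun h => hst (Encodable.encode_injective h)) _ _

/-- **The tracial half.** -/
theorem tracialStatement : TracialStatement.{u, v} := by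
  refine ⟨1 / 4, by norm_num, by norm_num, ?_⟩
  intro B _ _ K hK hdd G _ _ _ hG α T X hX H hH ε hε
  obtain ⟨Y, hYn, hY⟩ := exists_rel_family hK hdd hG α T (ε := ε / 2) (half_pos hε)
  have hlift : ∀ i, ∃ s : relSeq K, ‖s‖ ≤ 1 ∧ clsHom K s = Y i := fun i => by
    obtain ⟨s, hs⟩ := clsHom_surjective K (Y i)
    obtain ⟨t, ht1, ht⟩ := exists_contraction_lift (clsHom K) (s := s) (hs ▸ hYn i)
    exact ⟨t, ht1, ht.trans hs⟩
  choose y hy1 hyc using hlift
  obtain ⟨hA, hB, hC, hC0⟩ := summands_le_errElem (fun g => α.act g) T Y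
  -- small classes give small local traces at late levels
  have hev : ∀ z : relSeq K, 0 ≤ clsHom K z → clsHom K z ≤ errElem (fun g => α.act g) T Y →
      ∀ h ∈ H, ∀ᶠ n in atTop, LocLE (h * h) (evRel K n z) ε := fun z hz0 hzle h hh =>
    eventually_locLE (hH h hh) z.2 (IsSelfAdjoint.of_nonneg hz0) (half_pos hε).le
      (half_lt_self hε) fun σ hσ =>
        (trace_re_mono hσ hzle).trans ((Complex.re_le_norm _).trans (hY σ hσ))
  let d : G → Fin 6 → relSeq K := fun g i => seqRelAct α g (y i) - y i
  let q : relSeq K := algebraMap ℝ (relSeq K) (1 / 4) -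
    ∑ i, (star (y i) * y i + y i * star (y i))
  have hqsa : IsSelfAdjoint q := by
    refine (IsSelfAdjoint.algebraMap _ (IsSelfAdjoint.all _)).sub (isSelfAdjoint_sum _ fun i _ => ?_)
    exact (IsSelfAdjoint.star_mul_self _).add (IsSelfAdjoint.mul_star_self _)
  have hpc : Continuous (posCut 0) := by unfold posCut; fun_prop
  have E1 : ∀ g ∈ T, ∀ i, ∀ h ∈ H, ∀ᶠ n in atTop, LocLE (h * h)
      (star (α.hom g (evRel K n (y i)) - evRel K n (y i)) *
        (α.hom g (evRel K n (y i)) - evRel K n (y i))) ε := fun g hg i h hh => by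
    have e : clsHom K (star (d g i) * d g i) =
        star (α.act g (Y i) - Y i) * (α.act g (Y i) - Y i) := by
      rw [map_mul, map_star, map_sub, clsHom_seqRelAct, hyc]
    refine (hev _ (by rw [e]; exact star_mul_self_nonneg _) (by rw [e]; exact hA g hg i) h hh).mono
      fun n hn => ?_
    rwa [map_mul, map_star, map_sub, evRel_seqRelAct] at hn
  have E2 : ∀ i, ∀ h ∈ H, ∀ᶠ n in atTop, LocLE (h * h)
      (star (evRel K n (y i) * evRel K n (y i)) * (evRel K n (y i) * evRel K n (y i))) ε :=
    fun i h hh => by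
    have e : clsHom K (star (y i * y i) * (y i * y i)) = star (Y i * Y i) * (Y i * Y i) := by
      rw [map_mul, map_star, map_mul, hyc]
    refine (hev _ (by rw [e]; exact star_mul_self_nonneg _) (by rw [e]; exact hB i) h hh).mono
      fun n hn => ?_
    rwa [map_mul, map_star, map_mul] at hn
  have E3 : ∀ h ∈ H, ∀ᶠ n in atTop, LocLE (h * h) (cfc (posCut 0) (algebraMap ℝ B (1 / 4) -
      ∑ i, (star (evRel K n (y i)) * evRel K n (y i) +
        evRel K n (y i) * star (evRel K n (y i))))) ε := fun h hh => by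
    have e : clsHom K (rcalc (posCut 0) q) = rcalc (posCut 0) (algebraMap ℝ (RelQuot K atTop) (1 / 4) -
        ∑ i, (star (Y i) * Y i + Y i * star (Y i))) := by
      rw [hom_rcalc _ hpc hqsa]
      simp only [q, map_sub, map_sum, map_add, map_mul, map_star, hyc,
        IsScalarTower.algebraMap_apply ℝ ℂ (relSeq K),
        IsScalarTower.algebraMap_apply ℝ ℂ (RelQuot K atTop), AlgHomClass.commutes]
    refine (hev _ (by rw [e]; exact hC0) (by rw [e]; exact hC) h hh).mono fun n hn => ?_
    rw [hom_rcalc _ hpc hqsa] at hn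
    simp only [q, rcalc, map_sub, map_sum, map_add, map_mul, map_star,
      IsScalarTower.algebraMap_apply ℝ ℂ (relSeq K), AlgHomClass.commutes] at hn
    rwa [← IsScalarTower.algebraMap_apply ℝ ℂ B] at hn
  have E4 : ∀ i, ∀ x ∈ X, ∀ᶠ n in atTop,
      ‖x * evRel K n (y i) - evRel K n (y i) * x‖ ≤ ε ∧
        ‖x * star (evRel K n (y i)) - star (evRel K n (y i)) * x‖ ≤ ε := fun i x hx =>
    ((mem_relCent.1 (y i).2 x (hX x hx)).eventually (ge_mem_nhds hε)).and
      ((mem_relCent.1 (star (y i)).2 x (hX x hx)).eventually (ge_mem_nhds hε))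
  have E : ∀ᶠ n in atTop, (∀ i, ∀ x ∈ X,
      ‖x * evRel K n (y i) - evRel K n (y i) * x‖ ≤ ε ∧
        ‖x * star (evRel K n (y i)) - star (evRel K n (y i)) * x‖ ≤ ε) ∧
      ∀ h ∈ H, (∀ i, ∀ g ∈ T, LocLE (h * h)
          (star (α.hom g (evRel K n (y i)) - evRel K n (y i)) *
            (α.hom g (evRel K n (y i)) - evRel K n (y i))) ε) ∧
        (∀ i, LocLE (h * h)
          (star (evRel K n (y i) * evRel K n (y i)) * (evRel K n (y i) * evRel K n (y i))) ε) ∧
        LocLE (h * h) (cfc (posCut 0) (algebraMap ℝ B (1 / 4) -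
          ∑ i, (star (evRel K n (y i)) * evRel K n (y i) +
            evRel K n (y i) * star (evRel K n (y i))))) ε :=
    (eventually_all.2 fun i => X.eventually_all.2 (E4 i)).and (H.eventually_all.2 fun h hh =>
      (eventually_all.2 fun i => T.eventually_all.2 fun g hg => E1 g hg i h hh).and
        ((eventually_all.2 fun i => E2 i h hh).and (E3 h hh)))
  obtain ⟨n, hn1, hn2⟩ := E.exists
  exact ⟨fun i => evRel K n (y i),
    fun i => (NonUnitalStarAlgHom.norm_apply_le _ _).trans (hy1 i), hn1, hn2⟩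

end Vale.Agent.P095.NU
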