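import Vale.Agent.P095.NU.Bumps
import Vale.Agent.P095.Gamma.Outer

/-!
# P095, all amenable groups, non-unital: limits of local traces

For `0 ≤ h ≤ 1` in the ideal and traces on the algebras generated by `h² B h²`, the functional
`c ↦ lim τ (h² c h²)` is positive, tracial on the relative central sequence algebra, and at most
one at `1`.  So bounds in all traces of that algebra give bounds in the local traces of late
levels.
-/

noncomputable section

namespace Vale.Agent.P095.NU

universe u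

open Filter Topology BoundedContinuousFunction Vale.Agent.P101
open Vale.Agent.P095.Gamma Vale.Agent.P095.Full Vale.Agent.P095.Relative
open scoped ComplexOrder

variable {B : Type u} [CStarAlgebra B]

section RelSeq

variable (K : TestIdeal B)

/-- The bounded sequences commuting asymptotically with the ideal. -/
def relSeq : StarSubalgebra ℂ (ℕ →ᵇ B) := (relCent K atTop).comap (seqMk B atTop)

instance relSeq.isClosed : IsClosed (relSeq K : Set (ℕ →ᵇ B)) :=
  (relCent.isClosed K atTop).preimage (continuous_starAlgHom (seqMk B atTop))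

instance relSeq.instCStarAlgebra : CStarAlgebra (relSeq K) := StarSubalgebra.cstarAlgebra _

/-- The class of such a sequence. -/
def clsHom : relSeq K →⋆ₐ[ℂ] RelQuot K atTop :=
  (relMk K atTop).comp
    (StarAlgHom.codRestrict ((seqMk B atTop).comp (relSeq K).subtype) (relCent K atTop) fun s => s.2)

theorem clsHom_apply (s : relSeq K) : clsHom K s = cls (s : ℕ →ᵇ B) s.2 := rfl

theorem clsHom_surjective : Function.Surjective (clsHom K) := fun c => by
  obtain ⟨f, hf, rfl⟩ := exists_cls c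
  exact ⟨⟨f, hf⟩, rfl⟩

/-- The value of a sequence at a level. -/
def evRel (n : ℕ) : relSeq K →⋆ₐ[ℂ] B := (evalAt n).comp (relSeq K).subtype

theorem evRel_apply (n : ℕ) (s : relSeq K) : evRel K n s = (s : ℕ →ᵇ B) n := rfl

end RelSeq

attribute [local instance] CStarAlgebra.spectralOrder CStarAlgebra.spectralOrderedRing

theorem abs_sub_sq_div_le {η t : ℝ} (hη : 0 < η) (ht : 0 ≤ t) :
    |t - t * t * (1 / max t η)| ≤ η := by
  rcases le_total η t with h | h
  · have ht0 : t ≠ 0 := (lt_of_lt_of_le hη h).ne'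
    rw [max_eq_left h, show t - t * t * (1 / t) = 0 by field_simp; ring, abs_zero]
    exact hη.le
  · have h1 : t * t * (1 / η) ≤ t := by
      rw [mul_one_div, div_le_iff₀ hη]
      exact mul_le_mul_of_nonneg_left h ht
    have h2 : 0 ≤ t * t * (1 / η) := by positivity
    rw [max_eq_right h, abs_le]
    exact ⟨by linarith, by linarith⟩

/-- `h x h` lies in the algebra generated by `h² B h²`. -/
theorem conj_mem_locAlg {h : B} (hh : 0 ≤ h) (hn : ‖h‖ ≤ 1) (x : B) :
    h * x * h ∈ locAlg (h * h) := by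
  rw [← SetLike.mem_coe, ← (locAlg.isClosed (h * h)).closure_eq, Metric.mem_closure_iff]
  intro ε hε
  set η : ℝ := min 1 (ε / (4 * (‖x‖ + 1))) with hηdef
  have hη : 0 < η := lt_min one_pos (by positivity)
  have hsa : IsSelfAdjoint h := IsSelfAdjoint.of_nonneg hh
  have hcont : Continuous fun t : ℝ => 1 / max t η :=
    continuous_const.div (by fun_prop) fun t => (lt_max_of_lt_right hη).ne'
  set g : B := cfc (fun t : ℝ => 1 / max t η) h with hg
  have hgh : Commute g h := (Commute.refl h).cfc_real _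
  have hd : ‖h - h * h * g‖ ≤ η := by
    have e : h - h * h * g = cfc (fun t : ℝ => t - t * t * (1 / max t η)) h := by
      rw [cfc_sub (fun t : ℝ => t) (fun t : ℝ => t * t * (1 / max t η)) h (by fun_prop)
        ((by fun_prop : Continuous fun t : ℝ => t * t).mul hcont).continuousOn,
        cfc_mul (fun t : ℝ => t * t) _ h (by fun_prop) hcont.continuousOn,
        cfc_mul (fun t : ℝ => t) (fun t : ℝ => t) h (by fun_prop) (by fun_prop),
        cfc_id' ℝ h hsa]
    rw [e]
    exact norm_cfc_le hη.le fun t ht =>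
      abs_sub_sq_div_le hη (spectrum_nonneg_of_nonneg hh ht)
  refine ⟨((locElem (h * h) (g * x * g) : locAlg (h * h)) : B), (locElem (h * h) (g * x * g)).2, ?_⟩
  rw [dist_eq_norm]
  show ‖h * x * h - h * h * (g * x * g) * (h * h)‖ < ε
  have hgh2 : g * (h * h) = h * h * g := (hgh.mul_right hgh).eq
  have e : h * x * h - h * h * (g * x * g) * (h * h) =
      (h - h * h * g) * x * h + h * h * g * x * (h - h * h * g) := by
    conv_rhs => rw [mul_sub (h * h * g * x), sub_mul, sub_mul]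
    rw [show h * h * (g * x * g) * (h * h) = h * h * g * x * (g * (h * h)) by
      simp only [mul_assoc], hgh2]
    abel
  have h2 : ‖h * h * g‖ ≤ 1 + η := by
    have := norm_le_norm_add_norm_sub' (h * h * g) h
    rw [norm_sub_rev] at hd
    linarith
  have b1 : ‖(h - h * h * g) * x * h‖ ≤ η * ‖x‖ * 1 :=
    norm_mul_le_of_le (norm_mul_le_of_le hd le_rfl) hn
  have b2 : ‖h * h * g * x * (h - h * h * g)‖ ≤ (1 + η) * ‖x‖ * η :=
    norm_mul_le_of_le (norm_mul_le_of_le h2 le_rfl) hd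
  have b3 : η * (4 * (‖x‖ + 1)) ≤ ε := by
    rw [← le_div_iff₀ (by positivity)]
    exact min_le_right _ _
  rw [e]
  refine (norm_add_le _ _).trans_lt ?_
  nlinarith [min_le_left (1 : ℝ) (ε / (4 * (‖x‖ + 1))), norm_nonneg x, hη]

/-- `x ↦ h x h` into the algebra generated by `h B h`, as a linear map. -/
def locLin (h : B) : B →ₗ[ℂ] locAlg h where
  toFun := locElem h
  map_add' x y := Subtype.ext (by simp [locElem, mul_add, add_mul])
  map_smul' c x := Subtype.ext (by simp [locElem])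

theorem locLin_apply (h x : B) : locLin h x = locElem h x := rfl

/-- A local trace is at most the norm. -/
theorem norm_trace_loc_le {hs : B} (hsn : ‖hs‖ ≤ 1) {τ : locAlg hs →ₗ[ℂ] ℂ}
    (hτ : IsTrace (locAlg hs) τ) (x : B) : ‖τ (locLin hs x)‖ ≤ ‖x‖ :=
  (hτ.norm_map_le_norm _).trans (show ‖hs * x * hs‖ ≤ ‖x‖ by
    have := norm_mul_le_of_le (norm_mul_le_of_le hsn (le_refl ‖x‖)) hsn
    simpa using this)

/-- Local traces are positive. -/
theorem trace_loc_star_mul_nonneg {hs : B} (hsa : star hs = hs) {τ : locAlg hs →ₗ[ℂ] ℂ}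
    (hτ : IsTrace (locAlg hs) τ) (x : B) : 0 ≤ τ (locLin hs (star x * x)) := by
  have h0 : (0 : B) ≤ (locAlg hs).subtype (locLin hs (star x * x)) := by
    show 0 ≤ hs * (star x * x) * hs
    rw [show hs * (star x * x) * hs = star (x * hs) * (x * hs) by
      rw [star_mul, hsa]; simp only [mul_assoc]]
    exact star_mul_self_nonneg _
  have hqsa : IsSelfAdjoint (locLin hs (star x * x)) :=
    Subtype.ext (IsSelfAdjoint.of_nonneg h0).star_eq
  obtain ⟨w, hw⟩ := exists_root (locAlg hs).subtype Subtype.val_injective hqsa h0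
  rw [← hw]
  exact hτ.nonneg w

/-- On sequences commuting with `h`, traces of `h² B h²` are asymptotically tracial. -/
theorem tendsto_loc_comm {K : TestIdeal B} {h : B} (hh0 : 0 ≤ h) (hn1 : ‖h‖ ≤ 1)
    (hK : h ∈ K.carrier) {τ : ℕ → (locAlg (h * h) →ₗ[ℂ] ℂ)}
    (hτ : ∀ n, IsTrace (locAlg (h * h)) (τ n)) {U : Filter ℕ} (hU : U ≤ atTop) (s t : relSeq K) :
    Tendsto (fun n => τ n (locLin (h * h) (((s * t : relSeq K) : ℕ →ᵇ B) n)) -
      τ n (locLin (h * h) (((t * s : relSeq K) : ℕ →ᵇ B) n))) U (𝓝 0) := by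
  let P : B → locAlg (h * h) := fun z => ⟨h * z * h, conj_mem_locAlg hh0 hn1 z⟩
  have key : ∀ a b : relSeq K, Tendsto (fun n =>
      τ n (locLin (h * h) (((a * b : relSeq K) : ℕ →ᵇ B) n)) -
      τ n (P ((a : ℕ →ᵇ B) n) * P ((b : ℕ →ᵇ B) n))) U (𝓝 0) := fun a b => by
    have ha := ((mem_relCent.1 a.2 h hK).mono_left hU).mul_const ‖(b : ℕ →ᵇ B)‖
    have hb := ((mem_relCent.1 b.2 h hK).mono_left hU).const_mul ‖(a : ℕ →ᵇ B)‖
    have hsum := ha.add hb
    rw [zero_mul, mul_zero, add_zero] at hsum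
    refine squeeze_zero_norm (fun n => ?_) hsum
    rw [← map_sub]
    refine ((hτ n).norm_map_le_norm _).trans ?_
    show ‖h * h * ((a : ℕ →ᵇ B) n * (b : ℕ →ᵇ B) n) * (h * h) -
      h * (a : ℕ →ᵇ B) n * h * (h * (b : ℕ →ᵇ B) n * h)‖ ≤ _
    set u := (a : ℕ →ᵇ B) n with hu
    set v := (b : ℕ →ᵇ B) n with hv
    have hu1 : ‖u‖ ≤ ‖(a : ℕ →ᵇ B)‖ := (a : ℕ →ᵇ B).norm_coe_le_norm n
    have hv1 : ‖v‖ ≤ ‖(b : ℕ →ᵇ B)‖ := (b : ℕ →ᵇ B).norm_coe_le_norm n
    have hsn : ‖h * h‖ ≤ 1 := (norm_mul_le _ _).trans (mul_le_one₀ hn1 (norm_nonneg _) hn1)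
    have e : h * h * (u * v) * (h * h) - h * u * h * (h * v * h) =
        h * (h * u - u * h) * v * (h * h) - h * u * h * (h * v - v * h) * h := by
      noncomm_ring
    rw [e]
    refine (norm_sub_le _ _).trans (add_le_add ?_ ?_)
    · calc ‖h * (h * u - u * h) * v * (h * h)‖
          ≤ 1 * ‖h * u - u * h‖ * ‖(b : ℕ →ᵇ B)‖ * 1 :=
            norm_mul_le_of_le (norm_mul_le_of_le (norm_mul_le_of_le hn1 le_rfl) hv1) hsn
        _ = ‖h * u - u * h‖ * ‖(b : ℕ →ᵇ B)‖ := by ring
    · calc ‖h * u * h * (h * v - v * h) * h‖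
          ≤ 1 * ‖(a : ℕ →ᵇ B)‖ * 1 * ‖h * v - v * h‖ * 1 :=
            norm_mul_le_of_le (norm_mul_le_of_le (norm_mul_le_of_le
              (norm_mul_le_of_le hn1 hu1) hn1) le_rfl) hn1
        _ = ‖(a : ℕ →ᵇ B)‖ * ‖h * v - v * h‖ := by ring
  have := (key s t).sub (key t s)
  rw [sub_zero] at this
  refine this.congr fun n => ?_
  rw [(hτ n).comm (P ((t : ℕ →ᵇ B) n))]
  ring

/-- Local traces of levels converging along an ultrafilter give a positive tracial functional on
the relative central sequence algebra, at most one at `1`. -/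
theorem exists_limit_functional {K : TestIdeal B} {h : B} (hh0 : 0 ≤ h) (hn1 : ‖h‖ ≤ 1)
    (hK : h ∈ K.carrier) {τ : ℕ → (locAlg (h * h) →ₗ[ℂ] ℂ)}
    (hτ : ∀ n, IsTrace (locAlg (h * h)) (τ n)) (U : Ultrafilter ℕ)
    (hU : (U : Filter ℕ) ≤ atTop) :
    ∃ φ : RelQuot K atTop →ₗ[ℂ] ℂ,
      (∀ c, 0 ≤ φ (star c * c)) ∧ (∀ c d, φ (c * d) = φ (d * c)) ∧ (φ 1).re ≤ 1 ∧
      ∀ f (hf : IsRel K atTop f),
        Tendsto (fun n => τ n (locLin (h * h) (f n))) U (𝓝 (φ (cls f hf))) := by
  have hhsa : star h = h := (IsSelfAdjoint.of_nonneg hh0).star_eq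
  have hsn : ‖h * h‖ ≤ 1 := (norm_mul_le _ _).trans (mul_le_one₀ hn1 (norm_nonneg _) hn1)
  have hsK : h * h ∈ K.carrier := K.mul_left h h hK
  have hlim : ∀ g : ℕ →ᵇ B,
      ∃ c, Tendsto (fun n => τ n (locLin (h * h) (g n))) U (𝓝 c) := fun g => by
    obtain ⟨c, -, hc⟩ := (isCompact_closedBall (0 : ℂ) ‖g‖).ultrafilter_le_nhds
      (U.map fun n => τ n (locLin (h * h) (g n))) (le_principal_iff.2 (Filter.mem_map.2
        (Eventually.of_forall fun n => by
          simpa using (norm_trace_loc_le hsn (hτ n) (g n)).trans (g.norm_coe_le_norm n))))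
    exact ⟨c, hc⟩
  choose L hL using hlim
  have hnull : ∀ s : relSeq K, clsHom K s = 0 → L (s : ℕ →ᵇ B) = 0 := fun s h0 => by
    refine tendsto_nhds_unique (hL _) (squeeze_zero_norm (fun n => ?_)
      (((cls_eq_zero_iff (hf := s.2)).1 h0 (h * h) hsK).mono_left hU))
    refine ((hτ n).norm_map_le_norm _).trans ?_
    show ‖h * h * (s : ℕ →ᵇ B) n * (h * h)‖ ≤ ‖(s : ℕ →ᵇ B) n * (h * h)‖
    rw [mul_assoc (h * h)]
    exact (norm_mul_le _ _).trans (mul_le_of_le_one_left (norm_nonneg _) hsn)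
  have hLadd : ∀ g g', L (g + g') = L g + L g' := fun g g' =>
    tendsto_nhds_unique (hL _) (by simpa [map_add] using (hL g).add (hL g'))
  have hLsmul : ∀ (c : ℂ) g, L (c • g) = c * L g := fun c g =>
    tendsto_nhds_unique (hL _) (by simpa [map_smul] using (hL g).const_mul c)
  let φ' : RelQuot K atTop → ℂ := fun c =>
    L ((Function.surjInv (clsHom_surjective K) c : relSeq K) : ℕ →ᵇ B)
  have hφ' : ∀ s, φ' (clsHom K s) = L (s : ℕ →ᵇ B) := fun s => by
    set t := Function.surjInv (clsHom_surjective K) (clsHom K s) with ht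
    have h0 : clsHom K (t - s) = 0 := by
      rw [map_sub, ht, Function.surjInv_eq (clsHom_surjective K), sub_self]
    have h1 : L (t : ℕ →ᵇ B) = L ((t - s : relSeq K) : ℕ →ᵇ B) + L (s : ℕ →ᵇ B) := by
      rw [← hLadd]; simp
    rw [hnull _ h0, zero_add] at h1
    exact h1
  let φ : RelQuot K atTop →ₗ[ℂ] ℂ :=
    { toFun := φ'
      map_add' := fun x y => by
        obtain ⟨s, rfl⟩ := clsHom_surjective K x
        obtain ⟨t, rfl⟩ := clsHom_surjective K y
        rw [← map_add, hφ', hφ', hφ']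
        exact hLadd _ _
      map_smul' := fun c x => by
        obtain ⟨s, rfl⟩ := clsHom_surjective K x
        rw [← map_smul, hφ', hφ']
        exact hLsmul _ _ }
  have hφ : ∀ s, φ (clsHom K s) = L (s : ℕ →ᵇ B) := hφ'
  refine ⟨φ, fun c => ?_, fun c d => ?_, ?_, fun f hf => ?_⟩
  · obtain ⟨s, rfl⟩ := clsHom_surjective K c
    rw [← map_star, ← map_mul, hφ]
    refine (isClosed_Ici (a := (0 : ℂ))).mem_of_tendsto (hL _) (Eventually.of_forall fun n => ?_)
    exact trace_loc_star_mul_nonneg (by rw [star_mul, hhsa]) (hτ n) ((s : ℕ →ᵇ B) n)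
  · obtain ⟨s, rfl⟩ := clsHom_surjective K c
    obtain ⟨t, rfl⟩ := clsHom_surjective K d
    rw [← map_mul, ← map_mul, hφ, hφ]
    exact sub_eq_zero.1
      (tendsto_nhds_unique ((hL _).sub (hL _)) (tendsto_loc_comm hh0 hn1 hK hτ hU s t))
  · rw [← map_one (clsHom K), hφ]
    refine (Complex.re_le_norm _).trans (le_of_tendsto (hL _).norm (Eventually.of_forall fun n => ?_))
    refine (norm_trace_loc_le hsn (hτ n) _).trans ?_
    rcases subsingleton_or_nontrivial B with hB | hB
    · rw [Subsingleton.elim (((1 : relSeq K) : ℕ →ᵇ B) n) 0, norm_zero]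
      exact zero_le_one
    · simp
  · rw [← clsHom_apply K ⟨f, hf⟩, hφ]
    exact hL f

/-- Bounds in all traces of the relative central sequence algebra give bounds in all local traces
at late levels. -/
theorem eventually_locLE {K : TestIdeal B} {h : B} (hh : InPosBall K h) {f : ℕ →ᵇ B}
    (hf : IsRel K atTop f) (hsa : IsSelfAdjoint (cls f hf)) {r ε : ℝ} (hr0 : 0 ≤ r) (hr : r < ε)
    (hσ : ∀ σ : RelQuot K atTop →ₗ[ℂ] ℂ, IsTrace _ σ → (σ (cls f hf)).re ≤ r) :
    ∀ᶠ n in atTop, LocLE (h * h) (f n) ε := by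
  have hh0 : (0 : B) ≤ h := by
    obtain ⟨w, rfl⟩ := hh.1.1
    exact star_mul_self_nonneg w
  by_contra hne
  set bad : Set ℕ := {n | ∃ τ : locAlg (h * h) →ₗ[ℂ] ℂ,
    IsTrace (locAlg (h * h)) τ ∧ ε < (τ (locElem (h * h) (f n))).re} with hbad
  have hfr : ∃ᶠ n in atTop, n ∈ bad := by
    rw [Filter.not_eventually] at hne
    refine hne.mono fun n hn => ?_
    simp only [LocLE] at hn
    push Not at hn
    exact hn
  have : (atTop ⊓ 𝓟 bad).NeBot := inf_principal_neBot_iff.2 fun U hU =>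
    (hfr.and_eventually hU).exists.imp fun x hx => ⟨hx.2, hx.1⟩
  obtain ⟨U, hU⟩ := Ultrafilter.exists_le (atTop ⊓ 𝓟 bad)
  have hUbad : ∀ᶠ n in (U : Filter ℕ), n ∈ bad :=
    (hU.trans inf_le_right) (mem_principal_self _)
  obtain ⟨N, τ₀, hτ₀, -⟩ := hUbad.exists
  classical
  let τ : ℕ → (locAlg (h * h) →ₗ[ℂ] ℂ) := fun n => if hn : n ∈ bad then hn.choose else τ₀
  have hτ : ∀ n, IsTrace (locAlg (h * h)) (τ n) := fun n => by
    simp only [τ]; split_ifs with hn
    · exact hn.choose_spec.1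
    · exact hτ₀
  have hbig : ∀ᶠ n in (U : Filter ℕ), ε < (τ n (locElem (h * h) (f n))).re :=
    hUbad.mono fun n hn => by
      simp only [τ, dif_pos hn]; exact hn.choose_spec.2
  obtain ⟨φ, hpos, hcomm, hone1, hφ⟩ :=
    exists_limit_functional hh0 hh.1.2 hh.2 hτ U (hU.trans inf_le_left)
  set c : RelQuot K atTop := cls f hf with hc
  have hlo : ε ≤ (φ c).re :=
    ge_of_tendsto ((Complex.continuous_re.tendsto _).comp (hφ f hf))
      (hbig.mono fun n hn => hn.le)
  have h11 := hpos 1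
  rw [star_one, mul_one] at h11
  have hone0 : 0 ≤ (φ 1).re := (Complex.le_def.1 h11).1
  have hone_im : (φ 1).im = 0 := (Complex.le_def.1 h11).2.symm
  rcases hone0.eq_or_lt with h0 | h0
  · -- the functional vanishes
    have hle : c ≤ algebraMap ℝ (RelQuot K atTop) ‖c‖ := hsa.le_algebraMap_norm_self
    obtain ⟨w, hw⟩ := CStarAlgebra.nonneg_iff_eq_star_mul_self.1 (sub_nonneg.2 hle)
    have h' := hpos w
    rw [← hw, map_sub, Algebra.algebraMap_eq_smul_one, ← Complex.coe_smul, map_smul,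
      smul_eq_mul] at h'
    have h'' := (Complex.le_def.1 h').1
    simp only [Complex.sub_re, Complex.mul_re, Complex.ofReal_re, Complex.ofReal_im, zero_mul,
      sub_zero, Complex.zero_re, ← h0, mul_zero] at h''
    linarith
  · set c₁ : ℝ := (φ 1).re with hc₁
    have hφ1 : φ 1 = (c₁ : ℂ) := Complex.ext (by simp [hc₁]) (by simp [hone_im])
    let σ : RelQuot K atTop →ₗ[ℂ] ℂ := ((c₁⁻¹ : ℝ) : ℂ) • φ
    have hσt : IsTrace _ σ := by
      refine ⟨fun a => ?_, ?_, fun a b => ?_⟩
      · simp only [σ, LinearMap.smul_apply, smul_eq_mul]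
        exact mul_nonneg (Complex.zero_le_real.2 (inv_nonneg.2 h0.le)) (hpos a)
      · simp only [σ, LinearMap.smul_apply, smul_eq_mul, hφ1]
        rw [← Complex.ofReal_mul, inv_mul_cancel₀ h0.ne', Complex.ofReal_one]
      · simp only [σ, LinearMap.smul_apply, hcomm a b]
    have h2 := hσ σ hσt
    simp only [σ, LinearMap.smul_apply, smul_eq_mul, Complex.mul_re, Complex.ofReal_re,
      Complex.ofReal_im, zero_mul, sub_zero] at h2
    rw [inv_mul_le_iff₀ h0] at h2
    nlinarith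

end Vale.Agent.P095.NU
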