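import Vale.Agent.P095.NU.TracialLimit
import Vale.Agent.P101.Drop.Bridge
import Vale.Agent.P101.Drop.Data

/-!
# P095, all amenable groups, non-unital: the classes carried by a site

A relative dimension drop gives, in the relative central sequence algebra, generators `y, v`,
square-zero contractions `z_i` and `b` with `∑ z* z = 1/4 + b* b`; countably many relative central
sequences can be reindexed into infinitely many commuting copies.
-/

noncomputable section

namespace Vale.Agent.P095.NU

universe u w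

open Filter Topology BoundedContinuousFunction Vale.Agent.P101
open Vale.Agent.P095.Gamma Vale.Agent.P095.Full Vale.Agent.P095.Relative

/-- Labels of the classes of a site: `inl i` is `z i`, and `inr` lists `y`, `v`, `b`. -/
abbrev SiteGen : Type := Fin 6 ⊕ Fin 3

section Rel

variable {C : Type w} [Ring C] [StarRing C] [Algebra ℂ C]

/-- The defects of the relations between the classes of a site. -/
def siteRel (a : SiteGen → C) : Fin 6 ⊕ Fin 4 → C :=
  Sum.elim (fun i => a (.inl i) * a (.inl i))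
    ![∑ i, star (a (.inl i)) * a (.inl i) - ((1 / 4 : ℂ) • 1 + star (a (.inr 2)) * a (.inr 2)),
      a (.inr 0) * a (.inr 0),
      star (a (.inr 1)) * a (.inr 1) -
        (1 - star (a (.inr 0)) * a (.inr 0) - a (.inr 0) * star (a (.inr 0))),
      a (.inr 0) * star (a (.inr 0)) * a (.inr 1) - a (.inr 1)]

theorem map_siteRel {D : Type*} [Ring D] [StarRing D] [Algebra ℂ D] (φ : C →⋆ₐ[ℂ] D)
    (a : SiteGen → C) (p : Fin 6 ⊕ Fin 4) : φ (siteRel a p) = siteRel (fun i => φ (a i)) p := by
  rcases p with i | p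
  · exact map_mul φ _ _
  · fin_cases p <;> simp [siteRel, map_sum, map_star]

end Rel

section Drop

/-- A diagonal element of `Z_{2,3}` depending only on the first coordinate. -/
def dropDiag (f : ℝ → Fin 3 → ℝ) (hf : ∀ a, Continuous fun t => f t a) (h0 : ∀ a, f 0 a = f 0 0) :
    dropAlg23 :=
  ⟨{ toFun := fun t => Matrix.diagonal fun p => ((f t p.1 : ℝ) : ℂ)
     continuous_toFun := by
       refine continuous_matrix fun p q => ?_
       by_cases h : p = q
       · subst h
         simp only [Matrix.diagonal_apply_eq]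
         exact Complex.continuous_ofReal.comp ((hf _).comp continuous_subtype_val)
       · simp only [Matrix.diagonal_apply_ne _ h]
         exact continuous_const },
    ⟨((f 0 0 : ℝ) : ℂ) • 1, by
      ext ⟨a, k⟩ ⟨b, l⟩
      by_cases h1 : a = b <;> by_cases h2 : k = l <;>
        simp [h1, h2, h0, Matrix.diagonal]⟩,
    ⟨Matrix.diagonal fun a => ((f 1 a : ℝ) : ℂ), by
      ext ⟨a, k⟩ ⟨b, l⟩
      by_cases h1 : a = b <;> by_cases h2 : k = l <;>
        simp [h1, h2, Matrix.diagonal]⟩⟩

theorem sum_star_dropGens_apply (t : ↥(Set.Icc (0 : ℝ) 1)) :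
    ((∑ i, star (dropGens i) * dropGens i : dropAlg23) :
      C(↥(Set.Icc (0 : ℝ) 1), Matrix (Fin 3 × Fin 2) (Fin 3 × Fin 2) ℂ)) t
      = Matrix.diagonal fun p => ((dropWeight t p.1 : ℝ) : ℂ) := by
  simp only [Fin.sum_univ_six, dropGens, Matrix.cons_val_zero, Matrix.cons_val_one,
    Matrix.cons_val]
  simp only [AddMemClass.coe_add, MulMemClass.coe_mul, StarMemClass.coe_star]
  simp only [ContinuousMap.coe_add, Pi.add_apply, star_lowFun_mul_apply,
    star_highFun_mul_apply, star_single_mul_single]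
  ext ⟨a, k⟩ ⟨b, l⟩
  simp only [Matrix.add_apply, Matrix.smul_apply, Matrix.kronecker, Matrix.kroneckerMap_apply,
    Matrix.single_apply, Matrix.one_apply, Matrix.diagonal_apply, Prod.mk.injEq, smul_eq_mul]
  fin_cases a <;> fin_cases b <;> fin_cases k <;> fin_cases l <;>
    simp [dropWeight] <;> ring

theorem dropWeight_bounds {t : ℝ} (h0 : 0 ≤ t) (h1 : t ≤ 1) (a : Fin 3) :
    1 / 2 ≤ dropWeight t a ∧ dropWeight t a ≤ 2 := by
  unfold dropWeight
  constructor <;> split <;> nlinarith [sq_nonneg (2 * t - 1)]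

theorem continuous_dropWeight (a : Fin 3) : Continuous fun t => dropWeight t a := by
  unfold dropWeight; fun_prop

/-- A diagonal witness `√(c + d w)` over the weights `w`. -/
def dropWit (c d : ℝ) : dropAlg23 :=
  dropDiag (fun t a => Real.sqrt (c + d * dropWeight t a))
    (fun a => (continuous_const.add (continuous_const.mul (continuous_dropWeight a))).sqrt)
    (fun a => by simp [dropWeight])

theorem star_dropWit_mul {c d : ℝ}
    (h : ∀ t ∈ Set.Icc (0 : ℝ) 1, ∀ a, 0 ≤ c + d * dropWeight t a) :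
    star (dropWit c d) * dropWit c d =
      (c : ℂ) • 1 + (d : ℂ) • ∑ i, star (dropGens i) * dropGens i := by
  refine Subtype.ext (ContinuousMap.ext fun t => ?_)
  show star (Matrix.diagonal fun p : Fin 3 × Fin 2 =>
        ((Real.sqrt (c + d * dropWeight t p.1) : ℝ) : ℂ)) *
      Matrix.diagonal (fun p : Fin 3 × Fin 2 =>
        ((Real.sqrt (c + d * dropWeight t p.1) : ℝ) : ℂ)) =
    (c : ℂ) • 1 + (d : ℂ) • ((∑ i, star (dropGens i) * dropGens i : dropAlg23) :
      C(↥(Set.Icc (0 : ℝ) 1), Matrix (Fin 3 × Fin 2) (Fin 3 × Fin 2) ℂ)) t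
  rw [sum_star_dropGens_apply, Matrix.star_eq_conjTranspose, Matrix.diagonal_conjTranspose,
    Matrix.diagonal_mul_diagonal]
  ext p q
  by_cases hpq : p = q
  · subst hpq
    simp only [Matrix.add_apply, Matrix.smul_apply, Matrix.diagonal_apply_eq, Matrix.one_apply_eq,
      Pi.star_apply, smul_eq_mul, mul_one, Complex.star_def, Complex.conj_ofReal]
    rw [← Complex.ofReal_mul, Real.mul_self_sqrt (h t t.2 p.1)]
    push_cast
    ring
  · simp [Matrix.diagonal_apply_ne _ hpq, Matrix.one_apply_ne hpq]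

end Drop

variable {B : Type u} [CStarAlgebra B] {K : TestIdeal B}

attribute [local instance] CStarAlgebra.spectralOrder CStarAlgebra.spectralOrderedRing

/-- The classes of a site from a relative dimension drop. -/
theorem exists_siteClasses (h : HasRelDrop K) :
    ∃ c : SiteGen → RelQuot K atTop, (∀ i, ‖c (.inl i)‖ ≤ 1) ∧ ∀ p, siteRel c p = 0 := by
  obtain ⟨y, v, h1, h2, h3⟩ := h
  obtain ⟨T, X, N, M, dd⟩ := exists_dropData y v h1 h2 h3
  obtain ⟨ψ₀⟩ := dd.exists_hom
  let ψ : dropAlg23 →⋆ₐ[ℂ] RelQuot K atTop := ψ₀.comp (StarSubalgebra.inclusion dropAlg23_le)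
  set ρ : ℂ := ((Real.sqrt (1 / 2) : ℝ) : ℂ) with hρdef
  have hρ : star ρ * ρ = (1 / 2 : ℂ) := by
    rw [hρdef, Complex.star_def, Complex.conj_ofReal, ← Complex.ofReal_mul,
      Real.mul_self_sqrt (by norm_num)]
    push_cast
    rfl
  set z : Fin 6 → dropAlg23 := fun i => ρ • dropGens i with hz
  have hsum : ∑ i, star (z i) * z i = (1 / 2 : ℂ) • ∑ i, star (dropGens i) * dropGens i := by
    simp only [hz, star_smul, smul_mul_smul_comm, hρ, Finset.smul_sum]
  have hb : ∑ i, star (z i) * z i -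
      ((1 / 4 : ℂ) • 1 + star (dropWit (-(1 / 4)) (1 / 2)) * dropWit (-(1 / 4)) (1 / 2)) = 0 := by
    rw [hsum, star_dropWit_mul fun t ht a => by
      have := (dropWeight_bounds ht.1 ht.2 a).1; linarith]
    push_cast
    module
  have hc : star (dropWit 1 (-(1 / 2))) * dropWit 1 (-(1 / 2)) + ∑ i, star (z i) * z i = 1 := by
    rw [hsum, star_dropWit_mul fun t ht a => by
      have := (dropWeight_bounds ht.1 ht.2 a).2; linarith]
    push_cast
    module
  let c : SiteGen → RelQuot K atTop :=
    Sum.elim (fun i => ψ (z i)) ![y, v, ψ (dropWit (-(1 / 4)) (1 / 2))]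
  have hone := congrArg ψ hc
  simp only [map_add, map_mul, map_star, map_sum, map_one] at hone
  refine ⟨c, fun i => ?_, ?_⟩
  · show ‖ψ (z i)‖ ≤ 1
    have hle : star (ψ (z i)) * ψ (z i) ≤ 1 := by
      conv_rhs => rw [← hone]
      exact le_add_of_nonneg_of_le (star_mul_self_nonneg _)
        (Finset.single_le_sum (f := fun j => star (ψ (z j)) * ψ (z j))
          (fun j _ => star_mul_self_nonneg _) (Finset.mem_univ i))
    have h' := (CStarAlgebra.norm_le_one_iff_of_nonneg _ (star_mul_self_nonneg _)).2 hle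
    rw [CStarRing.norm_star_mul_self] at h'
    nlinarith [norm_nonneg (ψ (z i))]
  · rintro (i | p)
    · show ψ (z i) * ψ (z i) = 0
      rw [← map_mul, hz, smul_mul_smul_comm, dropGens_sq, smul_zero, map_zero]
    · have hbψ := congrArg ψ hb
      rw [map_zero, map_sub ψ, map_add ψ, map_smul ψ, map_one ψ, map_mul ψ, map_star ψ, map_sum ψ] at hbψ
      simp only [map_mul ψ, map_star ψ] at hbψ
      fin_cases p
      · exact hbψ
      · exact h1
      · exact sub_eq_zero.2 h2
      · exact sub_eq_zero.2 h3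

theorem norm_comm_le {x y : B} {a b : ℝ} (hx : ‖x‖ ≤ a) (hy : ‖y‖ ≤ b) :
    ‖x * y - y * x‖ ≤ 2 * (a * b) := by
  refine (norm_sub_le _ _).trans ?_
  have h1 := norm_mul_le_of_le hx hy
  have h2 := norm_mul_le_of_le hy hx
  linarith

/-- Countably many relative central sequences can be reindexed into infinitely many mutually
commuting copies, preserving countably many null relations. -/
theorem exists_reindex_rel [TopologicalSpace.SeparableSpace B] (hK : (0 : B) ∈ K.carrier)
    {ι κ : Type*} [Countable ι] [Nonempty ι] [Countable κ] (W : ι → ℕ →ᵇ B)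
    (hW : ∀ i, IsRel K atTop (W i)) (R : κ → ℕ →ᵇ B)
    (hR : ∀ p, ∀ k ∈ K.carrier, Tendsto (fun n => ‖R p n * k‖) atTop (𝓝 0)) :
    ∃ ks : ℕ → C(ℕ, ℕ), ∃ hrel : ∀ s i, IsRel K atTop ((W i).compContinuous (ks s)),
      (∀ s p, ∀ k ∈ K.carrier, Tendsto (fun n => ‖R p (ks s n) * k‖) atTop (𝓝 0)) ∧
      ∀ s t, s ≠ t → ∀ i l, StarCommute (cls _ (hrel s i)) (cls _ (hrel t l)) := by
  classical
  have : Nonempty K.carrier := ⟨⟨0, hK⟩⟩
  obtain ⟨b, hb⟩ := TopologicalSpace.exists_dense_seq K.carrier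
  let a : ℕ → B := fun p => (b p : B)
  have hden : ∀ k ∈ K.carrier, k ∈ closure (Set.range a) := fun k hk => by
    have := hb.closure_eq ▸ Set.mem_univ (⟨k, hk⟩ : K.carrier)
    exact map_mem_closure (f := fun x : K.carrier => (x : B)) continuous_subtype_val this
      (by rintro _ ⟨p, rfl⟩; exact ⟨p, rfl⟩)
  obtain ⟨e, he⟩ := exists_surjective_nat ι
  obtain ⟨r, hr⟩ := exists_surjective_nat (Option κ)
  let R' : ℕ → ℕ →ᵇ B := fun p => (r p).elim 0 R
  have hR' : ∀ p, ∀ k ∈ K.carrier, Tendsto (fun n => ‖R' p n * k‖) atTop (𝓝 0) := fun p k hk => by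
    show Tendsto (fun n => ‖((r p).elim 0 R : ℕ →ᵇ B) n * k‖) atTop (𝓝 0)
    rcases r p with _ | q
    · simp
    · exact hR q k hk
  let η : ℕ → ℝ := fun n => 1 / ((n : ℝ) + 1)
  have hη : ∀ n, 0 < η n := fun n => by positivity
  have hη0 : Tendsto η atTop (𝓝 0) := tendsto_one_div_add_atTop_nhds_zero_nat
  choose k hk1 hk2 hk3 using fun n =>
    exists_picks (fun p : Fin (n + 1) => W (e p)) (fun p => hW _) R' hR' a (fun p => (b p).2) n
      (hη n) (n + 1)
  let ks : ℕ → C(ℕ, ℕ) := fun s =>
    ⟨fun n => if h : s < n + 1 then k n ⟨s, h⟩ else n, continuous_of_discreteTopology⟩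
  have hks : ∀ s n (h : s < n + 1), ks s n = k n ⟨s, h⟩ := fun s n h => dif_pos h
  have hlim : ∀ {u : ℕ → ℝ}, (∀ n, 0 ≤ u n) → (∀ᶠ n in atTop, u n ≤ η n) →
      Tendsto u atTop (𝓝 0) := fun {u} h0 h => squeeze_zero' (Eventually.of_forall h0) h hη0
  have hrel : ∀ s i, IsRel K atTop ((W i).compContinuous (ks s)) := fun s i => by
    obtain ⟨q, rfl⟩ := he i
    rw [IsRel, mem_relCent]
    intro c hc
    refine tendsto_dense (fun n x => x * W (e q) (ks s n) - W (e q) (ks s n) * x) (2 * ‖W (e q)‖)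
      (fun n => lip_comm _ ((W (e q)).norm_coe_le_norm _)) (fun p => hlim (fun n => norm_nonneg _) ?_)
      (hden c hc)
    filter_upwards [eventually_ge_atTop p, eventually_ge_atTop q, eventually_ge_atTop s]
      with n h1 h2 h3
    rw [hks s n (by omega)]
    exact (hk1 n ⟨s, by omega⟩ ⟨q, by omega⟩ p h1).le
  refine ⟨ks, hrel, fun s p c hc => ?_, ?_⟩
  · obtain ⟨q, hq⟩ := hr (some p)
    have hq' : R' q = R p := by simp [R', hq]
    refine tendsto_dense (fun n x => R p (ks s n) * x) ‖R p‖
      (fun n => lip_mul _ ((R p).norm_coe_le_norm _))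
      (fun l => hlim (fun n => norm_nonneg _) ?_) (hden c hc)
    filter_upwards [eventually_ge_atTop q, eventually_ge_atTop l, eventually_ge_atTop s]
      with n h1 h2 h3
    rw [hks s n (by omega), ← hq']
    exact (hk2 n ⟨s, by omega⟩ q h1 l h2).le
  have main : ∀ s t, t < s → ∀ i l,
      Commute (cls _ (hrel t l)) (cls _ (hrel s i)) ∧
        Commute (star (cls _ (hrel t l))) (cls _ (hrel s i)) := by
    intro s t hts i l
    obtain ⟨p, rfl⟩ := he i
    obtain ⟨q, rfl⟩ := he l
    have hev : ∀ x : ℕ, ∀ᶠ n in atTop,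
        ‖(W (e q) (ks t n) * W (e p) (ks s n) - W (e p) (ks s n) * W (e q) (ks t n)) * a x‖ ≤ η n ∧
        ‖(star (W (e q) (ks t n)) * W (e p) (ks s n) -
          W (e p) (ks s n) * star (W (e q) (ks t n))) * a x‖ ≤ η n := by
      intro x
      filter_upwards [eventually_ge_atTop p, eventually_ge_atTop q, eventually_ge_atTop s,
        eventually_ge_atTop x] with n h1 h2 h3 h4
      rw [hks s n (by omega), hks t n (by omega)]
      obtain ⟨c1, c2⟩ := hk3 n ⟨s, by omega⟩ ⟨t, by omega⟩ hts ⟨p, by omega⟩ ⟨q, by omega⟩ x h4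
      exact ⟨c1.le, c2.le⟩
    constructor
    · rw [Commute, SemiconjBy, ← cls_mul, ← cls_mul, cls_eq_iff]
      intro c hc
      exact tendsto_dense
        (fun n x => (W (e q) (ks t n) * W (e p) (ks s n) - W (e p) (ks s n) * W (e q) (ks t n)) * x)
        (2 * (‖W (e q)‖ * ‖W (e p)‖))
        (fun n => lip_mul _ (norm_comm_le ((W (e q)).norm_coe_le_norm _)
          ((W (e p)).norm_coe_le_norm _)))
        (fun x => hlim (fun n => norm_nonneg _) ((hev x).mono fun n h => h.1)) (hden c hc)
    · rw [Commute, SemiconjBy, ← cls_star, ← cls_mul, ← cls_mul, cls_eq_iff]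
      intro c hc
      exact tendsto_dense
        (fun n x => (star (W (e q) (ks t n)) * W (e p) (ks s n) -
          W (e p) (ks s n) * star (W (e q) (ks t n))) * x)
        (2 * (‖W (e q)‖ * ‖W (e p)‖))
        (fun n => lip_mul _ (norm_comm_le ((norm_star _).trans_le ((W (e q)).norm_coe_le_norm _))
          ((W (e p)).norm_coe_le_norm _)))
        (fun x => hlim (fun n => norm_nonneg _) ((hev x).mono fun n h => h.2)) (hden c hc)
  intro s t hst i l
  rcases lt_or_gt_of_ne hst with h | h
  · exact ⟨(main t s h l i).1, by simpa using ((main t s h l i).2).star_star⟩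
  · exact ⟨(main s t h i l).1.symm, (main s t h i l).2.symm⟩

end Vale.Agent.P095.NU
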