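import Vale.Agent.P095.NU.TracialSites
import Vale.Agent.P095.Full.Tracial.CoreProof
import Vale.Agent.P095.Gamma.Product

/-!
# P095, all amenable groups, non-unital: invariant families from commuting sites

Commuting translation stable sites generate a C*-algebra in which every extremal trace is good, so
the core of the tracial half gives an almost invariant, almost square-zero, almost full family with
bounds in all traces.
-/

noncomputable section

namespace Vale.Agent.P095.NU

universe u v w

open Vale.Agent.P101
open Vale.Agent.P095.Gamma Vale.Agent.P095.Full Vale.Agent.P095.Full.Tracial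

section Algebra

variable {C : Type u} [CStarAlgebra C] [PartialOrder C] [StarOrderedRing C]

theorem starCommute_dropElem_left {a b : C} (h : StarCommute a b) : StarCommute (dropElem a) b := by
  obtain ⟨c1, c2⟩ := h
  have c1' : Commute (star a) b := by simpa using c2.star_star
  have c2' : Commute (star a) (star b) := c1.star_star
  exact ⟨(c1'.mul_left c1).sub_left (c1.mul_left c1'),
    (c2'.mul_left c2).sub_left (c2.mul_left c2')⟩

theorem starCommute_dropElem {a b : C} (h : StarCommute a b) :
    StarCommute (dropElem a) (dropElem b) :=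
  StarCommute.symm (starCommute_dropElem_left (StarCommute.symm (starCommute_dropElem_left h)))

end Algebra

/-- The error is natural in homomorphisms intertwining the actions. -/
theorem map_errElem {C : Type u} [CStarAlgebra C] [PartialOrder C] [StarOrderedRing C]
    {D : Type w} [CStarAlgebra D] [PartialOrder D] [StarOrderedRing D] {G : Type v} [Group G]
    (φ : C →⋆ₐ[ℂ] D) (β : G → C →⋆ₐ[ℂ] C) (β' : G → D →⋆ₐ[ℂ] D)
    (h : ∀ g x, φ (β g x) = β' g (φ x)) (T : Finset G) (Y : Fin 6 → C) :
    φ (errElem β T Y) = errElem β' T fun i => φ (Y i) := by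
  have hsa : IsSelfAdjoint (algebraMap ℝ C (1 / 4) -
      ∑ i, (star (Y i) * Y i + Y i * star (Y i))) := by
    refine (IsSelfAdjoint.algebraMap C (IsSelfAdjoint.all _)).sub (isSelfAdjoint_sum _ fun i _ => ?_)
    exact (IsSelfAdjoint.star_mul_self _).add (IsSelfAdjoint.mul_star_self _)
  simp only [errElem, map_add, map_sum, map_mul, map_star, map_sub, h]
  congr 1
  rw [hom_cfc φ (by unfold posCut; fun_prop) hsa]
  simp only [map_sub, map_sum, map_add, map_mul, map_star,
    IsScalarTower.algebraMap_apply ℝ ℂ C, IsScalarTower.algebraMap_apply ℝ ℂ D,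
    AlgHomClass.commutes]

variable {Q : Type u} [CStarAlgebra Q] {G : Type v} [Group G]

attribute [local instance] CStarAlgebra.spectralOrder CStarAlgebra.spectralOrderedRing

/-- The closed algebra of the translates of the classes of all sites. -/
def siteAlg (β : G → Q →⋆ₐ[ℂ] Q) (W : Site → SiteGen → Q) : StarSubalgebra ℂ Q :=
  (StarAlgebra.adjoin ℂ {x | ∃ g s i, β g (W s i) = x}).topologicalClosure

instance siteAlg.isClosed (β : G → Q →⋆ₐ[ℂ] Q) (W : Site → SiteGen → Q) :
    IsClosed (siteAlg β W : Set Q) :=
  StarSubalgebra.isClosed_topologicalClosure _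

instance siteAlg.instCStarAlgebra (β : G → Q →⋆ₐ[ℂ] Q) (W : Site → SiteGen → Q) :
    CStarAlgebra (siteAlg β W) :=
  StarSubalgebra.cstarAlgebra _

/-- An invariant family with small error in all traces, from commuting sites. -/
theorem exists_invariant_family [DecidableEq G] (β : G → Q →⋆ₐ[ℂ] Q) (hβ1 : ∀ x, β 1 x = x)
    (hβmul : ∀ g k x, β (g * k) x = β g (β k x)) (W : Site → SiteGen → Q)
    (hnorm : ∀ s i, ‖W s (.inl i)‖ ≤ 1) (hrel : ∀ s p, siteRel (W s) p = 0)
    (hcomm : ∀ s t, s ≠ t → ∀ g k i j, StarCommute (β g (W s i)) (β k (W t j)))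
    (hG : IsFolnerGroup G) (T : Finset G) {ε : ℝ} (hε : 0 < ε) :
    ∃ Y : Fin 6 → Q, (∀ i, ‖Y i‖ ≤ 1) ∧
      ∀ σ : Q →ₗ[ℂ] ℂ, IsTrace Q σ → ‖σ (errElem β T Y)‖ ≤ ε := by
  set B₀ := siteAlg β W
  have hgen : ∀ g s i, β g (W s i) ∈ B₀ := fun g s i =>
    StarSubalgebra.le_topologicalClosure _ (StarAlgebra.subset_adjoin ℂ _ ⟨g, s, i, rfl⟩)
  have hpres : ∀ g, ∀ x : B₀, β g x ∈ B₀ := fun g x => by
    have hle : B₀ ≤ B₀.comap (β g) := StarSubalgebra.topologicalClosure_minimal
      (StarAlgebra.adjoin_le (by
        rintro _ ⟨k, s, i, rfl⟩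
        show β g (β k (W s i)) ∈ B₀
        rw [← hβmul]
        exact hgen _ _ _))
      ((siteAlg.isClosed β W).preimage (continuous_starAlgHom (β g)))
    exact hle x.2
  let act : G → B₀ →⋆ₐ[ℂ] B₀ := fun g =>
    StarAlgHom.codRestrict ((β g).comp B₀.subtype) B₀ (hpres g)
  let w : Site → SiteGen → B₀ := fun s i => ⟨W s i, by simpa only [hβ1] using hgen 1 s i⟩
  have hw : ∀ s p, siteRel (w s) p = 0 := fun s p => Subtype.ext (by
    show B₀.subtype (siteRel (w s) p) = 0
    rw [map_siteRel]
    exact hrel s p)
  have hc : ∀ s t, s ≠ t → ∀ g k i j, StarCommute (act g (w s i)) (act k (w t j)) :=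
    fun s t hst g k i j =>
      ⟨Subtype.ext (hcomm s t hst g k i j).1, Subtype.ext (hcomm s t hst g k i j).2⟩
  let S : Fam B₀ G :=
    { act := act
      act_one := fun x => Subtype.ext (hβ1 _)
      act_mul := fun g k x => Subtype.ext (hβmul g k _)
      h := fun s => dropElem (w s (.inr 0))
      z := fun s i => w s (.inl i)
      h_sa := fun s => star_dropElem _
      h_norm := fun s => norm_dropElem_le (v := w s (.inr 1)) (hw s (.inr 1))
        (sub_eq_zero.1 (hw s (.inr 2)))
      z_sq := fun s i => hw s (.inl i)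
      z_norm := fun s i => hnorm s i
      z_lower := fun s => ⟨w s (.inr 2), sub_eq_zero.1 (hw s (.inr 0))⟩
      comm := fun s t hst g k => by
        refine ⟨?_, fun i => ?_, fun i j => hc s t hst g k _ _⟩
        · rw [map_dropElem, map_dropElem]
          exact starCommute_dropElem (hc s t hst g k _ _)
        · rw [map_dropElem]
          exact starCommute_dropElem_left (hc s t hst g k _ _) }
  -- every extremal trace is good
  have hgood : ∀ σ : B₀ →ₗ[ℂ] ℂ, IsExtremalTrace B₀ σ → S.Good σ := fun σ hσ =>
    { trace := hσ.toIsTrace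
      mean := fun g s => by
        show σ (act g (dropElem (w s (.inr 0)))) = 0
        rw [map_dropElem]
        exact hσ.toIsTrace.map_dropElem_eq_zero _
      var := fun g s => by
        show (2 / 9 : ℝ) ≤ (σ (act g (dropElem (w s (.inr 0))) *
          act g (dropElem (w s (.inr 0))))).re
        rw [map_dropElem]
        refine hσ.toIsTrace.two_ninths_le (v := act g (w s (.inr 1))) ?_ ?_ ?_
        · rw [← map_mul, show w s (.inr 0) * w s (.inr 0) = 0 from hw s (.inr 1), map_zero]
        · simp only [← map_star, ← map_mul,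
            show star (w s (.inr 1)) * w s (.inr 1) = 1 - star (w s (.inr 0)) * w s (.inr 0) -
              w s (.inr 0) * star (w s (.inr 0)) from sub_eq_zero.1 (hw s (.inr 2)),
            map_sub, map_one]
        · simp only [← map_star, ← map_mul,
            show w s (.inr 0) * star (w s (.inr 0)) * w s (.inr 1) = w s (.inr 1) from
              sub_eq_zero.1 (hw s (.inr 3))]
      indep := fun P d hd e he => by
        let gp : Set Site → Set B₀ := fun P => {x | ∃ g, ∃ s ∈ P, ∃ i, act g (w s i) = x}
        let L : Set Site → StarSubalgebra ℂ B₀ := fun P =>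
          (StarAlgebra.adjoin ℂ (gp P)).topologicalClosure
        have hsub : ∀ P, gp P ⊆ L P := fun P x hx =>
          StarSubalgebra.le_topologicalClosure _ (StarAlgebra.subset_adjoin ℂ _ hx)
        have halg : ∀ P, S.alg P ≤ L P := fun P => by
          refine S.alg_le (StarSubalgebra.isClosed_topologicalClosure _) ?_
          rintro _ ⟨g, s, hs, rfl | ⟨i, rfl⟩⟩
          · show act g (dropElem (w s (.inr 0))) ∈ L P
            rw [map_dropElem]
            have hy : act g (w s (.inr 0)) ∈ L P := hsub P ⟨g, s, hs, _, rfl⟩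
            exact sub_mem (mul_mem (star_mem hy) hy) (mul_mem hy (star_mem hy))
          · exact hsub P ⟨g, s, hs, _, rfl⟩
        have h1 : ∀ x ∈ L P, ∀ z ∈ L Pᶜ, StarCommute x z := by
          intro x hx z hz
          have hxc : x ∈ StarSubalgebra.centralizer ℂ (gp Pᶜ) :=
            StarSubalgebra.topologicalClosure_minimal (StarAlgebra.adjoin_le fun a ha =>
              mem_centralizer_of_starCommute fun b hb => by
                obtain ⟨g, s, hs, i, rfl⟩ := ha
                obtain ⟨k, t, ht, j, rfl⟩ := hb
                exact hc s t (fun e => ht (e ▸ hs)) g k i j)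
              (isClosed_centralizer _) hx
          have hzc : z ∈ StarSubalgebra.centralizer ℂ {x} := by
            refine StarSubalgebra.topologicalClosure_minimal (StarAlgebra.adjoin_le fun b hb =>
              mem_centralizer_of_starCommute ?_) (isClosed_centralizer _) hz
            rintro _ rfl
            exact (starCommute_of_mem_centralizer hxc hb).symm
          exact (starCommute_of_mem_centralizer hzc rfl).symm
        refine productStatement B₀ σ hσ (L P) (L Pᶜ) (fun x hx z hz => (h1 x hx z hz).1) ?_
          d (halg P hd) e (halg Pᶜ he)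
        -- the two algebras generate everything
        refine eq_top_iff.2 fun x _ => ?_
        show x ∈ closure ((L P ⊔ L Pᶜ : StarSubalgebra ℂ B₀) : Set B₀)
        rw [closure_subtype]
        refine closure_mono ?_ x.2
        have hmem : StarAlgebra.adjoin ℂ {x | ∃ g s i, β g (W s i) = x} ≤
            (L P ⊔ L Pᶜ).map B₀.subtype := StarAlgebra.adjoin_le (by
          rintro _ ⟨g, s, i, rfl⟩
          refine ⟨act g (w s i), ?_, rfl⟩
          by_cases hs : s ∈ P
          · exact (le_sup_left : L P ≤ L P ⊔ L Pᶜ) (hsub P ⟨g, s, hs, i, rfl⟩)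
          · exact (le_sup_right : L Pᶜ ≤ L P ⊔ L Pᶜ) (hsub Pᶜ ⟨g, s, hs, i, rfl⟩))
        exact hmem }
  obtain ⟨Y, hYn, hY⟩ := coreStatement B₀ G hG S T ε hε
  refine ⟨fun i => (Y i : Q), hYn, fun σ hσ => ?_⟩
  have e : (B₀.subtype (errElem act T Y) : Q) = errElem β T fun i => (Y i : Q) :=
    map_errElem B₀.subtype act β (fun g x => rfl) T Y
  rw [← e]
  exact extremalStatement B₀ (errElem act T Y) ε (fun ρ hρ => hY ρ (hgood ρ hρ))
    (σ.comp B₀.subtype.toAlgHom.toLinearMap)
    ⟨fun b => hσ.nonneg (b : Q), hσ.map_one, fun b c => hσ.comm (b : Q) c⟩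

end Vale.Agent.P095.NU
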